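import Crest.Agent.R230.CertA

/-! # Row 230: a verified checker for the certificates with `4 ≤ n ≤ 19` -/

set_option autoImplicit false

namespace Crest.Agent.R230.CertC

/-- Horner evaluation of a coefficient list. -/
noncomputable def pev : List ℚ → ℝ → ℝ
  | [], _ => 0
  | c :: p, x => c + x * pev p x

def padd : List ℚ → List ℚ → List ℚ
  | [], q => q
  | a :: p, [] => a :: p
  | a :: p, b :: q => (a + b) :: padd p q

def psm (c : ℚ) : List ℚ → List ℚ
  | [] => []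
  | a :: p => (c * a) :: psm c p

def pmul : List ℚ → List ℚ → List ℚ
  | [], _ => []
  | a :: p, q => padd (psm a q) (0 :: pmul p q)

def ppow (p : List ℚ) : ℕ → List ℚ
  | 0 => [1]
  | k + 1 => pmul p (ppow p k)

def shift (h : ℚ) : List ℚ → List ℚ
  | [] => []
  | c :: p => padd [c] (pmul [h, 1] (shift h p))

def lb (h : ℚ) : List ℚ → ℚ
  | [] => 0
  | c :: p => c + min 0 (h * lb h p)

def strip : List ℚ → List ℚ
  | [] => []
  | c :: p => if c = 0 then strip p else c :: p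

def chk (h : ℚ) : ℕ → List ℚ → Bool
  | 0, p => decide (0 ≤ lb h p)
  | N + 1, p => decide (0 ≤ lb h p) && chk h N (shift h p)

@[simp] theorem pev_nil (x : ℝ) : pev [] x = 0 := rfl
@[simp] theorem pev_cons (c : ℚ) (p : List ℚ) (x : ℝ) : pev (c :: p) x = c + x * pev p x := rfl

@[simp] theorem pev_padd (p q : List ℚ) (x : ℝ) : pev (padd p q) x = pev p x + pev q x := by
  induction p generalizing q with
  | nil => simp [padd]
  | cons a p ih =>
    cases q with
    | nil => simp [padd]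
    | cons b q => simp only [padd, pev_cons, ih]; push_cast; ring

@[simp] theorem pev_psm (c : ℚ) (p : List ℚ) (x : ℝ) : pev (psm c p) x = c * pev p x := by
  induction p with
  | nil => simp [psm]
  | cons a p ih => simp only [psm, pev_cons, ih]; push_cast; ring

@[simp] theorem pev_pmul (p q : List ℚ) (x : ℝ) : pev (pmul p q) x = pev p x * pev q x := by
  induction p with
  | nil => simp [pmul]
  | cons a p ih => simp only [pmul, pev_padd, pev_psm, pev_cons, ih]; push_cast; ring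

@[simp] theorem pev_ppow (p : List ℚ) (k : ℕ) (x : ℝ) : pev (ppow p k) x = pev p x ^ k := by
  induction k with
  | zero => simp [ppow]
  | succ k ih => simp only [ppow, pev_pmul, ih]; ring

theorem pev_shift (h : ℚ) (p : List ℚ) (x : ℝ) : pev (shift h p) x = pev p (h + x) := by
  induction p with
  | nil => simp [shift]
  | cons a p ih => simp only [shift, pev_padd, pev_pmul, pev_cons, pev_nil, ih]; push_cast; ring

theorem lb_le (h : ℚ) (p : List ℚ) {x : ℝ} (h0 : 0 ≤ x) (h1 : x ≤ h) : (lb h p : ℝ) ≤ pev p x := by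
  induction p with
  | nil => simp [lb]
  | cons a p ih =>
    simp only [lb, pev_cons]
    push_cast
    have h2 : x * (lb h p : ℝ) ≤ x * pev p x := mul_le_mul_of_nonneg_left ih h0
    rcases le_total 0 (lb h p : ℝ) with h3 | h3
    · have := mul_nonneg h0 h3
      have := min_le_left (0 : ℝ) (h * (lb h p : ℝ))
      linarith
    · have := mul_le_mul_of_nonpos_right h1 h3
      have := min_le_right (0 : ℝ) (h * (lb h p : ℝ))
      linarith

theorem strip_nonneg (p : List ℚ) {x : ℝ} (h0 : 0 ≤ x) (h : 0 ≤ pev (strip p) x) : 0 ≤ pev p x := by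
  induction p with
  | nil => simp
  | cons a p ih =>
    by_cases ha : a = 0
    · simp only [strip, ha, if_true] at h
      simp only [ha, pev_cons, Rat.cast_zero, zero_add]
      exact mul_nonneg h0 (ih h)
    · simpa only [strip, ha, if_false] using h

theorem chk_sound (h : ℚ) (N : ℕ) (p : List ℚ) (hc : chk h N p = true) {x : ℝ} (h0 : 0 ≤ x)
    (h1 : x ≤ (N + 1) * h) : 0 ≤ pev p x := by
  induction N generalizing p x with
  | zero =>
    simp only [chk, decide_eq_true_eq] at hc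
    have h2 : (0 : ℝ) ≤ lb h p := by exact_mod_cast hc
    exact h2.trans (lb_le h p h0 (by simpa using h1))
  | succ N ih =>
    simp only [chk, Bool.and_eq_true, decide_eq_true_eq] at hc
    rcases le_total x h with h2 | h2
    · have h3 : (0 : ℝ) ≤ lb h p := by exact_mod_cast hc.1
      exact h3.trans (lb_le h p h0 h2)
    · have := ih _ hc.2 (x := x - h) (by linarith) (by push_cast at h1; linarith)
      rwa [pev_shift, add_sub_cancel] at this

/-- Positivity on `[0, L]` with `N + 1` subintervals (vacuous if `L < 0`). -/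
def posOn (L : ℚ) (N : ℕ) (p : List ℚ) : Bool := decide (L < 0) || chk (L / (N + 1)) N (strip p)

theorem posOn_sound {L : ℚ} {N : ℕ} {p : List ℚ} (hc : posOn L N p = true) {x : ℝ} (h0 : 0 ≤ x)
    (h1 : x ≤ L) : 0 ≤ pev p x := by
  simp only [posOn, Bool.or_eq_true, decide_eq_true_eq] at hc
  rcases hc with hc | hc
  · have : (L : ℝ) < 0 := by exact_mod_cast hc
    linarith
  · refine strip_nonneg p h0 (chk_sound _ N _ hc h0 ?_)
    push_cast
    rw [mul_div_cancel₀ _ (by positivity)]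
    exact h1

/-- `n t^n (c · hfun n t - L)` with `t = t0 + x`. -/
def dd (n : ℕ) (c : ℚ) (L : List ℚ) (t0 : ℚ) : List ℚ :=
  padd (psm c (padd (pmul [n * (t0 - 1) - 1, n] (ppow [t0, 1] n)) [1]))
    (psm (-n) (pmul (ppow [t0, 1] n) L))

theorem dd_sound {n : ℕ} (hn : 1 ≤ n) {c : ℚ} {L : List ℚ} {t0 : ℚ} {x : ℝ} (ht : 0 < t0 + x)
    (h : 0 ≤ pev (dd n c L t0) x) : pev L x ≤ c * hfun n (t0 + x) := by
  have hn' : (0 : ℝ) < n := by exact_mod_cast hn
  simp only [dd, pev_padd, pev_psm, pev_pmul, pev_ppow, pev_cons, pev_nil] at h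
  push_cast at h
  simp only [mul_zero, add_zero, mul_one] at h
  have hp : 0 < ((t0 : ℝ) + x) ^ n := pow_pos ht n
  have e : c * hfun n (t0 + x) - pev L x =
      (c * ((n * (t0 - 1) - 1 + x * n) * ((t0 : ℝ) + x) ^ n + 1) +
        -n * (((t0 : ℝ) + x) ^ n * pev L x)) / (n * ((t0 : ℝ) + x) ^ n) := by
    unfold hfun
    rw [inv_pow]
    field_simp
    ring
  have : 0 ≤ c * hfun n (t0 + x) - pev L x := by
    rw [e]; positivity
  linarith

def tq (n : ℕ) : ℚ := ((n : ℚ) + 1) ^ 2 * ((n : ℚ) - 1 / 2) / (63 / 25 * (n : ℚ) ^ 2)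
def bq (n : ℕ) : ℚ := (1 + 4 * ((n : ℚ) + 1) * ((n : ℚ) + 2)) / (((n : ℚ) + 1) * ((n : ℚ) + 3))
def lq (n : ℕ) : ℚ := 4 * (4 + (n : ℚ) - 2)

theorem tq_cast (n : ℕ) : (tq n : ℝ) = tau2 n := by simp [tq, tau2]
theorem bq_cast (n : ℕ) : (bq n : ℝ) = beta4 n := by simp [bq, beta4]
theorem lq_cast (n : ℕ) : (lq n : ℝ) = lam n 4 := by simp [lq, lam]

def L1 (n : ℕ) (C β ω δ : ℚ) : List ℚ :=
  padd (psm C (ppow [0, 1, -(ω / (2 * δ))] 2))
    (psm (β * (n - 1) * ω ^ 2 / (3 * δ ^ 2)) [0, 0, 0, 1, 1])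

def L2 (n : ℕ) (C β ω δ W α : ℚ) : List ℚ :=
  padd (psm C (ppow [δ - ω * δ / 2, 1 - ω] 2))
    (psm β (padd (psm ((n - 1) * ω ^ 2) (pmul [1 + δ, 1] [δ / 3, 1, -(1 / (2 * W))]))
      (pmul [0, ω ^ 2 / W] (padd [tq n * α ^ 2] (psm (-1) (ppow [1 + δ, 1] 2))))))

def L3 (n : ℕ) (C β ω δ W α : ℚ) : List ℚ :=
  padd (psm C (ppow [δ - ω * δ / 2 + (1 - ω) * W, 1 - ω] 2))
    (psm β (padd (psm ((n - 1) * (ω ^ 2 * (δ / 3 + W / 2))) [1 + δ + W, 1])
      (psm (ω ^ 2) (padd [tq n * α ^ 2] (psm (-1) (ppow [1 + δ + W, 1] 2))))))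

def check (n : ℕ) (a C β ω δ W T : ℚ) (N : ℕ) : Bool :=
  decide (1 < a ∧ 0 < C ∧ 0 < β ∧ 0 < δ ∧ 0 < W ∧ 0 ≤ T ∧ tq n * a ^ 2 ≤ T ^ 2 ∧
    bq n * (1 / C + 1 / (β * lq n)) ≤ 1 ∧
    bq n / lq n * (tq n - 1) * a ^ 2 ≤ (1 - 1 / 1000) * (a ^ 2 - 1) ∧
    C ≤ (1 - 1 / 1000) * (n + 1)) &&
  posOn δ N (dd n ((1 - 1 / 1000) * (1 + 1)) (L1 n C β ω δ) 1) &&
  posOn (min W (T - (1 + δ))) N (dd n ((1 - 1 / 1000) * (1 + 1)) (L2 n C β ω δ W 1) (1 + δ)) &&
  posOn (min W (T - (1 + δ))) N (dd n ((1 - 1 / 1000) * (1 + a)) (L2 n C β ω δ W a) (1 + δ)) &&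
  posOn (T - (1 + δ + W)) N (dd n ((1 - 1 / 1000) * (1 + 1)) (L3 n C β ω δ W 1) (1 + δ + W)) &&
  posOn (T - (1 + δ + W)) N (dd n ((1 - 1 / 1000) * (1 + a)) (L3 n C β ω δ W a) (1 + δ + W))

theorem check_sound {n : ℕ} (hn : 1 ≤ n) {a C β ω δ W T : ℚ} {N : ℕ}
    (h : check n a C β ω δ W T N = true) : Nonempty (Cert n) := by
  simp only [check, Bool.and_eq_true, decide_eq_true_eq] at h
  obtain ⟨⟨⟨⟨⟨⟨h1, h2, h3, h4, h5, h6, h7, h8, h9, h10⟩, c1⟩, c2⟩, c3⟩, c4⟩, c5⟩ := h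
  have hδ : (0 : ℝ) < δ := by exact_mod_cast h4
  have hW : (0 : ℝ) < W := by exact_mod_cast h5
  have P2 : ∀ α : ℚ, posOn (min W (T - (1 + δ))) N
      (dd n ((1 - 1 / 1000) * (1 + α)) (L2 n C β ω δ W α) (1 + δ)) = true →
      ∀ y : ℝ, 0 ≤ y → y ≤ W → 1 + δ + y ≤ T →
      (C : ℝ) * (δ - ω * δ / 2 + (1 - ω) * y) ^ 2 +
        β * (((n : ℝ) - 1) * (1 + δ + y) * (ω ^ 2 * (δ / 3 + y - y ^ 2 / (2 * W))) +
          ω ^ 2 / W * y * (tau2 n * α ^ 2 - (1 + δ + y) ^ 2)) ≤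
        (1 - 1 / 1000) * (1 + α) * hfun n (1 + δ + y) := by
    intro α c y hy0 hy1 hy2
    have := dd_sound hn (by push_cast; positivity)
      (posOn_sound c hy0 (by push_cast; exact le_min hy1 (by linarith)))
    simp only [L2, pev_padd, pev_psm, pev_pmul, pev_ppow, pev_cons, pev_nil] at this
    push_cast at this
    rw [tq_cast] at this
    convert this using 1
    ring
  have P3 : ∀ α : ℚ, posOn (T - (1 + δ + W)) N
      (dd n ((1 - 1 / 1000) * (1 + α)) (L3 n C β ω δ W α) (1 + δ + W)) = true →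
      ∀ z : ℝ, 0 ≤ z → 1 + δ + W + z ≤ T →
      (C : ℝ) * (δ - ω * δ / 2 + (1 - ω) * W + (1 - ω) * z) ^ 2 +
        β * (((n : ℝ) - 1) * (1 + δ + W + z) * (ω ^ 2 * (δ / 3 + W / 2)) +
          ω ^ 2 * (tau2 n * α ^ 2 - (1 + δ + W + z) ^ 2)) ≤
        (1 - 1 / 1000) * (1 + α) * hfun n (1 + δ + W + z) := by
    intro α c z hz0 hz1
    have := dd_sound hn (by push_cast; positivity)
      (posOn_sound c hz0 (by push_cast; linarith))
    simp only [L3, pev_padd, pev_psm, pev_pmul, pev_ppow, pev_cons, pev_nil] at this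
    push_cast at this
    rw [tq_cast] at this
    convert this using 1
    ring
  refine cert_of_pieces hn (η := 1 / 1000) (a := a) (C := C) (β := β) (ω := ω) (δ := δ) (W := W)
    (T := T) (by norm_num) (by norm_num) (by exact_mod_cast h1) (by exact_mod_cast h2)
    (by exact_mod_cast h3) hδ hW (by exact_mod_cast h6) ?_ ?_ ?_ ?_ ?_ ?_ ?_
  · rw [← tq_cast]; exact_mod_cast h7
  · rw [← bq_cast, ← lq_cast]; exact_mod_cast h8
  · rw [← bq_cast, ← lq_cast, ← tq_cast]
    have := (Rat.cast_le (K := ℝ)).2 h9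
    push_cast at this
    exact this
  · have := (Rat.cast_le (K := ℝ)).2 h10
    push_cast at this
    exact this
  · intro s hs0 hs1
    have := dd_sound hn (by push_cast; positivity) (posOn_sound c1 hs0 hs1)
    simp only [L1, pev_padd, pev_psm, pev_ppow, pev_cons, pev_nil] at this
    push_cast at this
    convert this using 1
    ring
  · rintro α (rfl | rfl) y hy0 hy1 hy2
    · simpa using P2 1 c2 y hy0 hy1 hy2
    · exact P2 a c3 y hy0 hy1 hy2
  · rintro α (rfl | rfl) z hz0 hz1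
    · simpa using P3 1 c4 z hz0 hz1
    · exact P3 a c5 z hz0 hz1

end Crest.Agent.R230.CertC
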