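import Crest.Agent.R230.CertB
import Crest.Agent.R230.CertC

/-! # Row 230: existence of the one-dimensional certificates -/

set_option autoImplicit false

namespace Crest.Agent.R230

theorem cert_chk4 : CertC.check 4 (1097/1000) (124/25) (951/2000) (269/500) (3/20) (73/50) (81/50) 13 = true := by
  decide +kernel

theorem cert_chk5 : CertC.check 5 (1117/1000) (113/20) (3337/10000) (31/50) (153/1000) (127/100) (9/5) 0 = true := by
  decide +kernel

theorem cert_chk6 : CertC.check 6 (1133/1000) (317/50) (639/2500) (17/25) (151/1000) (123/100) (49/25) 0 = true := by
  decide +kernel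

theorem cert_chk7 : CertC.check 7 (573/500) (703/100) (413/2000) (71/100) (71/500) (6/5) (211/100) 0 = true := by
  decide +kernel

theorem cert_chk8 : CertC.check 8 (1157/1000) (773/100) (863/5000) (37/50) (33/250) (117/100) (9/4) 0 = true := by
  decide +kernel

theorem cert_chk9 : CertC.check 9 (1167/1000) (843/100) (1481/10000) (77/100) (31/250) (117/100) (239/100) 0 = true := by
  decide +kernel

theorem cert_chk10 : CertC.check 10 (47/40) (457/50) (259/2000) (79/100) (117/1000) (23/20) (251/100) 0 = true := by
  decide +kernel

theorem cert_chk11 : CertC.check 11 (591/500) (493/50) (1149/10000) (4/5) (27/250) (113/100) (66/25) 0 = true := by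
  decide +kernel

theorem cert_chk12 : CertC.check 12 (297/250) (1057/100) (1033/10000) (41/50) (51/500) (113/100) (11/4) 0 = true := by
  decide +kernel

theorem cert_chk13 : CertC.check 13 (597/500) (1129/100) (469/5000) (83/100) (19/200) (111/100) (287/100) 0 = true := by
  decide +kernel

theorem cert_chk14 : CertC.check 14 (1199/1000) (601/50) (429/5000) (21/25) (9/100) (11/10) (149/50) 0 = true := by
  decide +kernel

theorem cert_chk15 : CertC.check 15 (1203/1000) (51/4) (791/10000) (17/20) (17/200) (27/25) (77/25) 0 = true := by
  decide +kernel

theorem cert_chk16 : CertC.check 16 (1207/1000) (337/25) (733/10000) (43/50) (2/25) (27/25) (319/100) 0 = true := by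
  decide +kernel

theorem cert_chk17 : CertC.check 17 (1211/1000) (1421/100) (171/2500) (87/100) (19/250) (107/100) (329/100) 0 = true := by
  decide +kernel

theorem cert_chk18 : CertC.check 18 (607/500) (299/20) (8/125) (87/100) (9/125) (53/50) (169/50) 0 = true := by
  decide +kernel

theorem cert_chk19 : CertC.check 19 (1217/1000) (1569/100) (301/5000) (22/25) (17/250) (53/50) (87/25) 0 = true := by
  decide +kernel

theorem exists_cert {n : ℕ} (hn : 4 ≤ n) : Nonempty (Cert n) := by
  by_cases h : 20 ≤ n
  · exact cert_large h
  have h' : n < 20 := by omega
  interval_cases n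
  · exact CertC.check_sound (by norm_num) cert_chk4
  · exact CertC.check_sound (by norm_num) cert_chk5
  · exact CertC.check_sound (by norm_num) cert_chk6
  · exact CertC.check_sound (by norm_num) cert_chk7
  · exact CertC.check_sound (by norm_num) cert_chk8
  · exact CertC.check_sound (by norm_num) cert_chk9
  · exact CertC.check_sound (by norm_num) cert_chk10
  · exact CertC.check_sound (by norm_num) cert_chk11
  · exact CertC.check_sound (by norm_num) cert_chk12
  · exact CertC.check_sound (by norm_num) cert_chk13
  · exact CertC.check_sound (by norm_num) cert_chk14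
  · exact CertC.check_sound (by norm_num) cert_chk15
  · exact CertC.check_sound (by norm_num) cert_chk16
  · exact CertC.check_sound (by norm_num) cert_chk17
  · exact CertC.check_sound (by norm_num) cert_chk18
  · exact CertC.check_sound (by norm_num) cert_chk19

end Crest.Agent.R230
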