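import Crest.Agent.R230.Defs

/-! # Row 230: the piecewise polynomial family of certificates -/

set_option autoImplicit false

namespace Crest.Agent.R230

theorem cert_hasDerivAt_max_pow (k : ℕ) (c x : ℝ) :
    HasDerivAt (fun t : ℝ => max (t - c) 0 ^ (k + 2)) (((k : ℝ) + 2) * max (x - c) 0 ^ (k + 1)) x := by
  have hpos : HasDerivAt (fun t : ℝ => (t - c) ^ (k + 2)) (((k : ℝ) + 2) * (x - c) ^ (k + 1)) x := by
    have := ((hasDerivAt_id x).sub_const c).fun_pow (k + 2)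
    simpa using this
  rcases lt_trichotomy x c with h | h | h
  · have h1 : max (x - c) 0 = 0 := max_eq_right (by linarith)
    rw [h1, zero_pow (by omega), mul_zero]
    refine (hasDerivAt_const x (0 : ℝ)).congr_of_eventuallyEq ?_
    filter_upwards [Iio_mem_nhds h] with t ht
    have : max (t - c) 0 = 0 := max_eq_right (by have : t < c := ht; linarith)
    simp [this]
  · subst h
    have hl : HasDerivWithinAt (fun t : ℝ => max (t - x) 0 ^ (k + 2))
        (((k : ℝ) + 2) * max (x - x) 0 ^ (k + 1)) (Set.Iic x) x := by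
      simp only [sub_self, max_self, zero_pow (Nat.succ_ne_zero k), mul_zero]
      refine (hasDerivWithinAt_const x (Set.Iic x) (0 : ℝ)).congr (fun t ht => ?_) (by simp)
      have : max (t - x) 0 = 0 := max_eq_right (by have : t ≤ x := ht; linarith)
      simp [this]
    have hr : HasDerivWithinAt (fun t : ℝ => max (t - x) 0 ^ (k + 2))
        (((k : ℝ) + 2) * max (x - x) 0 ^ (k + 1)) (Set.Ici x) x := by
      have h2 : max (x - x) 0 = x - x := by simp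
      rw [h2]
      refine hpos.hasDerivWithinAt.congr (fun t ht => ?_) (by simp)
      have : max (t - x) 0 = t - x := max_eq_left (by have : x ≤ t := ht; linarith)
      simp [this]
    have := hl.union hr
    rwa [Set.Iic_union_Ici, hasDerivWithinAt_univ] at this
  · have h1 : max (x - c) 0 = x - c := max_eq_left (by linarith)
    rw [h1]
    refine hpos.congr_of_eventuallyEq ?_
    filter_upwards [Ioi_mem_nhds h] with t ht
    have : max (t - c) 0 = t - c := max_eq_left (by have : c < t := ht; linarith)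
    simp [this]

theorem cert_binom (n : ℕ) {u : ℝ} (hu : 0 ≤ u) :
    1 + n * u + n * (n - 1) / 2 * u ^ 2 ≤ (1 + u) ^ n := by
  induction n with
  | zero => simp
  | succ m ih =>
    rw [pow_succ (1 + u)]
    have h1 := mul_le_mul_of_nonneg_right ih (by linarith : 0 ≤ 1 + u)
    have h2 : (0 : ℝ) ≤ m * (m - 1) := by
      rcases Nat.eq_zero_or_pos m with h | h
      · simp [h]
      · have : (1 : ℝ) ≤ m := by exact_mod_cast h
        exact mul_nonneg (by linarith) (by linarith)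
    have h3 : 0 ≤ (m : ℝ) * (m - 1) * u ^ 3 := by positivity
    push_cast
    nlinarith

theorem cert_hfun_left {n : ℕ} (hn : 1 ≤ n) {t : ℝ} (ht : 0 < t) (ht1 : t ≤ 1) :
    ((n : ℝ) + 1) / 2 * (t - 1) ^ 2 ≤ hfun n t := by
  have hn' : (1 : ℝ) ≤ n := by exact_mod_cast hn
  set u := t⁻¹ - 1 with hu
  have hti : t * t⁻¹ = 1 := mul_inv_cancel₀ ht.ne'
  have hinv : 1 ≤ t⁻¹ := (one_le_inv₀ ht).2 ht1
  have hu1 : (1 - t) + (1 - t) ^ 2 ≤ u := by
    have h1 : u * t = 1 - t := by rw [hu]; linarith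
    have h2 : ((1 - t) + (1 - t) ^ 2) * t ≤ u * t := by
      rw [h1]; nlinarith [mul_nonneg (sub_nonneg.2 ht1) (sq_nonneg (1 - t))]
    exact le_of_mul_le_mul_right h2 ht
  have hu0 : 0 ≤ u := by rw [hu]; linarith
  have h3 := cert_binom n hu0
  have h4 : 1 + u = t⁻¹ := by rw [hu]; ring
  rw [h4] at h3
  have h5 : u + (n - 1) / 2 * u ^ 2 ≤ (t⁻¹ ^ n - 1) / n := by
    rw [le_div_iff₀ (by linarith)]; nlinarith
  have h6 : (1 - t) ^ 2 ≤ u ^ 2 := pow_le_pow_left₀ (by linarith) (by nlinarith) 2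
  have h7 : (n - 1) / 2 * (1 - t) ^ 2 ≤ ((n : ℝ) - 1) / 2 * u ^ 2 :=
    mul_le_mul_of_nonneg_left h6 (by linarith)
  unfold hfun
  nlinarith

theorem cert_pade (n : ℕ) {s : ℝ} (hs : 0 ≤ s) :
    (1 + s) ^ n * (2 - (n - 1) * s) ≤ 2 + (n + 1) * s := by
  induction n with
  | zero => simp
  | succ m ih =>
    push_cast
    have hm : (0 : ℝ) ≤ m := Nat.cast_nonneg m
    have hp : 0 < (1 + s) ^ m := by positivity
    by_cases h : 2 - m * s ≤ 0
    · have : (1 + s) ^ (m + 1) * (2 - (m + 1 - 1) * s) ≤ 0 :=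
        mul_nonpos_of_nonneg_of_nonpos (by positivity) (by linarith)
      nlinarith
    · push Not at h
      have h1 : 0 < 2 - (m - 1) * s := by nlinarith
      refine le_of_mul_le_mul_right ?_ h1
      have h2 := mul_le_mul_of_nonneg_right ih (by positivity : 0 ≤ (1 + s) * (2 - m * s))
      have h3 : 0 ≤ (m : ℝ) * (m + 1) * s ^ 3 := by positivity
      rw [pow_succ]
      nlinarith

theorem cert_hfun_pade {n : ℕ} (hn : 1 ≤ n) {s : ℝ} (hs : 0 ≤ s) :
    ((n : ℝ) + 1) * s ^ 2 / (2 + (n + 1) * s) ≤ hfun n (1 + s) := by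
  have hn' : (1 : ℝ) ≤ n := by exact_mod_cast hn
  have hp : 0 < (1 + s) ^ n := by positivity
  have hd : 0 < 2 + ((n : ℝ) + 1) * s := by positivity
  have h1 : (2 - (n - 1) * s) / (2 + (n + 1) * s) ≤ (1 + s)⁻¹ ^ n := by
    rw [inv_pow, div_le_iff₀ hd, le_inv_mul_iff₀ hp]
    exact cert_pade n hs
  have h2 : ((2 - (n - 1) * s) / (2 + (n + 1) * s) - 1) / n ≤ ((1 + s)⁻¹ ^ n - 1) / n := by
    gcongr
  have h3 : ((n : ℝ) + 1) * s ^ 2 / (2 + (n + 1) * s) =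
      s + ((2 - (n - 1) * s) / (2 + (n + 1) * s) - 1) / n := by
    field_simp
    ring
  unfold hfun
  linarith

theorem cert_hfun_lin {n : ℕ} (hn : 1 ≤ n) {t : ℝ} (ht : 0 < t) : t - 1 - 1 / n ≤ hfun n t := by
  have hn' : (0 : ℝ) < n := by exact_mod_cast hn
  have : 0 ≤ t⁻¹ ^ n / n := by positivity
  unfold hfun
  rw [sub_div]
  linarith

theorem cert_alpha {K c r a α : ℝ} (hc : 0 ≤ c) (ha : 1 < a) (h1 : 1 ≤ α) (h2 : α ≤ a)
    (e1 : K + c * 1 ^ 2 ≤ (1 + 1) * r) (e2 : K + c * a ^ 2 ≤ (1 + a) * r) :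
    K + c * α ^ 2 ≤ (1 + α) * r := by
  have h3 : 0 < a - 1 := by linarith
  refine le_of_mul_le_mul_right ?_ h3
  have h4 := mul_le_mul_of_nonneg_right e1 (sub_nonneg.2 h2)
  have h5 := mul_le_mul_of_nonneg_right e2 (sub_nonneg.2 h1)
  have h6 := mul_nonneg (mul_nonneg hc h3.le) (mul_nonneg (sub_nonneg.2 h1) (sub_nonneg.2 h2))
  nlinarith

theorem tau2_nonneg {n : ℕ} (hn : 1 ≤ n) : 0 ≤ tau2 n := by
  have hn' : (1 : ℝ) ≤ n := by exact_mod_cast hn
  unfold tau2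
  have : 0 ≤ (n : ℝ) - 1 / 2 := by linarith
  positivity

theorem cert_of_pieces {n : ℕ} (hn : 1 ≤ n) {η a C β ω δ W T : ℝ} (hη0 : 0 < η) (hη1 : η ≤ 1)
    (ha : 1 < a) (hC : 0 < C) (hβ : 0 < β) (hδ : 0 < δ) (hW : 0 < W) (hT0 : 0 ≤ T)
    (hT : tau2 n * a ^ 2 ≤ T ^ 2)
    (hCβ : beta4 n * (1 / C + 1 / (β * lam n 4)) ≤ 1)
    (big : beta4 n / lam n 4 * (tau2 n - 1) * a ^ 2 ≤ (1 - η) * (a ^ 2 - 1))
    (P0 : C ≤ (1 - η) * (n + 1))
    (P1 : ∀ s, 0 ≤ s → s ≤ δ →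
      C * (s - ω / (2 * δ) * s ^ 2) ^ 2 + β * (((n : ℝ) - 1) * (1 + s) * (ω ^ 2 * s ^ 3 / (3 * δ ^ 2)))
        ≤ (1 - η) * (1 + 1) * hfun n (1 + s))
    (P2 : ∀ α, α = 1 ∨ α = a → ∀ y, 0 ≤ y → y ≤ W → 1 + δ + y ≤ T →
      C * (δ - ω * δ / 2 + (1 - ω) * y) ^ 2 +
        β * (((n : ℝ) - 1) * (1 + δ + y) * (ω ^ 2 * (δ / 3 + y - y ^ 2 / (2 * W))) +
          ω ^ 2 / W * y * (tau2 n * α ^ 2 - (1 + δ + y) ^ 2)) ≤
        (1 - η) * (1 + α) * hfun n (1 + δ + y))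
    (P3 : ∀ α, α = 1 ∨ α = a → ∀ z, 0 ≤ z → 1 + δ + W + z ≤ T →
      C * (δ - ω * δ / 2 + (1 - ω) * W + (1 - ω) * z) ^ 2 +
        β * (((n : ℝ) - 1) * (1 + δ + W + z) * (ω ^ 2 * (δ / 3 + W / 2)) +
          ω ^ 2 * (tau2 n * α ^ 2 - (1 + δ + W + z) ^ 2)) ≤
        (1 - η) * (1 + α) * hfun n (1 + δ + W + z)) :
    Nonempty (Cert n) := by
  have hn' : (1 : ℝ) ≤ n := by exact_mod_cast hn
  have hτ := tau2_nonneg hn
  let φ : ℝ → ℝ := fun t => ω / (2 * δ) * (max (t - 1) 0 ^ 2 - max (t - (1 + δ)) 0 ^ 2)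
  let w : ℝ → ℝ := fun t => ω / δ * (max (t - 1) 0 - max (t - (1 + δ)) 0)
  let Θ : ℝ → ℝ := fun t => ω ^ 2 * ((max (t - 1) 0 ^ 3 - max (t - (1 + δ)) 0 ^ 3) / (3 * δ ^ 2) -
    (1 / δ + 1 / (2 * W)) * max (t - (1 + δ)) 0 ^ 2 + max (t - (1 + δ + W)) 0 ^ 2 / (2 * W))
  let θ : ℝ → ℝ := fun t => ω ^ 2 * ((max (t - 1) 0 ^ 2 - max (t - (1 + δ)) 0 ^ 2) / δ ^ 2 -
    (2 / δ + 1 / W) * max (t - (1 + δ)) 0 + max (t - (1 + δ + W)) 0 / W)
  let ζ : ℝ → ℝ := fun t => ω ^ 2 / W * (max (t - (1 + δ)) 0 - max (t - (1 + δ + W)) 0)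
  -- closed forms on the four pieces
  have F0 : ∀ t, t ≤ 1 → φ t = 0 ∧ w t = 0 ∧ Θ t = 0 ∧ θ t = 0 ∧ ζ t = 0 := by
    intro t ht
    have h1 : max (t - 1) 0 = 0 := max_eq_right (by linarith)
    have h2 : max (t - (1 + δ)) 0 = 0 := max_eq_right (by linarith)
    have h3 : max (t - (1 + δ + W)) 0 = 0 := max_eq_right (by linarith)
    simp only [φ, w, Θ, θ, ζ, h1, h2, h3]
    simp
  have F1 : ∀ s, 0 ≤ s → s ≤ δ → φ (1 + s) = ω / (2 * δ) * s ^ 2 ∧ w (1 + s) ^ 2 = θ (1 + s) ∧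
      Θ (1 + s) = ω ^ 2 * s ^ 3 / (3 * δ ^ 2) ∧ ζ (1 + s) = 0 := by
    intro s h0 hs
    have h1 : max (1 + s - 1) 0 = s := by rw [add_sub_cancel_left]; exact max_eq_left h0
    have h2 : max (1 + s - (1 + δ)) 0 = 0 := max_eq_right (by linarith)
    have h3 : max (1 + s - (1 + δ + W)) 0 = 0 := max_eq_right (by linarith)
    simp only [φ, w, Θ, θ, ζ, h1, h2, h3]
    refine ⟨by ring, by field_simp; ring, by ring, by ring⟩
  have F2 : ∀ y, 0 ≤ y → y ≤ W → φ (1 + δ + y) = ω * δ / 2 + ω * y ∧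
      w (1 + δ + y) ^ 2 - θ (1 + δ + y) = ζ (1 + δ + y) ∧
      Θ (1 + δ + y) = ω ^ 2 * (δ / 3 + y - y ^ 2 / (2 * W)) ∧ ζ (1 + δ + y) = ω ^ 2 / W * y := by
    intro y h0 hy
    have h1 : max (1 + δ + y - 1) 0 = δ + y := by
      rw [max_eq_left (by linarith)]; ring
    have h2 : max (1 + δ + y - (1 + δ)) 0 = y := by
      rw [max_eq_left (by linarith)]; ring
    have h3 : max (1 + δ + y - (1 + δ + W)) 0 = 0 := max_eq_right (by linarith)
    simp only [φ, w, Θ, θ, ζ, h1, h2, h3]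
    refine ⟨by field_simp; ring, by field_simp; ring, by field_simp; ring, by ring⟩
  have F3 : ∀ z, 0 ≤ z → φ (1 + δ + W + z) = ω * δ / 2 + ω * (W + z) ∧
      w (1 + δ + W + z) ^ 2 - θ (1 + δ + W + z) = ζ (1 + δ + W + z) ∧
      Θ (1 + δ + W + z) = ω ^ 2 * (δ / 3 + W / 2) ∧ ζ (1 + δ + W + z) = ω ^ 2 := by
    intro z h0
    have h1 : max (1 + δ + W + z - 1) 0 = δ + W + z := by
      rw [max_eq_left (by linarith)]; ring
    have h2 : max (1 + δ + W + z - (1 + δ)) 0 = W + z := by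
      rw [max_eq_left (by linarith)]; ring
    have h3 : max (1 + δ + W + z - (1 + δ + W)) 0 = z := by
      rw [max_eq_left (by linarith)]; ring
    simp only [φ, w, Θ, θ, ζ, h1, h2, h3]
    refine ⟨by field_simp; ring, by field_simp; ring, by field_simp; ring, by field_simp; ring⟩
  have split : ∀ t : ℝ, t ≤ 1 ∨ (∃ s, 0 ≤ s ∧ s ≤ δ ∧ t = 1 + s) ∨
      (∃ y, 0 ≤ y ∧ y ≤ W ∧ t = 1 + δ + y) ∨ ∃ z, 0 ≤ z ∧ t = 1 + δ + W + z := by
    intro t
    rcases le_total t 1 with h | h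
    · exact Or.inl h
    rcases le_total t (1 + δ) with h' | h'
    · exact Or.inr (Or.inl ⟨t - 1, by linarith, by linarith, by ring⟩)
    rcases le_total t (1 + δ + W) with h'' | h''
    · exact Or.inr (Or.inr (Or.inl ⟨t - (1 + δ), by linarith, by linarith, by ring⟩))
    · exact Or.inr (Or.inr (Or.inr ⟨t - (1 + δ + W), by linarith, by ring⟩))
  have hζ : ∀ t, 0 ≤ ζ t := by
    intro t
    rcases split t with h | ⟨s, h0, h1, rfl⟩ | ⟨y, h0, h1, rfl⟩ | ⟨z, h0, rfl⟩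
    · exact (F0 t h).2.2.2.2.ge
    · exact (F1 s h0 h1).2.2.2.ge
    · rw [(F2 y h0 h1).2.2.2]; positivity
    · rw [(F3 z h0).2.2.2]; positivity
  refine ⟨{ η := η, a := a, C := C, β := β, φ := φ, w := w, Θ := Θ, θ := θ, ζ := ζ,
            η_pos := hη0, η_le := hη1, one_le_a := ha.le, C_pos := hC, β_pos := hβ, hCβ := hCβ,
            dφ := ?_, cw := by fun_prop, dΘ := ?_, cθ := by fun_prop, cζ := by fun_prop,
            Θ_nonneg := ?_, ζ_nonneg := hζ, ζ_ge := ?_, main := ?_, big := big }⟩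
  · intro t
    have := ((cert_hasDerivAt_max_pow 0 1 t).sub (cert_hasDerivAt_max_pow 0 (1 + δ) t)).const_mul
      (ω / (2 * δ))
    refine this.congr_deriv ?_
    simp only [w]
    field_simp
    ring
  · intro t
    have := (((((cert_hasDerivAt_max_pow 1 1 t).sub
      (cert_hasDerivAt_max_pow 1 (1 + δ) t)).div_const (3 * δ ^ 2)).sub
      ((cert_hasDerivAt_max_pow 0 (1 + δ) t).const_mul (1 / δ + 1 / (2 * W)))).add
      ((cert_hasDerivAt_max_pow 0 (1 + δ + W) t).div_const (2 * W))).const_mul (ω ^ 2)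
    refine this.congr_deriv ?_
    simp only [θ]
    field_simp
    ring
  · intro t
    rcases split t with h | ⟨s, h0, h1, rfl⟩ | ⟨y, h0, h1, rfl⟩ | ⟨z, h0, rfl⟩
    · exact (F0 t h).2.2.1.ge
    · rw [(F1 s h0 h1).2.2.1]; positivity
    · rw [(F2 y h0 h1).2.2.1]
      have : y ^ 2 / (2 * W) ≤ y := by
        rw [div_le_iff₀ (by positivity)]; nlinarith
      exact mul_nonneg (sq_nonneg _) (by linarith)
    · rw [(F3 z h0).2.2.1]; positivity
  · intro t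
    rcases split t with h | ⟨s, h0, h1, rfl⟩ | ⟨y, h0, h1, rfl⟩ | ⟨z, h0, rfl⟩
    · obtain ⟨-, h2, -, h4, h5⟩ := F0 t h
      rw [h2, h4, h5]; norm_num
    · obtain ⟨-, h2, -, h4⟩ := F1 s h0 h1
      rw [h2, h4]; norm_num
    · exact (F2 y h0 h1).2.1.le
    · exact (F3 z h0).2.1.le
  · intro α t hα1 hαa ht htα
    have htT : t ≤ T := by
      refine (pow_le_pow_iff_left₀ ht.le hT0 two_ne_zero).1 (htα.trans (le_trans ?_ hT))
      exact mul_le_mul_of_nonneg_left (pow_le_pow_left₀ (by linarith) hαa 2) hτ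
    have hη : 0 ≤ 1 - η := by linarith
    have red : (∀ α, α = 1 ∨ α = a →
        C * (t - 1 - φ t) ^ 2 + β * (((n : ℝ) - 1) * t * Θ t + ζ t * (tau2 n * α ^ 2 - t ^ 2)) ≤
          (1 - η) * (1 + α) * hfun n t) →
        C * (t - 1 - φ t) ^ 2 + β * (((n : ℝ) - 1) * t * Θ t + ζ t * (tau2 n * α ^ 2 - t ^ 2)) ≤
          (1 - η) * (1 + α) * hfun n t := by
      intro h
      have e1 := h 1 (Or.inl rfl)
      have e2 := h a (Or.inr rfl)
      have := cert_alpha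
        (K := C * (t - 1 - φ t) ^ 2 + β * (((n : ℝ) - 1) * t * Θ t - ζ t * t ^ 2))
        (c := β * ζ t * tau2 n) (r := (1 - η) * hfun n t)
        (mul_nonneg (mul_nonneg hβ.le (hζ t)) hτ) ha hα1 hαa (by linarith) (by linarith)
      linarith
    rcases split t with h | ⟨s, h0, h1, rfl⟩ | ⟨y, h0, h1, rfl⟩ | ⟨z, h0, rfl⟩
    · obtain ⟨h1, -, h3, -, h5⟩ := F0 t h
      rw [h1, h3, h5]
      have h6 := cert_hfun_left hn ht h
      have h7 : 0 ≤ hfun n t := le_trans (by positivity) h6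
      have h8 := mul_le_mul_of_nonneg_right P0 (sq_nonneg (t - 1))
      have h9 := mul_le_mul_of_nonneg_left h6 hη
      have h10 := mul_nonneg (mul_nonneg hη (sub_nonneg.2 hα1)) h7
      nlinarith
    · obtain ⟨h2, -, h3, h4⟩ := F1 s h0 h1
      rw [h2, h3, h4, add_sub_cancel_left]
      have h6 := cert_hfun_pade hn h0
      have h7 : 0 ≤ hfun n (1 + s) := le_trans (by positivity) h6
      have h8 := P1 s h0 h1
      have h10 := mul_nonneg (mul_nonneg hη (sub_nonneg.2 hα1)) h7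
      nlinarith
    · refine red fun α hα => ?_
      obtain ⟨h2, -, h3, h4⟩ := F2 y h0 h1
      rw [h2, h3, h4]
      convert P2 α hα y h0 h1 htT using 4
      ring
    · refine red fun α hα => ?_
      obtain ⟨h2, -, h3, h4⟩ := F3 z h0
      rw [h2, h3, h4]
      convert P3 α hα z h0 htT using 4
      ring

end Crest.Agent.R230
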