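import Crest.Agent.R230.CertA

/-! # Row 230: certificates for `n ≥ 20` -/

set_option autoImplicit false

namespace Crest.Agent.R230

theorem cert_large {n : ℕ} (hn : 20 ≤ n) : Nonempty (Cert n) := by
  have hn1 : 1 ≤ n := by omega
  have hN : (20 : ℝ) ≤ n := by exact_mod_cast hn
  have hτ := tau2_nonneg hn1
  set N : ℝ := (n : ℝ) with hNdef
  have hN0 : 0 < N := by linarith
  have hN1 : 0 < N - 1 := by linarith
  have hb4 : beta4 n ≤ 4 := by
    unfold beta4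
    rw [← hNdef, div_le_iff₀ (by positivity)]
    nlinarith
  have hb0 : 0 ≤ beta4 n := by unfold beta4; positivity
  have hlam : lam n 4 = 4 * (N + 2) := by unfold lam; push_cast; ring
  have hτ1 : tau2 n - 1 ≤ 2 / 5 * (N + 2) := by
    unfold tau2
    rw [← hNdef, sub_le_iff_le_add, div_le_iff₀ (by positivity)]
    nlinarith [mul_pos hN0 (mul_pos hN0 hN0)]
  have hβτ : 28 / 25 / (N - 1) * tau2 n ≤ 63 / 125 := by
    unfold tau2
    rw [← hNdef, div_mul_div_comm, div_le_iff₀ (by positivity)]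
    nlinarith [mul_nonneg (mul_pos hN0 hN0).le (sub_nonneg.2 hN)]
  obtain ⟨ε, hε⟩ : ∃ ε : ℝ, ε = 1 / N := ⟨_, rfl⟩
  have hε0 : 0 < ε := by rw [hε]; positivity
  have hε1 : ε ≤ 1 / 20 := by rw [hε]; exact one_div_le_one_div_of_le (by norm_num) hN
  have hNε : N * ε = 1 := by rw [hε]; field_simp
  have hβN : ∀ x : ℝ, 28 / 25 / (N - 1) * ((N - 1) * x) = 28 / 25 * x := by
    intro x; field_simp
  have hβ0 : 0 < 28 / 25 / (N - 1) := by positivity
  refine cert_of_pieces hn1 (η := 1 / 1000) (a := 13 / 10) (C := 9 / 10 * N)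
    (β := 28 / 25 / (N - 1)) (ω := 1) (δ := 2 * ε) (W := 1) (T := tau2 n + 2)
    (by norm_num) (by norm_num) (by norm_num) (by positivity) hβ0 (by positivity) one_pos
    (by positivity) (by nlinarith) ?_ ?_ (by rw [← hNdef]; linarith) ?_ ?_ ?_
  · rw [hlam]
    have h1 : 1 / (9 / 10 * N) + 1 / (28 / 25 / (N - 1) * (4 * (N + 2))) ≤ 1 / 4 := by
      have e : 1 / (9 / 10 * N) + 1 / (28 / 25 / (N - 1) * (4 * (N + 2))) =
          (10 * 112 * (N + 2) + 25 * 9 * N * (N - 1)) / (9 * 112 * N * (N + 2)) := by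
        field_simp; ring
      rw [e, div_le_iff₀ (by positivity)]
      nlinarith
    calc beta4 n * (1 / (9 / 10 * N) + 1 / (28 / 25 / (N - 1) * (4 * (N + 2))))
        ≤ 4 * (1 / 4) := mul_le_mul hb4 h1 (by positivity) (by norm_num)
      _ = 1 := by norm_num
  · rw [hlam]
    have h1 : beta4 n / (4 * (N + 2)) * (tau2 n - 1) ≤ 2 / 5 := by
      calc beta4 n / (4 * (N + 2)) * (tau2 n - 1)
          ≤ beta4 n / (4 * (N + 2)) * (2 / 5 * (N + 2)) :=
            mul_le_mul_of_nonneg_left hτ1 (by positivity)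
        _ = beta4 n / 10 := by field_simp; ring
        _ ≤ 2 / 5 := by linarith
    nlinarith
  · intro s hs0 hs
    have hp := cert_hfun_pade hn1 hs0
    rw [← hNdef] at hp ⊢
    obtain ⟨x, hx⟩ : ∃ x : ℝ, x = N * s := ⟨_, rfl⟩
    have hx0 : 0 ≤ x := by rw [hx]; positivity
    have hx2 : x ≤ 2 := by rw [hx]; nlinarith
    have hs1 : s ≤ 1 / 10 := by linarith
    have h1 : N * s ^ 2 / (2 + x) ≤ (N + 1) * s ^ 2 / (2 + (N + 1) * s) := by
      rw [hx, div_le_div_iff₀ (by positivity) (by positivity)]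
      nlinarith [sq_nonneg s]
    have e1 : 9 / 10 * N * (s - 1 / (2 * (2 * ε)) * s ^ 2) ^ 2 =
        N * s ^ 2 * (9 / 10 * (1 - x / 4) ^ 2) := by
      rw [hx, hε]; field_simp; ring
    have e2 : 28 / 25 / (N - 1) * ((N - 1) * (1 + s) * (1 ^ 2 * s ^ 3 / (3 * (2 * ε) ^ 2))) =
        N * s ^ 2 * (28 / 25 * (1 + s) * x / 12) := by
      rw [hx, hε]; field_simp; ring
    rw [e1, e2, ← mul_add]
    have h2 : (9 / 10 * (1 - x / 4) ^ 2 + 28 / 25 * (1 + s) * x / 12) ≤ 999 / 500 / (2 + x) := by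
      rw [le_div_iff₀ (by positivity)]
      have h3 : s * x * (2 + x) ≤ 1 / 10 * x * (2 + x) := by gcongr
      have h4 : x ^ 3 ≤ 2 * x ^ 2 := by nlinarith [sq_nonneg x]
      nlinarith [sq_nonneg (x - 1 / 2)]
    calc N * s ^ 2 * (9 / 10 * (1 - x / 4) ^ 2 + 28 / 25 * (1 + s) * x / 12)
        ≤ N * s ^ 2 * (999 / 500 / (2 + x)) := mul_le_mul_of_nonneg_left h2 (by positivity)
      _ = 999 / 500 * (N * s ^ 2 / (2 + x)) := by ring
      _ ≤ _ := by linarith
  · intro α hα y hy0 hy1 _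
    have hp := cert_hfun_lin hn1 (t := 1 + 2 * ε + y) (by positivity)
    rw [← hNdef, ← hε] at hp
    rw [← hNdef]
    have e1 : 9 / 10 * N * (2 * ε - 1 * (2 * ε) / 2 + (1 - 1) * y) ^ 2 = 9 / 10 * ε := by
      have : 9 / 10 * N * (2 * ε - 1 * (2 * ε) / 2 + (1 - 1) * y) ^ 2 = 9 / 10 * (N * ε) * ε := by
        ring
      rw [this, hNε, mul_one]
    rw [e1, mul_add, mul_assoc (N - 1), hβN]
    have h1 : 28 / 25 / (N - 1) * (1 ^ 2 / 1 * y * (tau2 n * α ^ 2 - (1 + 2 * ε + y) ^ 2)) ≤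
        63 / 125 * (α ^ 2 * y) := by
      have h2 := mul_le_mul_of_nonneg_right hβτ (by positivity : 0 ≤ α ^ 2 * y)
      have h3 : 0 ≤ 28 / 25 / (N - 1) * (y * (1 + 2 * ε + y) ^ 2) := by positivity
      nlinarith
    have h4 : ε * y ≤ 1 / 20 * y := mul_le_mul_of_nonneg_right hε1 hy0
    have h5 : ε * ε ≤ 1 / 20 * ε := mul_le_mul_of_nonneg_right hε1 hε0.le
    have h6 : 0 ≤ ε * y ^ 2 := by positivity
    have h7 : 0 ≤ y * (y - 1 / 2) ^ 2 := by positivity
    rcases hα with rfl | rfl <;> nlinarith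
  · intro α hα z hz0 _
    have hp := cert_hfun_lin hn1 (t := 1 + 2 * ε + 1 + z) (by positivity)
    rw [← hNdef, ← hε] at hp
    rw [← hNdef]
    have e1 : 9 / 10 * N * (2 * ε - 1 * (2 * ε) / 2 + (1 - 1) * 1 + (1 - 1) * z) ^ 2 =
        9 / 10 * ε := by
      have : 9 / 10 * N * (2 * ε - 1 * (2 * ε) / 2 + (1 - 1) * 1 + (1 - 1) * z) ^ 2 =
          9 / 10 * (N * ε) * ε := by ring
      rw [this, hNε, mul_one]
    rw [e1, mul_add, mul_assoc (N - 1), hβN]
    have h1 : 28 / 25 / (N - 1) * (1 ^ 2 * (tau2 n * α ^ 2 - (1 + 2 * ε + 1 + z) ^ 2)) ≤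
        63 / 125 * α ^ 2 := by
      have h2 := mul_le_mul_of_nonneg_right hβτ (by positivity : 0 ≤ α ^ 2)
      have h3 : 0 ≤ 28 / 25 / (N - 1) * (1 + 2 * ε + 1 + z) ^ 2 := by positivity
      nlinarith
    have h4 : ε * z ≤ 1 / 20 * z := mul_le_mul_of_nonneg_right hε1 hz0
    have h5 : ε * ε ≤ 1 / 20 * ε := mul_le_mul_of_nonneg_right hε1 hε0.le
    rcases hα with rfl | rfl <;> nlinarith

end Crest.Agent.R230
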