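import Crest.Agent.R230.Sph

/-! # Row 230: the constant `psi n` -/

set_option autoImplicit false
open MeasureTheory Set
open scoped ENNReal

namespace Crest.Agent.R230
variable {n : ℕ}

theorem psi_kap_eq (n : ℕ) : kap n = √Real.pi ^ n / Real.Gamma (n / 2 + 1) := by
  have hpos : 0 ≤ √Real.pi ^ n / Real.Gamma (n / 2 + 1) :=
    div_nonneg (by positivity) (Real.Gamma_pos_of_pos (by positivity)).le
  unfold kap
  rcases Nat.eq_zero_or_pos n with rfl | hn
  · have h1 : Metric.ball (0 : E 0) 1 = univ := by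
      ext x; simp [Subsingleton.elim x 0]
    have h2 := (PiLp.volume_preserving_ofLp (Fin 0)).measure_preimage
      (s := univ) MeasurableSet.univ.nullMeasurableSet
    rw [preimage_univ] at h2
    rw [h1, h2]
    simp [volume_pi]
  · have : Nonempty (Fin n) := ⟨⟨0, hn⟩⟩
    rw [EuclideanSpace.volume_ball]
    simp [ENNReal.toReal_ofReal hpos]

theorem psi_pos (hn : 1 ≤ n) : 0 < psi n := by
  have h1 := kap_pos (n - 1)
  have h2 := kap_pos n
  have h3 : (0 : ℝ) < n := by exact_mod_cast hn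
  unfold psi; positivity

theorem tau_pos (hn : 1 ≤ n) : 0 < tau n := by
  have h1 := psi_pos hn
  have h3 : (0 : ℝ) < n := by exact_mod_cast hn
  unfold tau; positivity

theorem psi_radial (m : ℕ) :
    ∫ r in Ioi (0 : ℝ), r ^ m * (r * Real.exp (-r ^ 2)) = Real.Gamma (m / 2 + 1) / 2 := by
  have h := integral_rpow_mul_exp_neg_mul_rpow (p := 2) (q := m + 1) (b := 1) (by norm_num)
    (by have : (0 : ℝ) ≤ m := Nat.cast_nonneg m; linarith) one_pos
  rw [Real.one_rpow, show ((m : ℝ) + 1 + 1) / 2 = m / 2 + 1 by ring] at h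
  rw [show Real.Gamma (m / 2 + 1) / 2 = 1 * (1 / 2) * Real.Gamma (m / 2 + 1) by ring, ← h]
  refine setIntegral_congr_fun measurableSet_Ioi fun r hr => ?_
  have hr' : 0 < r := hr
  simp only [Real.rpow_add hr', Real.rpow_natCast, Real.rpow_one, Real.rpow_two, neg_mul, one_mul]
  ring

theorem psi_coord (m : ℕ) : ∫ b, |b 0| ∂(σ (m + 1)) = psi (m + 1) := by
  have h1 := integral_polar_mul (n := m + 1) (η := fun r => r * Real.exp (-r ^ 2))
    (g := fun b => |b 0|) (by fun_prop)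
  have h2 : ∫ x : E (m + 1), ‖x‖ * Real.exp (-‖x‖ ^ 2) * |(‖x‖⁻¹ • x) 0| = √Real.pi ^ m := by
    have h3 : ∀ x : E (m + 1), ‖x‖ * Real.exp (-‖x‖ ^ 2) * |(‖x‖⁻¹ • x) 0| =
        ∏ i : Fin (m + 1), (fun (i : Fin (m + 1)) (t : ℝ) =>
          (if i = 0 then |t| else 1) * Real.exp (-t ^ 2)) i (x i) := by
      intro x
      rw [Finset.prod_mul_distrib, ← Real.exp_sum, Finset.sum_neg_distrib,
        ← EuclideanSpace.real_norm_sq_eq, Finset.prod_ite_eq']
      rcases eq_or_ne x 0 with rfl | hx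
      · simp
      · have : ‖x‖ ≠ 0 := norm_ne_zero_iff.2 hx
        simp only [PiLp.smul_apply, smul_eq_mul, abs_mul, abs_inv, abs_norm, Finset.mem_univ,
          if_true]
        field_simp
    simp only [h3]
    rw [← (PiLp.volume_preserving_toLp (Fin (m + 1))).integral_comp
      (MeasurableEquiv.toLp 2 _).measurableEmbedding]
    rw [integral_fintype_prod_volume_eq_prod (fun (i : Fin (m + 1)) (t : ℝ) =>
          (if i = 0 then |t| else 1) * Real.exp (-t ^ 2)), Fin.prod_univ_succ]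
    have h4 : ∫ t : ℝ, |t| * Real.exp (-t ^ 2) = 1 := by
      have := integral_comp_abs (f := fun t : ℝ => t * Real.exp (-t ^ 2))
      simp only [sq_abs] at this
      have h5 := psi_radial 0
      simp only [pow_zero, one_mul, Nat.cast_zero, zero_div, zero_add, Real.Gamma_one] at h5
      rw [this, h5]; norm_num
    have h5 : ∫ t : ℝ, Real.exp (-t ^ 2) = √Real.pi := by
      simpa using integral_gaussian 1
    simp [h4, h5, Fin.succ_ne_zero]
  rw [h2, Nat.add_sub_cancel, psi_radial] at h1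
  have h6 := kap_pos (m + 1)
  have h7 : 0 < Real.Gamma (m / 2 + 1) := Real.Gamma_pos_of_pos (by positivity)
  unfold psi
  rw [Nat.add_sub_cancel, psi_kap_eq m, h1]
  field_simp

/-- `psi n` is the mean of `|⟪b, e⟫|`. -/
theorem integral_abs_inner [NeZero n] (e : E n) :
    ∫ b, |inner ℝ b e| ∂(σ n) = psi n * ‖e‖ := by
  obtain ⟨m, rfl⟩ : ∃ m, n = m + 1 := ⟨n - 1, by have := NeZero.pos n; omega⟩
  set w : E (m + 1) := EuclideanSpace.single 0 ‖e‖ with hw
  have hn : ‖e‖ = ‖w‖ := by simp [hw]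
  set T : E (m + 1) ≃ₗᵢ[ℝ] E (m + 1) := (ℝ ∙ (e - w))ᗮ.reflection with hT
  have hTe : T e = w := Submodule.reflection_sub hn
  have h1 : ∀ b, |inner ℝ b e| = (fun c : E (m + 1) => |c 0| * ‖e‖) (T b) := by
    intro b
    rw [← T.inner_map_map, hTe, hw, EuclideanSpace.inner_single_right]
    simp [abs_mul, mul_comm]
  simp only [h1]
  rw [(measurePreserving_σ T).integral_comp T.toHomeomorph.measurableEmbedding
    (fun c : E (m + 1) => |c 0| * ‖e‖), integral_mul_const, psi_coord]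

theorem kap_succ_succ (n : ℕ) : kap (n + 2) = 2 * Real.pi / (n + 2) * kap n := by
  have h7 : 0 < Real.Gamma (n / 2 + 1) := Real.Gamma_pos_of_pos (by positivity)
  rw [psi_kap_eq, psi_kap_eq, show ((n + 2 : ℕ) : ℝ) / 2 + 1 = (n / 2 + 1) + 1 by push_cast; ring,
    Real.Gamma_add_one (by positivity), pow_add, Real.sq_sqrt Real.pi_pos.le]
  field_simp

theorem psi_succ_succ (hn : 1 ≤ n) : psi (n + 2) = n / (n + 1) * psi n := by
  obtain ⟨m, rfl⟩ : ∃ m, n = m + 1 := ⟨n - 1, by omega⟩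
  have h1 := kap_pos (m + 1)
  have h2 := Real.pi_pos
  unfold psi
  rw [show m + 1 + 2 - 1 = m + 2 by omega, Nat.add_sub_cancel, kap_succ_succ m,
    kap_succ_succ (m + 1)]
  push_cast
  field_simp
  ring

theorem psi_kap_zero : kap 0 = 1 := by simp [psi_kap_eq]

theorem psi_kap_one : kap 1 = 2 := by
  have h : √Real.pi ≠ 0 := by have := Real.pi_pos; positivity
  rw [psi_kap_eq, Nat.cast_one, Real.Gamma_add_one (by norm_num), Real.Gamma_one_half_eq]
  field_simp

theorem psi_one : psi 1 = 1 := by simp [psi, psi_kap_zero, psi_kap_one]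

theorem psi_two : psi 2 = 2 / Real.pi := by
  have h2 := Real.pi_pos
  have := kap_succ_succ 0
  unfold psi
  rw [zero_add] at this
  rw [this, psi_kap_zero, psi_kap_one]
  push_cast
  field_simp
  ring

theorem psi_four : psi 4 = 4 / (3 * Real.pi) := by
  have h2 := Real.pi_pos
  rw [psi_succ_succ (n := 2) (by norm_num), psi_two]
  push_cast
  field_simp
  ring

theorem psi_five : psi 5 = 3 / 8 := by
  rw [psi_succ_succ (n := 3) (by norm_num), psi_succ_succ (n := 1) (by norm_num), psi_one]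
  norm_num

theorem psi_ind {P : ℕ → Prop} (h4 : P 4) (h5 : P 5) (hs : ∀ n, 4 ≤ n → P n → P (n + 2))
    (hn : 4 ≤ n) : P n := by
  induction n using Nat.strong_induction_on with
  | _ n ih =>
    by_cases e4 : n = 4
    · exact e4 ▸ h4
    by_cases e5 : n = 5
    · exact e5 ▸ h5
    obtain ⟨m, rfl⟩ : ∃ m, n = m + 2 := ⟨n - 2, by omega⟩
    exact hs m (by omega) (ih m (by omega) (by omega))

/-- `psi n ^ 2 (n - 1/2)` increases along `n ↦ n + 2`. -/
theorem psi_sq_ge (hn : 4 ≤ n) : 63 / 100 ≤ psi n ^ 2 * ((n : ℝ) - 1 / 2) := by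
  refine psi_ind (P := fun n => 63 / 100 ≤ psi n ^ 2 * ((n : ℝ) - 1 / 2)) ?_ ?_ ?_ hn
  · have h1 := Real.pi_lt_d4
    have h2 := Real.pi_pos
    rw [psi_four, div_pow, div_mul_eq_mul_div, le_div_iff₀ (by positivity)]
    push_cast
    nlinarith
  · rw [psi_five]; norm_num
  · intro m hm ih
    have h1 : (4 : ℝ) ≤ m := by exact_mod_cast hm
    rw [psi_succ_succ (by omega)]
    refine ih.trans ?_
    push_cast
    rw [mul_pow, mul_comm (_ ^ 2) (psi m ^ 2), mul_assoc]
    refine mul_le_mul_of_nonneg_left ?_ (sq_nonneg _)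
    rw [div_pow, div_mul_eq_mul_div, le_div_iff₀ (by positivity)]
    nlinarith

/-- `psi n ^ 2 (n - 2/5)` decreases along `n ↦ n + 2`. -/
theorem psi_sq_le (hn : 4 ≤ n) : psi n ^ 2 * ((n : ℝ) - 2 / 5) ≤ 6485 / 10000 := by
  refine psi_ind (P := fun n => psi n ^ 2 * ((n : ℝ) - 2 / 5) ≤ 6485 / 10000) ?_ ?_ ?_ hn
  · have h1 := Real.pi_gt_d6
    have h2 := Real.pi_pos
    rw [psi_four, div_pow, div_mul_eq_mul_div, div_le_iff₀ (by positivity)]
    push_cast
    nlinarith
  · rw [psi_five]; norm_num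
  · intro m hm ih
    have h1 : (4 : ℝ) ≤ m := by exact_mod_cast hm
    rw [psi_succ_succ (by omega)]
    refine le_trans ?_ ih
    push_cast
    rw [mul_pow, mul_comm (_ ^ 2) (psi m ^ 2), mul_assoc]
    refine mul_le_mul_of_nonneg_left ?_ (sq_nonneg _)
    rw [div_pow, div_mul_eq_mul_div, div_le_iff₀ (by positivity)]
    nlinarith

theorem tau_sq_le (hn : 4 ≤ n) : tau n ^ 2 ≤ tau2 n := by
  have h1 : (4 : ℝ) ≤ n := by exact_mod_cast hn
  have h2 := psi_pos (n := n) (by omega)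
  have h3 := psi_sq_ge hn
  unfold tau tau2
  rw [div_pow, div_le_div_iff₀ (by positivity) (by positivity)]
  have h4 : 0 ≤ ((n : ℝ) + 1) ^ 2 * n ^ 2 := by positivity
  nlinarith [mul_le_mul_of_nonneg_left h3 h4]

/-- Equivalent to `240 (n psi)^9 ≤ (n+1)^4 (n+2) (n+4)`. -/
theorem tau_six (hn : 4 ≤ n) :
    15 * tau n ≤ ((n : ℝ) + 2) * ((n : ℝ) + 4) * (tau n / (n * psi n)) ^ 5 := by
  have h1 : (4 : ℝ) ≤ n := by exact_mod_cast hn
  have h2 := psi_pos (n := n) (by omega)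
  have h3 := psi_sq_le hn
  have hu : 0 < n * psi n := by positivity
  have h4 : (n * psi n) ^ 2 ≤ 6485 / 10000 * ((n : ℝ) + 45 / 100) := by
    have e1 : (n : ℝ) ^ 2 ≤ (n + 45 / 100) * (n - 2 / 5) := by nlinarith
    have e2 := mul_le_mul_of_nonneg_left e1 (sq_nonneg (psi n))
    have e3 := mul_le_mul_of_nonneg_left h3 (show (0 : ℝ) ≤ n + 45 / 100 by positivity)
    nlinarith
  have htau : tau n = (n + 1) / (2 * (n * psi n)) := by unfold tau; rw [mul_assoc]
  rw [htau]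
  generalize (n : ℝ) * psi n = u at hu h4
  have h5 : u ≤ (6485 / 10000 * ((n : ℝ) + 45 / 100) + 289 / 100) / (34 / 10) := by
    rw [le_div_iff₀ (by norm_num)]
    nlinarith [sq_nonneg (u - 17 / 10)]
  have h6 : u ^ 9 ≤ (6485 / 10000 * ((n : ℝ) + 45 / 100)) ^ 4 *
      ((6485 / 10000 * ((n : ℝ) + 45 / 100) + 289 / 100) / (34 / 10)) := by
    rw [show u ^ 9 = (u ^ 2) ^ 4 * u by ring]
    exact mul_le_mul (pow_le_pow_left₀ (sq_nonneg u) h4 4) h5 hu.le (by positivity)
  have h7 : 240 * u ^ 9 ≤ ((n : ℝ) + 1) ^ 4 * (n + 2) * (n + 4) := by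
    obtain ⟨t, ht, e⟩ : ∃ t : ℝ, 0 ≤ t ∧ (n : ℝ) = t + 4 := ⟨n - 4, by linarith, by ring⟩
    rw [e] at h6 ⊢
    have := pow_nonneg ht 2
    have := pow_nonneg ht 3
    have := pow_nonneg ht 4
    have := pow_nonneg ht 5
    have := pow_nonneg ht 6
    nlinarith
  have h8 : ((n : ℝ) + 2) * ((n : ℝ) + 4) * ((n + 1) / (2 * u) / u) ^ 5 -
      15 * ((n + 1) / (2 * u)) =
      (n + 1) * (((n : ℝ) + 1) ^ 4 * (n + 2) * (n + 4) - 240 * u ^ 9) / (32 * u ^ 10) := by
    field_simp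
    ring
  have h9 : 0 ≤ (n + 1) * (((n : ℝ) + 1) ^ 4 * (n + 2) * (n + 4) - 240 * u ^ 9) / (32 * u ^ 10) :=
    div_nonneg (mul_nonneg (by positivity) (by linarith)) (by positivity)
  linarith

end Crest.Agent.R230
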