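import Crest.Agent.R230.IBP
import Crest.Agent.R230.Psi

/-! # Row 230: minimal mean gauge position and a priori bounds -/

set_option autoImplicit false
open MeasureTheory Set MvPolynomial
open scoped ENNReal

namespace Crest.Agent.R230
variable {n : ℕ}

/-- The position condition. -/
def InPos (γ : E n → ℝ) : Prop :=
  ∀ e : E n, ‖e‖ = 1 →
    ∫ b, inner ℝ (gradient γ b) e * inner ℝ b e ∂(σ n) = (∫ b, γ b ∂(σ n)) / n

theorem pos_int_cont {f : E n → ℝ} (hf : Continuous f) : Integrable f (σ n) :=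
  integrable_of_continuousOn hf.continuousOn

theorem pos_norm_le [NeZero n] (R : E n →L[ℝ] E n) :
    psi n * ‖R‖ ≤ ∫ b, ‖R b‖ ∂(σ n) := by
  have hpsi := psi_pos (n := n) (Nat.pos_of_ne_zero (NeZero.ne n))
  have hI : 0 ≤ ∫ b, ‖R b‖ ∂(σ n) := integral_nonneg fun _ => norm_nonneg _
  have h1 : ‖ContinuousLinearMap.adjoint R‖ ≤ (∫ b, ‖R b‖ ∂(σ n)) / psi n := by
    refine ContinuousLinearMap.opNorm_le_bound _ (by positivity) fun u => ?_
    have h2 := integral_abs_inner (n := n) (ContinuousLinearMap.adjoint R u)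
    have h3 : ∫ b, |inner ℝ b (ContinuousLinearMap.adjoint R u)| ∂(σ n) ≤
        ∫ b, ‖R b‖ * ‖u‖ ∂(σ n) := by
      refine integral_mono (pos_int_cont (by fun_prop)) (pos_int_cont (by fun_prop)) fun b => ?_
      simp only [ContinuousLinearMap.adjoint_inner_right]
      exact abs_real_inner_le_norm _ _
    rw [integral_mul_const, h2] at h3
    rw [div_mul_eq_mul_div, le_div_iff₀ hpsi]
    linarith
  rw [LinearIsometryEquiv.norm_map, le_div_iff₀ hpsi] at h1
  linarith

theorem pos_exists_min [NeZero n] {γ : E n → ℝ} (hγ : GaugeFn γ) :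
    ∃ R : E n →L[ℝ] E n, R.det = 1 ∧ ∀ R' : E n →L[ℝ] E n, R'.det = 1 →
      ∫ b, γ (R b) ∂(σ n) ≤ ∫ b, γ (R' b) ∂(σ n) := by
  have hpsi := psi_pos (n := n) (Nat.pos_of_ne_zero (NeZero.ne n))
  obtain ⟨L, hL⟩ := hγ.hl.lip
  have hc := hγ.hl.continuous
  obtain ⟨c, C, hc0, -, hlo, -⟩ := hγ.exists_bounds
  set F : (E n →L[ℝ] E n) → ℝ := fun R => ∫ b, γ (R b) ∂(σ n) with hF
  have hint : ∀ R : E n →L[ℝ] E n, Integrable (fun b => γ (R b)) (σ n) :=
    fun R => pos_int_cont (hc.comp R.continuous)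
  have hlip : LipschitzWith L F := by
    refine LipschitzWith.of_dist_le_mul fun R R' => ?_
    rw [Real.dist_eq, hF]
    simp only
    rw [← integral_sub (hint R) (hint R'), ← Real.norm_eq_abs]
    have := norm_integral_le_of_norm_le_const (μ := σ n) (f := fun b => γ (R b) - γ (R' b))
      (C := L * dist R R') (by
        filter_upwards [ae_norm (n := n)] with b hb
        rw [← dist_eq_norm]
        refine (hL.dist_le_mul _ _).trans (mul_le_mul_of_nonneg_left ?_ L.2)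
        rw [dist_eq_norm, dist_eq_norm, ← sub_apply]
        simpa [hb] using (R - R').le_opNorm b)
    simpa using this
  have hco : ∀ R : E n →L[ℝ] E n, c * psi n * ‖R‖ ≤ F R := by
    intro R
    have h1 := mul_le_mul_of_nonneg_left (pos_norm_le R) hc0.le
    rw [← integral_const_mul, ← mul_assoc] at h1
    exact h1.trans (integral_mono (pos_int_cont (by fun_prop)) (hint R) fun b => hlo _)
  have hcp : 0 < c * psi n := mul_pos hc0 hpsi
  have hK : IsCompact ({R : E n →L[ℝ] E n | R.det = 1} ∩ Metric.closedBall 0 (F 1 / (c * psi n))) :=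
    (isCompact_closedBall _ _).inter_left
      (isClosed_eq ContinuousLinearMap.continuous_det continuous_const)
  have h1 : (1 : E n →L[ℝ] E n) ∈
      {R : E n →L[ℝ] E n | R.det = 1} ∩ Metric.closedBall 0 (F 1 / (c * psi n)) := by
    refine ⟨?_, ?_⟩
    · show LinearMap.det _ = 1
      exact LinearMap.det_id
    · rw [mem_closedBall_zero_iff, le_div_iff₀ hcp, mul_comm]
      exact hco 1
  obtain ⟨R, hR, hmin⟩ := hK.exists_isMinOn ⟨1, h1⟩ hlip.continuous.continuousOn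
  refine ⟨R, hR.1, fun R' hR' => ?_⟩
  by_cases hb : R' ∈ Metric.closedBall (0 : E n →L[ℝ] E n) (F 1 / (c * psi n))
  · exact hmin ⟨hR', hb⟩
  · rw [mem_closedBall_zero_iff, not_le, div_lt_iff₀ hcp, mul_comm] at hb
    have h2 : F R ≤ F 1 := hmin h1
    have h3 := hco R'
    show F R ≤ F R'
    linarith

theorem pos_int_grad {γ : E n → ℝ} (hγ : HL γ) (e : E n) {g : E n → ℝ} (hg : Continuous g) :
    Integrable (fun b => inner ℝ (gradient γ b) e * g b) (σ n) := by
  have h1 : MemLp (fun b => inner ℝ (gradient γ b) e) 2 (σ n) := by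
    simpa only [real_inner_comm] using (hγ.memLp_grad 2).const_inner (𝕜 := ℝ) e
  exact h1.integrable_mul (memLp_of_continuousOn hg.continuousOn 2)

theorem pos_deriv [NeZero n] {γ : E n → ℝ} (hγ : HL γ) {e : E n} (he : ‖e‖ = 1) :
    HasDerivAt (fun ε : ℝ => ∫ b, γ (b + ε • (inner ℝ b e : ℝ) • e) ∂(σ n))
      (∫ b, inner ℝ (gradient γ b) e * inner ℝ b e ∂(σ n)) 0 := by
  obtain ⟨L, hL⟩ := hγ.lip
  have hc := hγ.continuous
  refine (hasDerivAt_integral_of_dominated_loc_of_lip (μ := σ n)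
    (F := fun (ε : ℝ) b => γ (b + ε • (inner ℝ b e : ℝ) • e))
    (F' := fun b => inner ℝ (gradient γ b) e * inner ℝ b e) (x₀ := 0) (s := univ)
    (bound := fun _ => (L : ℝ)) Filter.univ_mem ?_ ?_ ?_ ?_ (integrable_const _) ?_).2
  · exact Filter.Eventually.of_forall fun ε =>
      Continuous.aestronglyMeasurable (hc.comp (by fun_prop))
  · exact pos_int_cont (hc.comp (by fun_prop))
  · exact (pos_int_grad hγ e (by fun_prop)).1
  · filter_upwards [ae_norm (n := n)] with b hb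
    refine LipschitzOnWith.of_dist_le_mul fun x _ y _ => ?_
    refine (hL.dist_le_mul _ _).trans ?_
    rw [dist_add_left, dist_eq_norm, ← sub_smul, norm_smul, norm_smul, he, mul_one,
      ← dist_eq_norm]
    have h1 : ‖(inner ℝ b e : ℝ)‖ ≤ 1 := by simpa [hb, he] using norm_inner_le_norm (𝕜 := ℝ) b e
    have h2 : ((Real.nnabs (L : ℝ) : NNReal) : ℝ) = L := by simp
    rw [h2]
    exact mul_le_mul_of_nonneg_left (mul_le_of_le_one_right dist_nonneg h1) L.2
  · filter_upwards [hγ.ae_differentiableAt] with b hb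
    have h1 : HasDerivAt (fun ε : ℝ => b + ε • (inner ℝ b e : ℝ) • e) ((inner ℝ b e : ℝ) • e) 0 := by
      simpa using ((hasDerivAt_id (0 : ℝ)).smul_const ((inner ℝ b e : ℝ) • e)).const_add b
    have h2 : HasFDerivAt γ (fderiv ℝ γ b) (b + (0 : ℝ) • (inner ℝ b e : ℝ) • e) := by
      simpa using hb.hasFDerivAt
    have h3 := h2.comp_hasDerivAt (0 : ℝ) h1
    rw [inner_grad, mul_comm]
    rw [map_smul, smul_eq_mul] at h3
    exact h3

/-- The competitor `t⁻¹ R (I + (t^n - 1) e e^T)`. -/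
theorem pos_competitor (R : E n →L[ℝ] E n) (hR : R.det = 1) {e : E n} (he : ‖e‖ = 1) {t : ℝ}
    (ht : 0 < t) : ∃ R' : E n →L[ℝ] E n, R'.det = 1 ∧
      ∀ b, R' b = t⁻¹ • R (b + (t ^ n - 1) • (inner ℝ b e : ℝ) • e) := by
  let f : Module.Dual ℝ (E n) := (t ^ n - 1) • (innerSL ℝ e).toLinearMap
  let A : E n →ₗ[ℝ] E n := t⁻¹ • ((R : E n →ₗ[ℝ] E n) ∘ₗ LinearMap.transvection f e)
  refine ⟨LinearMap.toContinuousLinearMap A, ?_, fun b => ?_⟩
  · show LinearMap.det A = 1
    have hR' : LinearMap.det (R : E n →ₗ[ℝ] E n) = 1 := hR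
    have hf : f e = t ^ n - 1 := by simp [f, he]
    rw [LinearMap.det_smul, LinearMap.det_comp, hR', LinearMap.transvection.det, hf]
    simp only [finrank_euclideanSpace, Fintype.card_fin]
    rw [add_sub_cancel, one_mul, ← mul_pow, inv_mul_cancel₀ ht.ne', one_pow]
  · show t⁻¹ • R (b + f b • e) = _
    simp [f, mul_smul, real_inner_comm]

/-- Minimise `R ↦ E γ(R b)` over linear maps of determinant one. -/
theorem exists_position [NeZero n] {γ : E n → ℝ} (hγ : GaugeFn γ) :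
    ∃ R : E n ≃L[ℝ] E n, LinearMap.det (R : E n →ₗ[ℝ] E n) = 1 ∧ InPos (fun x => γ (R x)) := by
  obtain ⟨R, hR, hmin⟩ := pos_exists_min hγ
  have hR0 : R.det ≠ 0 := by rw [hR]; exact one_ne_zero
  refine ⟨R.toContinuousLinearEquivOfDetNeZero hR0, hR, fun e he => ?_⟩
  have hγ' := (hγ.comp_equiv (R.toContinuousLinearEquivOfDetNeZero hR0)).hl
  have hd := pos_deriv hγ' he
  set γ' : E n → ℝ := fun x => γ (R.toContinuousLinearEquivOfDetNeZero hR0 x) with hγ'def
  set g : ℝ → ℝ := fun ε => ∫ b, γ' (b + ε • (inner ℝ b e : ℝ) • e) ∂(σ n) with hg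
  set D := ∫ b, inner ℝ (gradient γ' b) e * inner ℝ b e ∂(σ n)
  have hg0 : g 0 = ∫ b, γ' b ∂(σ n) := by simp [hg]
  have hge : ∀ t : ℝ, 0 < t → t * g 0 ≤ g (t ^ n - 1) := by
    intro t ht
    obtain ⟨R', hR', hb⟩ := pos_competitor R hR he ht
    have h1 := hmin R' hR'
    have h2 : ∫ b, γ (R' b) ∂(σ n) = t⁻¹ * g (t ^ n - 1) := by
      rw [hg]
      simp only
      rw [← integral_const_mul]
      refine integral_congr_ae (Filter.Eventually.of_forall fun b => ?_)
      simp only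
      rw [hb, hγ.hom _ _ (inv_pos.2 ht).le]
      rfl
    rw [h2, le_inv_mul_iff₀ ht] at h1
    rw [hg0]
    exact h1
  have hloc : IsLocalMin (fun t : ℝ => g (t ^ n - 1) - t * g 0) 1 := by
    filter_upwards [Ioi_mem_nhds (zero_lt_one : (0 : ℝ) < 1)] with t ht
    have := hge t ht
    simp only [one_pow, sub_self, one_mul]
    linarith
  have h1 : HasDerivAt (fun t : ℝ => t ^ n - 1) n 1 := by
    simpa using (hasDerivAt_pow n (1 : ℝ)).sub_const 1
  have h2 : HasDerivAt g D ((1 : ℝ) ^ n - 1) := by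
    rw [one_pow, sub_self]
    exact hd
  have h3 := (HasDerivAt.comp (h := fun t : ℝ => t ^ n - 1) (1 : ℝ) h2 h1).sub
    ((hasDerivAt_id (1 : ℝ)).mul_const (g 0))
  have h4 := hloc.hasDerivAt_eq_zero h3
  have hn : (n : ℝ) ≠ 0 := Nat.cast_ne_zero.2 (NeZero.ne n)
  rw [eq_div_iff hn, ← hg0]
  linarith

theorem InPos.const_mul {γ : E n → ℝ} (h : InPos γ) (v : ℝ) : InPos (fun x => v * γ x) := by
  intro e he
  have h1 : ∀ b, inner ℝ (gradient (fun x => v * γ x) b) e = v * inner ℝ (gradient γ b) e := by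
    intro b
    rw [inner_grad, inner_grad]
    have := congrFun (fderiv_const_smul_field (𝕜 := ℝ) (f := γ) v) b
    have h2 : (fun x => v * γ x) = v • γ := rfl
    rw [h2, this]
    rfl
  simp only [h1, mul_assoc, integral_const_mul]
  rw [h e he, mul_div_assoc]

theorem InPos.moment [NeZero n] {γ : E n → ℝ} (hγ : HL γ) (h : InPos γ) {e : E n}
    (he : ‖e‖ = 1) : ∫ b, γ b * inner ℝ b e ^ 2 ∂(σ n) = (∫ b, γ b ∂(σ n)) / n := by
  have h1 := ibp hγ (linP_hom e) e
  have h2 : ∀ b, ev (dirD e (linP e)) b = 1 := by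
    intro b
    rw [← fderiv_ev]
    have h3 : ev (linP e) = fun x => innerSL ℝ e x := by
      funext x
      rw [ev_linP, innerSL_apply_apply, real_inner_comm]
    rw [h3, ContinuousLinearMap.fderiv, innerSL_apply_apply, real_inner_self_eq_norm_sq, he]
    norm_num
  have h4 : ∀ b : E n, inner ℝ b e * γ b * inner ℝ b e = γ b * inner ℝ b e ^ 2 := fun b => by ring
  simp only [h2, ev_linP, mul_one, h4] at h1
  rw [h e he] at h1
  have hn : (0 : ℝ) < n := Nat.cast_pos.2 (Nat.pos_of_ne_zero (NeZero.ne n))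
  have h5 : (0 : ℝ) < ((1 : ℕ) : ℝ) + n := by positivity
  refine mul_left_cancel₀ h5.ne' ?_
  rw [← h1]
  field_simp
  push_cast
  ring

theorem pos_moment' [NeZero n] {γ : E n → ℝ} (hγ : HL γ) (h : InPos γ) (e : E n) :
    ∫ b, γ b * inner ℝ b e ^ 2 ∂(σ n) = (∫ b, γ b ∂(σ n)) / n * ‖e‖ ^ 2 := by
  by_cases he : e = 0
  · simp [he]
  have h0 : ‖e‖ ≠ 0 := norm_ne_zero_iff.2 he
  have h1 := h.moment hγ (e := ‖e‖⁻¹ • e) (by rw [norm_smul, norm_inv, norm_norm]; field_simp)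
  rw [← h1, ← integral_mul_const]
  refine integral_congr_ae (Filter.Eventually.of_forall fun b => ?_)
  simp only [inner_smul_right]
  field_simp

theorem pos_moment_mul [NeZero n] {γ : E n → ℝ} (hγ : HL γ) (h : InPos γ) (e e' : E n) :
    ∫ b, γ b * (inner ℝ b e * inner ℝ b e') ∂(σ n) =
      (∫ b, γ b ∂(σ n)) / n * inner ℝ e e' := by
  have hc := hγ.continuous
  have h1 := pos_moment' hγ h (e + e')
  have h2 := pos_moment' hγ h (e - e')
  have h3 : ∫ b, γ b * (inner ℝ b e * inner ℝ b e') ∂(σ n) =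
      (∫ b, γ b * inner ℝ b (e + e') ^ 2 ∂(σ n) - ∫ b, γ b * inner ℝ b (e - e') ^ 2 ∂(σ n)) / 4 := by
    rw [← integral_sub (pos_int_cont (by fun_prop)) (pos_int_cont (by fun_prop)), ← integral_div]
    refine integral_congr_ae (Filter.Eventually.of_forall fun b => ?_)
    simp only [inner_add_right, inner_sub_right]
    ring
  rw [h3, h1, h2, norm_add_sq_real, norm_sub_sq_real]
  ring

theorem pos_euler {p : Pol n} {k : ℕ} (hp : p.IsHomogeneous k) (x : E n) :
    ∑ i, x i * ev (pderiv i p) x = k * ev p x := by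
  rw [← ev_dirD_self hp, dirD, ev_sum]
  simp

theorem pos_quad {Y : Pol n} (hY : Y.IsHomogeneous 2) (x : E n) :
    ev Y x = ∑ i, ∑ j, ev (pderiv j (pderiv i Y)) 0 / 2 * (x i * x j) := by
  have h1 := pos_euler hY x
  have h2 : ∀ i, ev (pderiv i Y) x = ∑ j, x j * ev (pderiv j (pderiv i Y)) 0 := by
    intro i
    have hi : (pderiv i Y).IsHomogeneous 1 := hY.pderiv
    have h3 := pos_euler hi x
    rw [Nat.cast_one, one_mul] at h3
    rw [← h3]
    refine Finset.sum_congr rfl fun j _ => ?_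
    have hj : (pderiv j (pderiv i Y)).IsHomogeneous 0 := hi.pderiv
    have h4 := ev_smul_arg hj 0 x
    rw [zero_smul, pow_zero, one_mul] at h4
    rw [h4]
  simp only [h2, Finset.mul_sum] at h1
  have h5 : ev Y x = (∑ i, ∑ j, x i * (x j * ev (pderiv j (pderiv i Y)) 0)) / 2 := by
    rw [h1]
    push_cast
    ring
  rw [h5, Finset.sum_div]
  refine Finset.sum_congr rfl fun i _ => ?_
  rw [Finset.sum_div]
  exact Finset.sum_congr rfl fun j _ => by ring

theorem InPos.harm_two [NeZero n] {γ : E n → ℝ} (hγ : HL γ) (h : InPos γ) {Y : Pol n}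
    (hY : Harm 2 Y) : ∫ b, γ b * ev Y b ∂(σ n) = 0 := by
  have hc := hγ.continuous
  have h1 : ∀ i j : Fin n, ∫ b, γ b * (b i * b j) ∂(σ n) =
      (∫ b, γ b ∂(σ n)) / n * if i = j then 1 else 0 := by
    intro i j
    have := pos_moment_mul hγ h (EuclideanSpace.single i 1) (EuclideanSpace.single j 1)
    simp only [EuclideanSpace.inner_single_right, one_mul, conj_trivial] at this
    rw [this]
    simp [eq_comm]
  have h2 : ∀ b, γ b * ev Y b =
      ∑ i, ∑ j, ev (pderiv j (pderiv i Y)) 0 / 2 * (γ b * (b i * b j)) := by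
    intro b
    rw [pos_quad hY.1 b, Finset.mul_sum]
    refine Finset.sum_congr rfl fun i _ => ?_
    rw [Finset.mul_sum]
    exact Finset.sum_congr rfl fun j _ => by ring
  have h3 : ∑ i, ev (pderiv i (pderiv i Y)) (0 : E n) = 0 := by
    rw [← ev_sum]
    show ev (lap Y) 0 = 0
    rw [hY.2, ev_zero]
  simp only [h2]
  rw [integral_finsetSum _ fun i _ => pos_int_cont (by fun_prop)]
  have h4 : ∀ i : Fin n, ∫ b, ∑ j, ev (pderiv j (pderiv i Y)) 0 / 2 * (γ b * (b i * b j)) ∂(σ n) =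
      ev (pderiv i (pderiv i Y)) 0 * ((∫ b, γ b ∂(σ n)) / n / 2) := by
    intro i
    rw [integral_finsetSum _ fun j _ => pos_int_cont (by fun_prop)]
    simp only [integral_const_mul, h1, mul_ite, mul_one, mul_zero, Finset.sum_ite_eq,
      Finset.mem_univ, if_true]
    ring
  simp only [h4]
  rw [← Finset.sum_mul, h3, zero_mul]

theorem pos_max [NeZero n] {γ : E n → ℝ} (hγ : GaugeFn γ) :
    ∃ e : E n, ‖e‖ = 1 ∧ (∀ x, γ x ≤ γ e * ‖x‖) ∧ ∀ b, γ e * inner ℝ b e ≤ γ b := by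
  have hne : (Metric.sphere (0 : E n) 1).Nonempty :=
    ⟨EuclideanSpace.single 0 1, by simp⟩
  obtain ⟨e, he, hmax⟩ := (isCompact_sphere (0 : E n) 1).exists_isMaxOn hne
    hγ.hl.continuous.continuousOn
  have he1 : ‖e‖ = 1 := by simpa using he
  have h1 : ∀ x, γ x ≤ γ e * ‖x‖ := by
    intro x
    by_cases hx : x = 0
    · have := hγ.hom 0 x le_rfl
      rw [zero_smul, zero_mul] at this
      rw [hx, this, norm_zero, mul_zero]
    have h0 : 0 < ‖x‖ := norm_pos_iff.2 hx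
    have h2 : γ (‖x‖⁻¹ • x) ≤ γ e := hmax (by
      rw [mem_sphere_zero_iff_norm, norm_smul, norm_inv, norm_norm]; field_simp)
    rw [hγ.hom _ _ (inv_pos.2 h0).le, inv_mul_le_iff₀ h0, mul_comm] at h2
    exact h2
  refine ⟨e, he1, h1, fun b => ?_⟩
  have hT := hγ.nonneg e
  have h3 : ∀ t : ℝ, 0 < t → γ e * inner ℝ b e ≤ γ b + t * (γ e * ‖b‖ ^ 2 / 2) := by
    intro t ht
    have h4 := hγ.add (e - t • b) (t • b)
    rw [sub_add_cancel, hγ.hom _ _ ht.le] at h4
    have h5 := h1 (e - t • b)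
    have h6 : ‖e - t • b‖ ^ 2 = 1 - 2 * (t * inner ℝ b e) + t ^ 2 * ‖b‖ ^ 2 := by
      rw [norm_sub_sq_real, he1, inner_smul_right, norm_smul, mul_pow, Real.norm_eq_abs, sq_abs,
        real_inner_comm]
      ring
    have h7 : ‖e - t • b‖ ≤ 1 - t * inner ℝ b e + t ^ 2 * ‖b‖ ^ 2 / 2 := by
      nlinarith [sq_nonneg (‖e - t • b‖ - 1)]
    have h8 := mul_le_mul_of_nonneg_left h7 hT
    refine le_of_mul_le_mul_left ?_ ht
    nlinarith
  refine le_of_forall_pos_le_add fun ε hε => ?_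
  have hK : 0 ≤ γ e * ‖b‖ ^ 2 / 2 := by positivity
  refine (h3 (ε / (γ e * ‖b‖ ^ 2 / 2 + 1)) (by positivity)).trans ?_
  gcongr
  rw [div_mul_eq_mul_div, div_le_iff₀ (by positivity)]
  nlinarith

theorem pos_amgm {s s0 : ℝ} (h0 : 0 < s0) : |s| ≤ 5 * s0 / 6 + s ^ 6 / (6 * s0 ^ 5) := by
  have h1 := one_add_mul_le_pow (a := |s| / s0 - 1)
    (by have : 0 ≤ |s| / s0 := by positivity
        linarith) 6
  have h2 : (1 + (|s| / s0 - 1)) ^ 6 = s ^ 6 / s0 ^ 6 := by
    rw [add_sub_cancel, div_pow, Even.pow_abs (by decide)]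
  rw [h2] at h1
  have h3 := mul_le_mul_of_nonneg_left h1 (show 0 ≤ s0 / 6 by positivity)
  have h4 : s0 / 6 * (1 + ((6 : ℕ) : ℝ) * (|s| / s0 - 1)) = |s| - 5 * s0 / 6 := by
    push_cast
    field_simp
    ring
  have h5 : s0 / 6 * (s ^ 6 / s0 ^ 6) = s ^ 6 / (6 * s0 ^ 5) := by
    field_simp
  linarith

/-- `max γ ≤ tau · mean γ`. -/
theorem InPos.le_tau [NeZero n] {γ : E n → ℝ} (hγ : GaugeFn γ) (heven : ∀ x, γ (-x) = γ x)
    (h : InPos γ) (x : E n) : γ x ≤ tau n * (∫ b, γ b ∂(σ n)) * ‖x‖ := by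
  obtain ⟨e, he, h1, h2⟩ := pos_max hγ
  have hc := hγ.hl.continuous
  have hn1 : 1 ≤ n := Nat.pos_of_ne_zero (NeZero.ne n)
  have hn : (0 : ℝ) < n := Nat.cast_pos.2 hn1
  have hpsi := psi_pos hn1
  have h3 : ∀ b, γ e * |inner ℝ b e| ≤ γ b := by
    intro b
    rcases abs_cases (inner ℝ b e : ℝ) with h4 | h4
    · rw [h4.1]
      exact h2 b
    · rw [h4.1, ← inner_neg_left, ← heven b]
      exact h2 (-b)
  have h4 : ∫ b, γ e * |inner ℝ b e| ^ 3 ∂(σ n) ≤ ∫ b, γ b * inner ℝ b e ^ 2 ∂(σ n) := by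
    refine integral_mono (pos_int_cont (by fun_prop)) (pos_int_cont (by fun_prop)) fun b => ?_
    have := mul_le_mul_of_nonneg_right (h3 b) (sq_nonneg (inner ℝ b e : ℝ))
    refine le_trans (le_of_eq ?_) this
    rw [← sq_abs (inner ℝ b e : ℝ)]
    ring
  rw [integral_const_mul, h.moment hγ.hl he] at h4
  have h5 := integral_abs_inner_cube (n := n) he
  rw [integral_abs_inner, he, mul_one] at h5
  have h6 : γ e ≤ tau n * ∫ b, γ b ∂(σ n) := by
    have h7 := mul_le_mul_of_nonneg_left h4 (show (0 : ℝ) ≤ n + 1 by positivity)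
    rw [mul_left_comm, h5] at h7
    rw [tau, div_mul_eq_mul_div, le_div_iff₀ (by positivity)]
    rw [← mul_div_assoc, le_div_iff₀ hn] at h7
    linarith
  exact (h1 x).trans (mul_le_mul_of_nonneg_right h6 (norm_nonneg _))

theorem pos_zonoid_unit [NeZero n] (hn : 4 ≤ n) {γ : E n → ℝ} (hγ : GaugeFn γ)
    (heven : ∀ x, γ (-x) = γ x) (h : InPos γ) {e : E n} (he : ‖e‖ = 1) :
    psi n / tau n * (∫ b, γ b ∂(σ n)) ≤ ∫ b, |inner ℝ (gradient γ b) e| ∂(σ n) := by
  have hn1 : 1 ≤ n := by omega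
  have hn0 : (0 : ℝ) < n := Nat.cast_pos.2 hn1
  have hpsi := psi_pos hn1
  have htau := tau_pos hn1
  have hα : 0 ≤ ∫ b, γ b ∂(σ n) := integral_nonneg fun b => hγ.nonneg b
  set α := ∫ b, γ b ∂(σ n) with hαdef
  have hG : ∀ b, |inner ℝ (gradient γ b) e| ≤ tau n * α := by
    intro b
    refine (abs_real_inner_le_norm _ _).trans ?_
    rw [he, mul_one]
    exact hγ.norm_grad_le (by positivity) (h.le_tau hγ heven) b
  have h6 := tau_six hn
  set s0 := tau n / (n * psi n) with hs0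
  have hs : 0 < s0 := by positivity
  have hi : Integrable (fun b => |inner ℝ (gradient γ b) e|) (σ n) := by
    simpa using (pos_int_grad hγ.hl e (g := fun _ => 1) continuous_const).abs
  have h1 : ∫ b, inner ℝ (gradient γ b) e * inner ℝ b e ∂(σ n) ≤
      ∫ b, (5 * s0 / 6 * |inner ℝ (gradient γ b) e| +
        tau n * α / (6 * s0 ^ 5) * inner ℝ b e ^ 6) ∂(σ n) := by
    refine integral_mono (pos_int_grad hγ.hl e (by fun_prop))
      ((hi.const_mul _).add (pos_int_cont (by fun_prop))) fun b => ?_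
    have h2 := mul_le_mul_of_nonneg_left (pos_amgm (s := inner ℝ b e) hs)
      (abs_nonneg (inner ℝ (gradient γ b) e : ℝ))
    have h3 := mul_le_mul_of_nonneg_right (hG b)
      (show 0 ≤ (inner ℝ b e : ℝ) ^ 6 / (6 * s0 ^ 5) by positivity)
    have h4 := le_abs_self ((inner ℝ (gradient γ b) e : ℝ) * inner ℝ b e)
    rw [abs_mul] at h4
    have h5 : tau n * α * ((inner ℝ b e : ℝ) ^ 6 / (6 * s0 ^ 5)) =
        tau n * α / (6 * s0 ^ 5) * inner ℝ b e ^ 6 := by ring
    simp only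
    linarith
  rw [integral_add (hi.const_mul _) (pos_int_cont (by fun_prop)), integral_const_mul,
    integral_const_mul, integral_inner_pow_six he, h e he, ← hαdef] at h1
  have h7 : tau n * α / (6 * s0 ^ 5) * (15 / (n * (n + 2) * (n + 4))) ≤ α / (6 * n) := by
    rw [div_mul_div_comm, div_le_div_iff₀ (by positivity) (by positivity)]
    have := mul_le_mul_of_nonneg_left h6 (show 0 ≤ 6 * n * α by positivity)
    nlinarith
  have h8 : psi n / tau n * α * (5 * s0 / 6) = α / n - α / (6 * n) := by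
    rw [hs0]
    field_simp
    ring
  refine le_of_mul_le_mul_right ?_ (show 0 < 5 * s0 / 6 by positivity)
  linarith

/-- Lower bound for the support function of the zonoid generated by `∇γ`. -/
theorem InPos.zonoid_ge [NeZero n] (hn : 4 ≤ n) {γ : E n → ℝ} (hγ : GaugeFn γ)
    (heven : ∀ x, γ (-x) = γ x) (h : InPos γ) (e : E n) :
    psi n / tau n * (∫ b, γ b ∂(σ n)) * ‖e‖ ≤ ∫ b, |inner ℝ (gradient γ b) e| ∂(σ n) := by
  by_cases he : e = 0
  · simp [he]
  have h0 : 0 < ‖e‖ := norm_pos_iff.2 he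
  have h1 := pos_zonoid_unit hn hγ heven h (e := ‖e‖⁻¹ • e)
    (by rw [norm_smul, norm_inv, norm_norm]; field_simp)
  simp only [inner_smul_right, abs_mul, abs_inv, abs_norm, integral_const_mul] at h1
  rw [le_inv_mul_iff₀ h0, mul_comm] at h1
  exact h1

end Crest.Agent.R230
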