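import Crest.Agent.R230.Grad

/-! # Row 230: the convexity (subharmonicity) inequality -/

set_option autoImplicit false
open MeasureTheory Set
open scoped ENNReal

namespace Crest.Agent.R230
variable {n : ℕ}

theorem cvx_four {γ : E n → ℝ} (hc : ConvexOn ℝ univ γ) (y e : E n) {s t : ℝ} (hs : 0 < s)
    (ht : 0 < t) : γ (y + s • e) + γ (y + t • e) ≤ γ y + γ (y + (s + t) • e) := by
  have hst : 0 < s + t := by linarith
  have h1 := hc.2 (mem_univ y) (mem_univ (y + (s + t) • e)) (div_nonneg ht.le hst.le)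
    (div_nonneg hs.le hst.le) (by field_simp; ring)
  have h2 := hc.2 (mem_univ y) (mem_univ (y + (s + t) • e)) (div_nonneg hs.le hst.le)
    (div_nonneg ht.le hst.le) (by field_simp)
  have e1 : (t / (s + t)) • y + (s / (s + t)) • (y + (s + t) • e) = y + s • e := by
    rw [smul_add, ← add_assoc, ← add_smul, smul_smul, div_mul_cancel₀ _ hst.ne',
      show t / (s + t) + s / (s + t) = 1 by field_simp; ring, one_smul]
  have e2 : (s / (s + t)) • y + (t / (s + t)) • (y + (s + t) • e) = y + t • e := by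
    rw [smul_add, ← add_assoc, ← add_smul, smul_smul, div_mul_cancel₀ _ hst.ne',
      show s / (s + t) + t / (s + t) = 1 by field_simp, one_smul]
  rw [e1] at h1
  rw [e2] at h2
  simp only [smul_eq_mul] at h1 h2
  have e3 : t / (s + t) = 1 - s / (s + t) := by field_simp; ring
  rw [e3] at h1 h2
  nlinarith

theorem cvx_step {χ G : E n → ℝ} (hχ : Continuous χ) (hs : HasCompactSupport χ)
    (h0 : ∀ x, 0 ≤ χ x) (hG : Continuous G) (e : E n) {t : ℝ} (ht : 0 < t)
    (hm : ∀ x, G (x - t • e) ≤ G x) :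
    ∫ x, (t⁻¹ • (χ (x + t • e) - χ x)) * G x ≤ 0 := by
  have i1 : Integrable fun x => χ x * G x :=
    (hχ.mul hG).integrable_of_hasCompactSupport hs.mul_right
  have i2 : Integrable fun x => χ x * G (x - t • e) :=
    (hχ.mul (by fun_prop)).integrable_of_hasCompactSupport hs.mul_right
  have i3 : Integrable fun x => χ (x + t • e) * G x := by
    simpa using i2.comp_add_right (t • e)
  have e1 : ∫ x, χ (x + t • e) * G x = ∫ x, χ x * G (x - t • e) := by
    rw [← integral_add_right_eq_self (fun x => χ x * G (x - t • e)) (t • e)]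
    simp
  have e2 : ∀ x, (t⁻¹ • (χ (x + t • e) - χ x)) * G x =
      t⁻¹ * (χ (x + t • e) * G x - χ x * G x) := fun x => by
    rw [smul_eq_mul]; ring
  simp_rw [e2]
  rw [integral_const_mul, integral_sub i3 i1, e1]
  refine mul_nonpos_of_nonneg_of_nonpos (inv_nonneg.mpr ht.le) (sub_nonpos.mpr ?_)
  exact integral_mono i2 i1 fun x => mul_le_mul_of_nonneg_left (hm x) (h0 x)

theorem cvx_integrable {f : E n → ℝ} (hm : AEStronglyMeasurable f volume) {M : ℝ}
    (hb : ∀ x, ‖x‖ ≤ 1 → |f x| ≤ M) (h0 : ∀ x, 1 < ‖x‖ → f x = 0) : Integrable f := by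
  refine (integrableOn_iff_integrable_of_support_subset
    (s := Metric.closedBall (0 : E n) 1) ?_).mp ?_
  · intro x hx
    by_contra hx'
    exact hx (h0 x (by simpa using hx'))
  · refine Measure.integrableOn_of_bounded (M := M) measure_closedBall_lt_top.ne hm ?_
    filter_upwards [ae_restrict_mem measurableSet_closedBall] with x hx
    exact hb x (by simpa using hx)

theorem cvx_lip {V : E n → ℝ} {C : NNReal} (hV : LipschitzWith C V) {B : ℝ} (hB : 0 ≤ B)
    (hB2 : ∀ x, |V x| ≤ B * ‖x‖) :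
    ∃ D : NNReal, LipschitzWith D fun x : E n => V x * max (1 - ‖x‖) 0 := by
  have key : ∀ x y : E n, ‖x‖ ≤ 1 →
      |V x * max (1 - ‖x‖) 0 - V y * max (1 - ‖y‖) 0| ≤ (B + C) * dist x y := by
    intro x y hx
    have h1 : |max (1 - ‖x‖) 0 - max (1 - ‖y‖) 0| ≤ dist x y := by
      refine (abs_max_sub_max_le_abs _ _ _).trans ?_
      rw [show 1 - ‖x‖ - (1 - ‖y‖) = ‖y‖ - ‖x‖ by ring, abs_sub_comm, dist_eq_norm]
      exact abs_norm_sub_norm_le x y
    have h2 : |V x - V y| ≤ C * dist x y := by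
      rw [← Real.dist_eq]; exact hV.dist_le_mul x y
    have h3 : |V x| ≤ B := (hB2 x).trans (mul_le_of_le_one_right hB hx)
    have h4 : |max (1 - ‖y‖) 0| ≤ 1 := by
      rw [abs_of_nonneg (le_max_right _ _)]
      exact max_le (by linarith [norm_nonneg y]) zero_le_one
    calc _ = |V x * (max (1 - ‖x‖) 0 - max (1 - ‖y‖) 0) + (V x - V y) * max (1 - ‖y‖) 0| := by
          congr 1; ring
      _ ≤ |V x| * |max (1 - ‖x‖) 0 - max (1 - ‖y‖) 0| + |V x - V y| * |max (1 - ‖y‖) 0| := by
          rw [← abs_mul, ← abs_mul]; exact abs_add_le _ _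
      _ ≤ B * dist x y + C * dist x y * 1 :=
          add_le_add (mul_le_mul h3 h1 (abs_nonneg _) hB)
            (mul_le_mul h2 h4 (abs_nonneg _) (by positivity))
      _ = _ := by ring
  refine ⟨⟨B + C, by positivity⟩, LipschitzWith.of_dist_le_mul fun x y => ?_⟩
  rw [Real.dist_eq]
  by_cases hx : ‖x‖ ≤ 1
  · exact key x y hx
  by_cases hy : ‖y‖ ≤ 1
  · rw [abs_sub_comm, dist_comm]; exact key y x hy
  rw [max_eq_right (by linarith), max_eq_right (by linarith)]
  simp only [mul_zero, sub_self, abs_zero]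
  positivity

theorem cvx_hasFDerivAt_norm {x : E n} (hx : x ≠ 0) :
    HasFDerivAt (fun y : E n => ‖y‖) (‖x‖⁻¹ • innerSL ℝ x) x := by
  have hp : 0 < ‖x‖ := norm_pos_iff.mpr hx
  have h1 := (hasStrictFDerivAt_norm_sq x).hasFDerivAt.sqrt (by positivity)
  simp only [Real.sqrt_sq (norm_nonneg _)] at h1
  have e : ‖x‖⁻¹ • innerSL ℝ x = (1 / (2 * ‖x‖)) • 2 • innerSL ℝ x := by
    rw [two_smul, smul_add, ← add_smul]
    congr 1
    field_simp
    ring
  rw [e]
  exact h1

theorem cvx_radial (φ : ℝ → ℝ) :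
    ∫ r in Ioi (0 : ℝ), (if r < 1 then φ r else 0) = ∫ r in (0 : ℝ)..1, φ r := by
  have : (fun r : ℝ => if r < 1 then φ r else 0) = (Iio (1 : ℝ)).indicator φ := by
    funext r; simp [indicator]
  rw [this, setIntegral_indicator measurableSet_Iio, Ioi_inter_Iio,
    intervalIntegral.integral_of_le zero_le_one, integral_Ioc_eq_integral_Ioo]

/-- For convex Lipschitz `γ` and `χ ≥ 0` Lipschitz with compact support,
`∫ ∂ₑγ ∂ₑχ ≤ 0` (monotonicity of `∂ₑγ` along lines parallel to `e`). -/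
theorem integral_fderiv_mul_fderiv_nonpos {γ χ : E n → ℝ} {C D : NNReal}
    (hγ : LipschitzWith C γ) (hc : ConvexOn ℝ univ γ) (hχ : LipschitzWith D χ)
    (hs : HasCompactSupport χ) (h0 : ∀ x, 0 ≤ χ x) (e : E n) :
    ∫ x, fderiv ℝ γ x e * fderiv ℝ χ x e ≤ 0 := by
  have hB : ∀ s : ℝ, 0 < s →
      ∫ x, (s⁻¹ • (γ (x + s • e) - γ x)) * lineDeriv ℝ χ x e ≤ 0 := by
    intro s hs0
    have hG : Continuous fun x : E n => s⁻¹ • (γ (x + s • e) - γ x) := by
      have := hγ.continuous
      fun_prop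
    have hT := LipschitzWith.integral_inv_smul_sub_mul_tendsto_integral_lineDeriv_mul'
      (μ := (volume : Measure (E n))) hχ hs hG e
    have : ∫ x, lineDeriv ℝ χ x e * (s⁻¹ • (γ (x + s • e) - γ x)) ≤ 0 := by
      refine le_of_tendsto hT ?_
      filter_upwards [self_mem_nhdsWithin] with t ht
      refine cvx_step hχ.continuous hs h0 hG e ht fun x => ?_
      have := cvx_four hc (x - t • e) e hs0 ht
      rw [sub_add_cancel] at this
      have e1 : x - t • e + (s + t) • e = x + s • e := by rw [add_smul]; abel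
      rw [e1] at this
      exact smul_le_smul_of_nonneg_left (by linarith) (inv_nonneg.mpr hs0.le)
    simpa only [mul_comm] using this
  have hI : Integrable (fun x => lineDeriv ℝ χ x e) := by
    refine (integrableOn_iff_integrable_of_support_subset (s := tsupport χ) ?_).mp
      ((hχ.locallyIntegrable_lineDeriv e).integrableOn_isCompact hs)
    intro x hx
    by_contra hx'
    apply hx
    have h1 : χ =ᶠ[nhds x] fun _ => 0 := notMem_tsupport_iff_eventuallyEq.mp hx'
    have h2 : HasFDerivAt χ (0 : E n →L[ℝ] ℝ) x :=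
      (hasFDerivAt_const (0 : ℝ) x).congr_of_eventuallyEq h1
    simpa using (h2.hasLineDerivAt e).lineDeriv
  have hT := LipschitzWith.integral_inv_smul_sub_mul_tendsto_integral_lineDeriv_mul
    (μ := (volume : Measure (E n))) hγ hI e
  have hC : ∫ x, lineDeriv ℝ γ x e * lineDeriv ℝ χ x e ≤ 0 := by
    refine le_of_tendsto hT ?_
    filter_upwards [self_mem_nhdsWithin] with s hs0
    exact hB s hs0
  refine le_of_eq_of_le (integral_congr_ae ?_) hC
  filter_upwards [hγ.ae_differentiableAt (μ := volume), hχ.ae_differentiableAt (μ := volume)]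
    with x h1 h2
  rw [h1.lineDeriv_eq_fderiv, h2.lineDeriv_eq_fderiv]

/-- `E ⟪∇γ, ∇V⟫ ≤ n E[γ V]` for convex `γ` and nonnegative `V`. -/
theorem convex_dirichlet [NeZero n] {γ V : E n → ℝ} (hγ : HL γ) (hc : ConvexOn ℝ univ γ)
    (hV : HL V) (h0 : ∀ x, 0 ≤ V x) :
    ∫ b, inner ℝ (gradient γ b) (gradient V b) ∂(σ n) ≤ n * ∫ b, γ b * V b ∂(σ n) := by
  obtain ⟨Cγ, hCγ⟩ := hγ.lip
  obtain ⟨CV, hCV⟩ := hV.lip
  obtain ⟨A, hA0, hA1, hA2⟩ := hγ.exists_bound
  obtain ⟨B, hB0, hB1, hB2⟩ := hV.exists_bound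
  set χ : E n → ℝ := fun x => V x * max (1 - ‖x‖) 0 with hχ
  obtain ⟨D, hD⟩ : ∃ D : NNReal, LipschitzWith D χ := cvx_lip hCV hB0 hB2
  have hz : ∀ x : E n, 1 < ‖x‖ → χ x = 0 := fun x hx => by
    simp only [hχ]; rw [max_eq_right (by linarith), mul_zero]
  have hs : HasCompactSupport χ := by
    refine HasCompactSupport.intro (isCompact_closedBall (0 : E n) 1) fun x hx => hz x ?_
    simpa using hx
  have hχ0 : ∀ x, 0 ≤ χ x := fun x => mul_nonneg (h0 x) (le_max_right _ _)
  have hfz : ∀ x : E n, 1 < ‖x‖ → fderiv ℝ χ x = 0 := fun x hx => by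
    have h1 : χ =ᶠ[nhds x] fun _ => 0 := by
      filter_upwards [(isOpen_lt continuous_const continuous_norm).mem_nhds hx] with y hy
      exact hz y hy
    rw [h1.fderiv_eq]; simp
  let b := EuclideanSpace.basisFun (Fin n) ℝ
  have hint : ∀ i, Integrable fun x => fderiv ℝ γ x (b i) * fderiv ℝ χ x (b i) := by
    intro i
    refine cvx_integrable (M := Cγ * D) ?_ (fun x _ => ?_) fun x hx => ?_
    · exact ((measurable_fderiv_apply_const ℝ γ (b i)).mul
        (measurable_fderiv_apply_const ℝ χ (b i))).aestronglyMeasurable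
    · rw [abs_mul]
      have h1 : |fderiv ℝ γ x (b i)| ≤ Cγ := by
        have := (fderiv ℝ γ x).le_opNorm (b i)
        rw [b.orthonormal.1 i, mul_one] at this
        exact this.trans (norm_fderiv_le_of_lipschitz ℝ hCγ)
      have h2 : |fderiv ℝ χ x (b i)| ≤ D := by
        have := (fderiv ℝ χ x).le_opNorm (b i)
        rw [b.orthonormal.1 i, mul_one] at this
        exact this.trans (norm_fderiv_le_of_lipschitz ℝ hD)
      exact mul_le_mul h1 h2 (abs_nonneg _) Cγ.2
    · rw [hfz x hx]; simp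
  have h1 : ∫ x, fderiv ℝ χ x (gradient γ x) ≤ 0 := by
    have e1 : ∀ x, fderiv ℝ χ x (gradient γ x) =
        ∑ i, fderiv ℝ γ x (b i) * fderiv ℝ χ x (b i) := fun x => by
      conv_lhs => rw [← b.sum_repr' (gradient γ x)]
      rw [map_sum]
      refine Finset.sum_congr rfl fun i _ => ?_
      rw [map_smul, smul_eq_mul, real_inner_comm, inner_grad]
    simp_rw [e1]
    rw [integral_finset_sum _ fun i _ => hint i]
    exact Finset.sum_nonpos fun i _ => integral_fderiv_mul_fderiv_nonpos hCγ hc hD hs hχ0 (b i)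
  set g₁ : E n → ℝ := fun x => inner ℝ (gradient γ x) (gradient V x) with hg₁
  set g₂ : E n → ℝ := fun x => γ x * V x with hg₂
  have m₁ : Measurable g₁ := (measurable_grad γ).inner (measurable_grad V)
  have m₂ : Measurable g₂ := (hγ.continuous.mul hV.continuous).measurable
  set η₁ : ℝ → ℝ := fun r => if r < 1 then 1 - r else 0 with hη₁
  set η₂ : ℝ → ℝ := fun r => if r < 1 then r else 0 with hη₂
  have mη₁ : Measurable η₁ := Measurable.ite measurableSet_Iio (by fun_prop) (by fun_prop)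
  have mη₂ : Measurable η₂ := Measurable.ite measurableSet_Iio (by fun_prop) (by fun_prop)
  have mdir : Measurable fun x : E n => ‖x‖⁻¹ • x := by fun_prop
  have hdir : ∀ x : E n, ‖‖x‖⁻¹ • x‖ ≤ 1 := fun x => by
    rw [norm_smul, norm_inv, norm_norm]; exact inv_mul_le_one_of_le₀ le_rfl (norm_nonneg _)
  have hae : ∀ᵐ x : E n, fderiv ℝ χ x (gradient γ x) =
      η₁ ‖x‖ * g₁ (‖x‖⁻¹ • x) - η₂ ‖x‖ * g₂ (‖x‖⁻¹ • x) := by
    have hs1 : ∀ᵐ x : E n, x ∉ Metric.sphere (0 : E n) 1 :=
      measure_eq_zero_iff_ae_notMem.mp (Measure.addHaar_sphere volume 0 1)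
    have hs0 : ∀ᵐ x : E n, x ∉ ({0} : Set (E n)) :=
      measure_eq_zero_iff_ae_notMem.mp (measure_singleton 0)
    filter_upwards [hs1, hs0, hCγ.ae_differentiableAt (μ := volume),
      hCV.ae_differentiableAt (μ := volume)] with x hx1 hx0 hdγ hdV
    have hx1' : ‖x‖ ≠ 1 := by simpa using hx1
    have hx0' : x ≠ 0 := by simpa using hx0
    have hp : 0 < ‖x‖ := norm_pos_iff.mpr hx0'
    rcases lt_or_gt_of_ne hx1' with hlt | hgt
    · have h1 : χ =ᶠ[nhds x] fun y => V y * (1 - ‖y‖) := by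
        filter_upwards [(isOpen_lt continuous_norm continuous_const).mem_nhds hlt] with y hy
        have hy' : ‖y‖ < 1 := hy
        simp only [hχ]; rw [max_eq_left (by linarith)]
      have hn := cvx_hasFDerivAt_norm hx0'
      have h2 := hdV.hasFDerivAt.mul (hn.const_sub 1)
      have h3 : fderiv ℝ χ x = _ := h1.fderiv_eq.trans h2.fderiv
      rw [h3]
      simp only [hη₁, hη₂, hg₁, hg₂, if_pos hlt, hγ.grad_smul (inv_pos.mpr hp),
        hV.grad_smul (inv_pos.mpr hp), hγ.hom _ _ (inv_pos.mpr hp).le,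
        hV.hom _ _ (inv_pos.mpr hp).le, ContinuousLinearMap.add_apply,
        ContinuousLinearMap.smul_apply, ContinuousLinearMap.neg_apply, smul_eq_mul,
        innerSL_apply_apply]
      rw [← inner_grad V x, real_inner_comm (gradient γ x) x, hγ.euler hdγ,
        real_inner_comm (gradient γ x) (gradient V x)]
      field_simp
      ring
    · rw [hfz x hgt]
      simp [hη₁, hη₂, not_lt.mpr hgt.le]
  have i₁ : Integrable fun x : E n => η₁ ‖x‖ * g₁ (‖x‖⁻¹ • x) := by
    refine cvx_integrable (M := 1 * (A * B)) ?_ (fun x hx => ?_) fun x hx => ?_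
    · exact ((mη₁.comp measurable_norm).mul (m₁.comp mdir)).aestronglyMeasurable
    · rw [abs_mul]
      refine mul_le_mul ?_ ?_ (abs_nonneg _) zero_le_one
      · simp only [hη₁]
        split_ifs with h
        · rw [abs_le]; constructor <;> linarith [norm_nonneg x]
        · simp
      · exact (abs_real_inner_le_norm _ _).trans
          (mul_le_mul (hA1 _) (hB1 _) (norm_nonneg _) hA0)
    · simp [hη₁, not_lt.mpr hx.le]
  have i₂ : Integrable fun x : E n => η₂ ‖x‖ * g₂ (‖x‖⁻¹ • x) := by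
    refine cvx_integrable (M := 1 * (A * B)) ?_ (fun x hx => ?_) fun x hx => ?_
    · exact ((mη₂.comp measurable_norm).mul (m₂.comp mdir)).aestronglyMeasurable
    · rw [abs_mul]
      refine mul_le_mul ?_ ?_ (abs_nonneg _) zero_le_one
      · simp only [hη₂]
        split_ifs with h
        · rw [abs_le]; constructor <;> linarith [norm_nonneg x]
        · simp
      · simp only [hg₂]
        rw [abs_mul]
        refine mul_le_mul ((hA2 _).trans ?_) ((hB2 _).trans ?_) (abs_nonneg _) hA0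
        · exact mul_le_of_le_one_right hA0 (hdir x)
        · exact mul_le_of_le_one_right hB0 (hdir x)
    · simp [hη₂, not_lt.mpr hx.le]
  rw [integral_congr_ae hae, integral_sub i₁ i₂, integral_polar_mul m₁, integral_polar_mul m₂]
    at h1
  obtain ⟨k, rfl⟩ : ∃ k, n = k + 1 := Nat.exists_eq_succ_of_ne_zero (NeZero.ne n)
  have r₁ : ∫ r in Ioi (0 : ℝ), r ^ (k + 1 - 1) * η₁ r = 1 / (k + 1) - 1 / (k + 2) := by
    have : ∀ r : ℝ, r ^ (k + 1 - 1) * η₁ r = if r < 1 then r ^ k - r ^ (k + 1) else 0 := by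
      intro r
      simp only [hη₁, Nat.add_sub_cancel]
      split_ifs
      · ring
      · simp
    simp_rw [this]
    rw [cvx_radial, intervalIntegral.integral_sub (by simp) (by simp), integral_pow,
      integral_pow]
    push_cast
    simp only [one_pow, ne_eq, Nat.add_eq_zero_iff, one_ne_zero, and_false, not_false_eq_true,
      zero_pow, sub_zero]
    ring
  have r₂ : ∫ r in Ioi (0 : ℝ), r ^ (k + 1 - 1) * η₂ r = 1 / (k + 2) := by
    have : ∀ r : ℝ, r ^ (k + 1 - 1) * η₂ r = if r < 1 then r ^ (k + 1) else 0 := by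
      intro r
      simp only [hη₂, Nat.add_sub_cancel]
      split_ifs
      · ring
      · simp
    simp_rw [this]
    rw [cvx_radial, integral_pow]
    push_cast
    simp only [one_pow, ne_eq, Nat.add_eq_zero_iff, one_ne_zero, and_false, not_false_eq_true,
      zero_pow, sub_zero]
    ring
  rw [r₁, r₂] at h1
  have hk := kap_pos (k + 1)
  push_cast at h1 ⊢
  set X := ∫ b, g₁ b ∂(σ (k + 1))
  set Y := ∫ b, g₂ b ∂(σ (k + 1))
  have hk0 : (0 : ℝ) < kap (k + 1) / (k + 2) := by positivity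
  have e : ((k : ℝ) + 1) * kap (k + 1) * (1 / (k + 1) - 1 / (k + 2)) * X -
      ((k : ℝ) + 1) * kap (k + 1) * (1 / (k + 2)) * Y =
      kap (k + 1) / (k + 2) * (X - (k + 1) * Y) := by
    field_simp
    ring
  rw [e] at h1
  have := nonpos_of_mul_nonpos_right h1 hk0
  linarith

/-- `E[Θ'(γ) |∇_S γ|²] ≤ (n-1) E[γ Θ(γ)]` for `Θ ≥ 0`. -/
theorem convex_theta [NeZero n] {γ : E n → ℝ} (hγ : GaugeFn γ) {Θ θ : ℝ → ℝ}
    (hΘ : ∀ t, HasDerivAt Θ (θ t) t) (hθ : Continuous θ) (h0 : ∀ t, 0 ≤ Θ t) :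
    ∫ b, θ (γ b) * (‖gradient γ b‖ ^ 2 - γ b ^ 2) ∂(σ n) ≤
      ((n : ℝ) - 1) * ∫ b, γ b * Θ (γ b) ∂(σ n) := by
  have hV := hγ.hl.comp hΘ hθ
  set V : E n → ℝ := fun x => ‖x‖ * Θ (γ x / ‖x‖) with hVd
  have hd := convex_dirichlet hγ.hl hγ.convexOn hV fun x => mul_nonneg (norm_nonneg _) (h0 _)
  obtain ⟨A, hA0, hA1, -⟩ := hγ.hl.exists_bound
  obtain ⟨B, hB0, hB1, -⟩ := hV.exists_bound
  have cΘ : Continuous Θ := continuous_iff_continuousAt.mpr fun t => (hΘ t).continuousAt
  have i₁ : Integrable (fun b => inner ℝ (gradient γ b) (gradient V b)) (σ n) :=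
    integrable_of_bdd ((measurable_grad γ).inner (measurable_grad V)).aestronglyMeasurable
      (C := A * B) fun b _ => (norm_inner_le_norm _ _).trans
        (mul_le_mul (hA1 _) (hB1 _) (norm_nonneg _) hA0)
  have i₂ : Integrable (fun b => γ b * Θ (γ b)) (σ n) :=
    integrable_of_continuousOn
      (hγ.hl.continuous.mul (cΘ.comp hγ.hl.continuous)).continuousOn
  have e₁ : ∫ b, γ b * V b ∂(σ n) = ∫ b, γ b * Θ (γ b) ∂(σ n) := by
    refine integral_congr_ae ?_
    filter_upwards [ae_norm] with b hb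
    simp only [hVd, hb, one_mul, div_one]
  have e₂ : ∫ b, θ (γ b) * (‖gradient γ b‖ ^ 2 - γ b ^ 2) ∂(σ n) =
      ∫ b, (inner ℝ (gradient γ b) (gradient V b) - γ b * Θ (γ b)) ∂(σ n) := by
    refine integral_congr_ae ?_
    filter_upwards [ae_norm, hγ.hl.ae_differentiableAt] with b hb hdb
    rw [hVd, grad_comp hΘ hb hdb, inner_add_right, inner_smul_right, inner_smul_right,
      inner_sub_right, inner_smul_right, hγ.hl.euler hdb, real_inner_self_eq_norm_sq]
    ring
  rw [e₂, integral_sub i₁ i₂]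
  rw [e₁] at hd
  linarith

end Crest.Agent.R230
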