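import Crest.Agent.R230.Proj
import Crest.Agent.R230.Psi
import Crest.Agent.R230.Cvx

/-! # Row 230: the key inequality -/

set_option autoImplicit false
open MeasureTheory Set MvPolynomial
open scoped ENNReal

namespace Crest.Agent.R230
variable {n : ℕ}

theorem spade_hfun_ge (hn : 1 ≤ n) {t : ℝ} (ht : 0 < t) : (t - 1) ^ 2 / t ≤ hfun n t := by
  have hn0 : (0 : ℝ) < n := by exact_mod_cast hn
  have h1 := one_add_mul_sub_le_pow (a := t⁻¹) (by have := inv_pos.2 ht; linarith) n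
  have h2 : t⁻¹ - 1 ≤ (t⁻¹ ^ n - 1) / n := by
    rw [le_div_iff₀ hn0]; linarith
  have h3 : (t - 1) ^ 2 / t = t - 1 + (t⁻¹ - 1) := by field_simp; ring
  unfold hfun
  linarith

theorem hfun_nonneg (hn : 1 ≤ n) {t : ℝ} (ht : 0 < t) : 0 ≤ hfun n t := by
  exact le_trans (by positivity) (spade_hfun_ge hn ht)

theorem eq_one_of_hfun_eq_zero (hn : 1 ≤ n) {t : ℝ} (ht : 0 < t) (h : hfun n t = 0) : t = 1 := by
  have h1 := spade_hfun_ge hn ht
  rw [h, div_nonpos_iff] at h1
  have h2 : (t - 1) ^ 2 ≤ 0 := by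
    rcases h1 with h1 | h1
    · exact absurd h1.2 (not_le.2 ht)
    · exact h1.1
  have h3 : t - 1 = 0 := pow_eq_zero_iff (two_ne_zero) |>.1 (le_antisymm h2 (sq_nonneg _))
  linarith

theorem spade_pos {γ : E n → ℝ} (hγ : GaugeFn γ) {b : E n} (hb : ‖b‖ = 1) : 0 < γ b :=
  hγ.pos b (fun h => by rw [h, norm_zero] at hb; exact zero_ne_one hb)

theorem spade_int_hfun [NeZero n] {γ : E n → ℝ} (hγ : GaugeFn γ) :
    Integrable (fun b => hfun n (γ b)) (σ n) := by
  have i1 : Integrable γ (σ n) := integrable_of_continuousOn hγ.hl.continuous.continuousOn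
  have i2 := hγ.integrable_inv_pow n
  exact (i1.sub (integrable_const 1)).add ((i2.sub (integrable_const 1)).div_const _)

theorem spade_hfun_ae [NeZero n] {γ : E n → ℝ} (hγ : GaugeFn γ) :
    ∀ᵐ b ∂(σ n), 0 ≤ hfun n (γ b) := by
  filter_upwards [ae_norm] with b hb
  exact hfun_nonneg NeZero.one_le (spade_pos hγ hb)

theorem integral_hfun [NeZero n] {γ : E n → ℝ} (hγ : GaugeFn γ)
    (hnorm : ∫ b, (γ b)⁻¹ ^ n ∂(σ n) = 1) :
    ∫ b, hfun n (γ b) ∂(σ n) = (∫ b, γ b ∂(σ n)) - 1 := by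
  have i1 : Integrable γ (σ n) := integrable_of_continuousOn hγ.hl.continuous.continuousOn
  have i2 := hγ.integrable_inv_pow n
  have i3 : Integrable (fun b => γ b - 1) (σ n) := i1.sub (integrable_const 1)
  have i4 : Integrable (fun b => (γ b)⁻¹ ^ n - 1) (σ n) := i2.sub (integrable_const 1)
  unfold hfun
  rw [integral_add i3 (i4.div_const _), integral_div, integral_sub i1 (integrable_const 1),
    integral_sub i2 (integrable_const 1), hnorm]
  simp

theorem one_le_mean [NeZero n] {γ : E n → ℝ} (hγ : GaugeFn γ)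
    (hnorm : ∫ b, (γ b)⁻¹ ^ n ∂(σ n) = 1) : 1 ≤ ∫ b, γ b ∂(σ n) := by
  have h1 := integral_nonneg_of_ae (spade_hfun_ae hγ)
  rw [integral_hfun hγ hnorm] at h1
  linarith

theorem eq_norm_of_mean_eq_one [NeZero n] {γ : E n → ℝ} (hγ : GaugeFn γ)
    (hnorm : ∫ b, (γ b)⁻¹ ^ n ∂(σ n) = 1) (h : ∫ b, γ b ∂(σ n) = 1) (x : E n) : γ x = ‖x‖ := by
  have h1 : ∫ b, hfun n (γ b) ∂(σ n) = 0 := by rw [integral_hfun hγ hnorm, h, sub_self]
  have h2 := (integral_eq_zero_iff_of_nonneg_ae (spade_hfun_ae hγ) (spade_int_hfun hγ)).1 h1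
  have h3 : ∀ᵐ b ∂(σ n), γ b = (fun _ => (1 : ℝ)) b := by
    filter_upwards [h2, ae_norm] with b hb hb1
    exact eq_one_of_hfun_eq_zero NeZero.one_le (spade_pos hγ hb1) hb
  have h4 := eq_of_ae_σ hγ.hl.continuous.continuousOn continuousOn_const h3
  by_cases hx : x = 0
  · have := hγ.hom 0 0 le_rfl
    rw [zero_smul, zero_mul] at this
    rw [hx, this, norm_zero]
  · have hx0 : 0 < ‖x‖ := norm_pos_iff.2 hx
    have h5 := h4 (‖x‖⁻¹ • x) (by rw [norm_smul, norm_inv, norm_norm, inv_mul_cancel₀ hx0.ne'])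
    rw [hγ.hom _ _ (by positivity)] at h5
    field_simp at h5
    exact h5

theorem spade_lam_le (hn : 4 ≤ n) {k : ℕ} (hk : 4 ≤ k) : lam n 4 ≤ lam n k := by
  have h1 : (4 : ℝ) ≤ n := by exact_mod_cast hn
  have h2 : (4 : ℝ) ≤ k := by exact_mod_cast hk
  unfold lam
  push_cast
  nlinarith

theorem spade_lam_pos (hn : 4 ≤ n) : 0 < lam n 4 := by
  have h1 : (4 : ℝ) ≤ n := by exact_mod_cast hn
  unfold lam
  push_cast
  nlinarith

theorem spade_ip_add (p q : Pol n) {C D : ℝ} (hC : 0 < C) (hD : 0 < D) :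
    ip (p + q) (p + q) ≤ (1 / C + 1 / D) * (C * ip p p + D * ip q q) := by
  have e1 : ∀ a b : ℝ, ip (a • p + b • q) (a • p + b • q) =
      a ^ 2 * ip p p + 2 * a * b * ip p q + b ^ 2 * ip q q := by
    intro a b
    rw [ip_add_left, ip_smul_left, ip_smul_left, ip_comm p, ip_comm q, ip_add_left, ip_add_left,
      ip_smul_left, ip_smul_left, ip_smul_left, ip_smul_left, ip_comm q p]
    ring
  have e2 := e1 1 1
  rw [one_smul, one_smul] at e2
  have e3 := ip_self_nonneg (C • p + (-D) • q)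
  rw [e1] at e3
  have e4 : (1 / C + 1 / D) * (C * ip p p + D * ip q q) - ip (p + q) (p + q) =
      (C ^ 2 * ip p p + 2 * C * (-D) * ip p q + (-D) ^ 2 * ip q q) / (C * D) := by
    rw [e2]; field_simp; ring
  have e5 := div_nonneg e3 (mul_pos hC hD).le
  linarith

theorem spade_split [NeZero n] (hn : 3 ≤ n) {γ f U : E n → ℝ} (hγ : MemLp γ 2 (σ n))
    (hf : MemLp f 2 (σ n)) (hU : MemLp U 2 (σ n)) (h : ∀ b, ‖b‖ = 1 → γ b = f b + U b + 1)
    {k : ℕ} (hk : k ≠ 0) :
    ip (pr k γ) (pr k γ) = ip (pr k f + pr k U) (pr k f + pr k U) := by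
  have h1 : ∀ Y, Harm k Y → ip (pr k γ) Y = ip (pr k f + pr k U) Y := by
    intro Y hY
    rw [ip_add_left, ← pr_spec hγ hY, ← pr_spec hf hY, ← pr_spec hU hY]
    have i1 := integrable_mul_ev hf Y
    have i2 := integrable_mul_ev hU Y
    have i3 : Integrable (ev Y) (σ n) := integrable_of_continuousOn (continuous_ev Y).continuousOn
    have e : ∫ b, γ b * ev Y b ∂(σ n) = ∫ b, (f b * ev Y b + U b * ev Y b) + ev Y b ∂(σ n) := by
      refine integral_congr_ae ?_
      filter_upwards [ae_norm] with b hb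
      rw [h b hb]; ring
    have i4 : Integrable (fun b => f b * ev Y b + U b * ev Y b) (σ n) := i1.add i2
    rw [e, integral_add i4 i3, integral_add i1 i2, integral_ev_harm hn hk hY, add_zero]
  have h2 := ip_congr_of_harm (pr_harm hγ k) ((pr_harm hf k).add (pr_harm hU k)) h1
  rw [h2, ip_comm, h2]

theorem spade_grad_sq {g b : E n} {t p w : ℝ} (hb : ‖b‖ = 1) (hg : inner ℝ g b = t) :
    ‖p • b + w • (g - t • b)‖ ^ 2 - p ^ 2 = w ^ 2 * (‖g‖ ^ 2 - t ^ 2) := by
  have hbb : inner ℝ b b = (1 : ℝ) := by rw [real_inner_self_eq_norm_sq, hb]; norm_num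
  have hbg : inner ℝ b g = t := by rw [real_inner_comm, hg]
  rw [← real_inner_self_eq_norm_sq, ← real_inner_self_eq_norm_sq g]
  simp only [inner_add_left, inner_add_right, inner_sub_left, inner_sub_right, real_inner_smul_left,
    real_inner_smul_right, hbb, hbg, hg]
  ring

/-- **Key inequality.** -/
theorem spade [NeZero n] (hn : 4 ≤ n) (c : Cert n) {γ : E n → ℝ} (hγ : GaugeFn γ)
    (hnorm : ∫ b, (γ b)⁻¹ ^ n ∂(σ n) = 1)
    (hT : ∀ x, γ x ≤ tau n * (∫ b, γ b ∂(σ n)) * ‖x‖) (s : Finset ℕ) (hs : ∀ k ∈ s, 4 ≤ k) :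
    beta4 n * ∑ k ∈ s, ip (pr k γ) (pr k γ) ≤ (1 - c.η) * ((∫ b, γ b ∂(σ n)) ^ 2 - 1) := by
  have hn3 : 3 ≤ n := by omega
  have hα1 := one_le_mean hγ hnorm
  have hhf := integral_hfun hγ hnorm
  obtain ⟨α, hα⟩ : ∃ α, α = ∫ b, γ b ∂(σ n) := ⟨_, rfl⟩
  rw [← hα] at hT hα1 hhf ⊢
  have hτ := tau_pos (n := n) (by omega)
  have hT0 : 0 ≤ tau n * α := by positivity
  have hT2 : (tau n * α) ^ 2 ≤ tau2 n * α ^ 2 := by
    rw [mul_pow]; exact mul_le_mul_of_nonneg_right (tau_sq_le hn) (sq_nonneg _)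
  have hG : ∀ x, ‖gradient γ x‖ ^ 2 ≤ tau2 n * α ^ 2 := fun x =>
    (pow_le_pow_left₀ (norm_nonneg _) (hγ.norm_grad_le hT0 hT x) 2).trans hT2
  have hl4 := spade_lam_pos hn
  have hβ4 : 0 ≤ beta4 n := by unfold beta4; positivity
  have hγc := hγ.hl.continuous
  have mγ : MemLp γ 2 (σ n) := hγ.hl.memLp 2
  have mG : MemLp (fun b => ‖gradient γ b‖ ^ 2) 2 (σ n) :=
    memLp_of_bdd ((measurable_grad γ).norm.pow_const 2).aestronglyMeasurable
      (C := tau2 n * α ^ 2) (fun b _ => by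
        rw [Real.norm_eq_abs, abs_of_nonneg (sq_nonneg _)]; exact hG b) 2
  have hlam : ∀ U : E n → ℝ, lam n 4 * ∑ k ∈ s, ip (pr k U) (pr k U) ≤
      ∑ k ∈ s, lam n k * ip (pr k U) (pr k U) := by
    intro U
    rw [Finset.mul_sum]
    exact Finset.sum_le_sum fun k hk =>
      mul_le_mul_of_nonneg_right (spade_lam_le hn (hs k hk)) (ip_self_nonneg _)
  rcases le_total c.a α with hc | hc
  · have d1 := dirichlet hn3 hγ.hl s
    have d2 : ∫ b, ‖gradient γ b‖ ^ 2 ∂(σ n) ≤ tau2 n * α ^ 2 := by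
      have := integral_mono (mG.integrable one_le_two) (integrable_const (tau2 n * α ^ 2)) hG
      simpa using this
    have d3 := bessel hn3 mγ {0}
    rw [Finset.sum_singleton, ip_pr_zero mγ mγ, ← hα] at d3
    have d4 : ∑ k ∈ s, ip (pr k γ) (pr k γ) ≤ (tau2 n - 1) * α ^ 2 / lam n 4 := by
      rw [le_div_iff₀ hl4]
      linarith [hlam γ]
    have d5 := mul_le_mul_of_nonneg_left d4 hβ4
    have d6 : beta4 n * ((tau2 n - 1) * α ^ 2 / lam n 4) =
        beta4 n / lam n 4 * (tau2 n - 1) * α ^ 2 := by ring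
    have hbig := c.big
    obtain ⟨K, hK⟩ : ∃ K, K = beta4 n / lam n 4 * (tau2 n - 1) := ⟨_, rfl⟩
    rw [← hK] at d6 hbig
    have ha1 := c.one_le_a
    have hη := c.η_le
    have ha2 : c.a ^ 2 ≤ α ^ 2 := pow_le_pow_left₀ (by linarith) hc 2
    have ha3 : 0 < c.a ^ 2 := by positivity
    have d7 : 0 ≤ 1 - c.η - K := by
      by_contra hneg
      have := mul_neg_of_neg_of_pos (not_le.1 hneg) ha3
      linarith
    have d8 := mul_le_mul_of_nonneg_left ha2 d7
    linarith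
  · have cφ : Continuous c.φ := continuous_iff_continuousAt.2 fun t => (c.dφ t).continuousAt
    have cΘ : Continuous c.Θ := continuous_iff_continuousAt.2 fun t => (c.dΘ t).continuousAt
    have hU := hγ.hl.comp c.dφ c.cw
    set U : E n → ℝ := fun x => ‖x‖ * c.φ (γ x / ‖x‖) with hUd
    have hUb : ∀ b : E n, ‖b‖ = 1 → U b = c.φ (γ b) := fun b hb => by
      simp only [hUd, hb, one_mul, div_one]
    set f : E n → ℝ := fun b => γ b - 1 - c.φ (γ b) with hfd
    have cf : Continuous f := (hγc.sub continuous_const).sub (cφ.comp hγc)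
    have mf : MemLp f 2 (σ n) := memLp_of_continuousOn cf.continuousOn 2
    have hD : 0 < c.β * lam n 4 := mul_pos c.β_pos hl4
    have s1 : ∀ k ∈ s, beta4 n * ip (pr k γ) (pr k γ) ≤
        c.C * ip (pr k f) (pr k f) + c.β * lam n 4 * ip (pr k U) (pr k U) := by
      intro k hk
      have k0 : k ≠ 0 := by have := hs k hk; omega
      rw [spade_split hn3 mγ mf (hU.memLp 2) (fun b hb => by rw [hUb b hb, hfd]; ring) k0]
      have a1 := mul_le_mul_of_nonneg_left (spade_ip_add (pr k f) (pr k U) c.C_pos hD) hβ4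
      have a2 : 0 ≤ c.C * ip (pr k f) (pr k f) + c.β * lam n 4 * ip (pr k U) (pr k U) :=
        add_nonneg (mul_nonneg c.C_pos.le (ip_self_nonneg _)) (mul_nonneg hD.le (ip_self_nonneg _))
      have a3 := mul_le_mul_of_nonneg_right c.hCβ a2
      linarith
    have s2 := Finset.sum_le_sum s1
    rw [← Finset.mul_sum, Finset.sum_add_distrib, ← Finset.mul_sum, ← Finset.mul_sum] at s2
    have s3 := mul_le_mul_of_nonneg_left (bessel hn3 mf s) c.C_pos.le
    have s4 := mul_le_mul_of_nonneg_left ((hlam U).trans (dirichlet hn3 hU s)) c.β_pos.le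
    have i1 : Integrable (fun b => ‖gradient U b‖ ^ 2) (σ n) :=
      (hU.memLp_grad 2).integrable_norm_pow two_ne_zero
    have i2 : Integrable (fun b => U b ^ 2) (σ n) := (hU.memLp 2).integrable_sq
    have i3 : Integrable (fun b => c.θ (γ b) * (‖gradient γ b‖ ^ 2 - γ b ^ 2)) (σ n) :=
      MemLp.integrable_mul (memLp_of_continuousOn (c.cθ.comp hγc).continuousOn 2)
        (mG.sub (memLp_of_continuousOn (hγc.pow 2).continuousOn 2))
    have i4 : Integrable (fun b => c.ζ (γ b) * (tau2 n * α ^ 2 - γ b ^ 2)) (σ n) :=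
      integrable_of_continuousOn
        ((c.cζ.comp hγc).mul (continuous_const.sub (hγc.pow 2))).continuousOn
    have i5 : Integrable (fun b => γ b * c.Θ (γ b)) (σ n) :=
      integrable_of_continuousOn (hγc.mul (cΘ.comp hγc)).continuousOn
    have i6 : Integrable (fun b => f b ^ 2) (σ n) := mf.integrable_sq
    have s5 : ∫ b, ‖gradient U b‖ ^ 2 ∂(σ n) - ∫ b, U b ^ 2 ∂(σ n) ≤
        ∫ b, c.θ (γ b) * (‖gradient γ b‖ ^ 2 - γ b ^ 2) ∂(σ n) +
          ∫ b, c.ζ (γ b) * (tau2 n * α ^ 2 - γ b ^ 2) ∂(σ n) := by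
      rw [← integral_sub i1 i2, ← integral_add i3 i4]
      refine integral_mono_ae (i1.sub i2) (i3.add i4) ?_
      filter_upwards [ae_norm, hγ.hl.ae_differentiableAt] with b hb hd
      have eu := hγ.hl.euler hd
      rw [hUb b hb, hUd, grad_comp c.dφ hb hd, spade_grad_sq hb eu]
      have a1 : 0 ≤ ‖gradient γ b‖ ^ 2 - γ b ^ 2 := by
        have := abs_real_inner_le_norm (gradient γ b) b
        rw [eu, hb, mul_one] at this
        have := pow_le_pow_left₀ (abs_nonneg _) this 2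
        rw [sq_abs] at this
        linarith
      have a2 := mul_le_mul_of_nonneg_right (c.ζ_ge (γ b)) a1
      have a3 := mul_le_mul_of_nonneg_left (hG b) (c.ζ_nonneg (γ b))
      linarith
    have s6 := convex_theta hγ c.dΘ c.cθ c.Θ_nonneg
    have s7 : c.C * ∫ b, f b ^ 2 ∂(σ n) + c.β * (((n : ℝ) - 1) * ∫ b, γ b * c.Θ (γ b) ∂(σ n) +
        ∫ b, c.ζ (γ b) * (tau2 n * α ^ 2 - γ b ^ 2) ∂(σ n)) ≤
        (1 - c.η) * (1 + α) * ∫ b, hfun n (γ b) ∂(σ n) := by
      have j1 := i5.const_mul ((n : ℝ) - 1)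
      have j2 : Integrable (fun b => ((n : ℝ) - 1) * (γ b * c.Θ (γ b)) +
          c.ζ (γ b) * (tau2 n * α ^ 2 - γ b ^ 2)) (σ n) := j1.add i4
      rw [← integral_const_mul, ← integral_const_mul, ← integral_add j1 i4, ← integral_const_mul,
        ← integral_add (i6.const_mul _) (j2.const_mul _), ← integral_const_mul]
      refine integral_mono_ae ((i6.const_mul _).add (j2.const_mul _))
        ((spade_int_hfun hγ).const_mul _) ?_
      filter_upwards [ae_norm] with b hb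
      have a0 := spade_pos hγ hb
      have a1 := hT b
      rw [hb, mul_one] at a1
      have := c.main α (γ b) hα1 hc a0 ((pow_le_pow_left₀ a0.le a1 2).trans hT2)
      simp only [hfd]
      linarith
    rw [hhf] at s7
    have s8 := mul_le_mul_of_nonneg_left (s5.trans (add_le_add s6 le_rfl)) c.β_pos.le
    linarith

end Crest.Agent.R230
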