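import Crest.Agent.R230.FH
import Crest.Agent.R230.Spade
import Crest.Agent.R230.Pos

/-! # Row 230: the core inequality for the zonoid generated by the gradient of a gauge -/

set_option autoImplicit false
open MeasureTheory Set
open scoped ENNReal

namespace Crest.Agent.R230
variable {n : ℕ}

/-- Support function of the zonoid generated by `∇γ`. -/
noncomputable def zh (γ : E n → ℝ) (ν : E n) : ℝ := ∫ a, |inner ℝ (gradient γ a) ν| ∂(σ n)

/-- The zonoid generated by `∇γ`. -/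
def zG (γ : E n → ℝ) : Set (E n) := {y | ∀ ν, inner ℝ y ν ≤ zh γ ν}

theorem zh_nonneg (γ : E n → ℝ) (ν : E n) : 0 ≤ zh γ ν :=
  integral_nonneg fun _ => abs_nonneg _

theorem core_integrable_abs {γ : E n → ℝ} (hγ : HL γ) (ν : E n) :
    Integrable (fun a => |inner ℝ (gradient γ a) ν|) (σ n) := by
  have h := memLp_one_iff_integrable.1 (hγ.memLp_grad 1)
  exact (h.inner_const (𝕜 := ℝ) ν).abs

theorem zh_neg (γ : E n → ℝ) (ν : E n) : zh γ (-ν) = zh γ ν := by
  simp [zh, inner_neg_right]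

theorem zh_lip [NeZero n] {γ : E n → ℝ} (hγ : HL γ) :
    ∃ C : ℝ, 0 ≤ C ∧ ∀ ν μ, zh γ ν ≤ zh γ μ + C * ‖ν - μ‖ := by
  obtain ⟨C, hC0, hC, -⟩ := hγ.exists_bound
  refine ⟨C, hC0, fun ν μ => ?_⟩
  have h1 : ∫ a, (|inner ℝ (gradient γ a) μ| + C * ‖ν - μ‖) ∂(σ n) = zh γ μ + C * ‖ν - μ‖ := by
    rw [integral_add (core_integrable_abs hγ μ) (integrable_const _)]
    simp [zh]
  rw [← h1]
  refine integral_mono (core_integrable_abs hγ ν)
    ((core_integrable_abs hγ μ).add (integrable_const _)) fun a => ?_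
  have h2 : inner ℝ (gradient γ a) ν = inner ℝ (gradient γ a) μ + inner ℝ (gradient γ a) (ν - μ) := by
    rw [← inner_add_right]; simp
  have h3 : |inner ℝ (gradient γ a) (ν - μ)| ≤ C * ‖ν - μ‖ :=
    (abs_real_inner_le_norm _ _).trans (mul_le_mul_of_nonneg_right (hC a) (norm_nonneg _))
  show |inner ℝ (gradient γ a) ν| ≤ |inner ℝ (gradient γ a) μ| + C * ‖ν - μ‖
  rw [h2]
  exact (abs_add_le _ _).trans (by linarith)

theorem zh_zero (γ : E n → ℝ) : zh γ 0 = 0 := by simp [zh]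

theorem continuous_zh [NeZero n] {γ : E n → ℝ} (hγ : HL γ) : Continuous (zh γ) := by
  obtain ⟨C, hC0, hC⟩ := zh_lip hγ
  have : LipschitzWith ⟨C, hC0⟩ (zh γ) := by
    refine LipschitzWith.of_le_add_mul _ fun x y => ?_
    rw [dist_eq_norm]; exact hC x y
  exact this.continuous

theorem convex_zG (γ : E n → ℝ) : Convex ℝ (zG γ) := by
  intro x hx y hy a b ha hb hab ν
  rw [inner_add_left, real_inner_smul_left, real_inner_smul_left]
  have h1 := mul_le_mul_of_nonneg_left (hx ν) ha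
  have h2 := mul_le_mul_of_nonneg_left (hy ν) hb
  have : a * zh γ ν + b * zh γ ν = zh γ ν := by rw [← add_mul, hab, one_mul]
  linarith

theorem isClosed_zG (γ : E n → ℝ) : IsClosed (zG γ) := by
  have : zG γ = ⋂ ν, {y : E n | inner ℝ y ν ≤ zh γ ν} := by ext y; simp [zG]
  rw [this]
  exact isClosed_iInter fun ν => isClosed_le (by fun_prop) continuous_const

theorem isCompact_zG [NeZero n] {γ : E n → ℝ} (hγ : HL γ) : IsCompact (zG γ) := by
  obtain ⟨C, hC0, hC⟩ := zh_lip hγ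
  refine Metric.isCompact_of_isClosed_isBounded (isClosed_zG γ) ?_
  refine (Metric.isBounded_closedBall (x := (0 : E n)) (r := C)).subset fun y hy => ?_
  have h1 := hy y
  have h2 := hC y 0
  rw [zh_zero, sub_zero, zero_add] at h2
  rw [real_inner_self_eq_norm_sq] at h1
  rw [mem_closedBall_zero_iff]
  by_contra h
  push Not at h
  nlinarith

theorem neg_mem_zG {γ : E n → ℝ} {y : E n} (hy : y ∈ zG γ) : -y ∈ zG γ := by
  intro ν
  have := hy (-ν)
  rwa [zh_neg, inner_neg_right, ← inner_neg_left] at this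

theorem sgnT_mem_zG {γ : E n → ℝ} (hγ : HL γ) (b : E n) : sgnT γ b ∈ zG γ := by
  intro ν
  rw [inner_sgnT hγ]
  refine (le_abs_self _).trans ?_
  refine (abs_integral_le_integral_abs).trans ?_
  refine integral_mono_of_nonneg (Filter.Eventually.of_forall fun a => abs_nonneg _)
    (core_integrable_abs hγ ν) (Filter.Eventually.of_forall fun a => ?_)
  show |Real.sign (inner ℝ a b) * inner ℝ (gradient γ a) ν| ≤ |inner ℝ (gradient γ a) ν|
  rw [abs_mul]
  have : |Real.sign (inner ℝ a b)| ≤ 1 := by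
    rcases Real.sign_apply_eq (inner ℝ a b) with h | h | h <;> rw [h] <;> norm_num
  nlinarith [abs_nonneg (inner ℝ (gradient γ a) ν)]

theorem zG_norm [NeZero n] (hn : 1 ≤ n) {γ : E n → ℝ} (h : ∀ x, γ x = ‖x‖) :
    zG γ = Metric.closedBall 0 (psi n) := by
  have hγ : γ = fun x => ‖x‖ := funext h
  have hz : ∀ ν, zh γ ν = psi n * ‖ν‖ := by
    intro ν
    rw [← integral_abs_inner ν, zh]
    refine integral_congr_ae ?_
    filter_upwards [ae_norm (n := n)] with b hb
    rw [hγ, grad_norm hb]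
  have hp := psi_pos hn
  ext y
  rw [mem_closedBall_zero_iff]
  constructor
  · intro hy
    have h1 := hy y
    rw [hz, real_inner_self_eq_norm_sq] at h1
    by_contra h
    push Not at h
    nlinarith
  · intro hy ν
    rw [hz]
    exact (real_inner_le_norm _ _).trans (mul_le_mul_of_nonneg_right hy (norm_nonneg _))

/-- Normalising a gauge. -/
theorem exists_normalise [NeZero n] {γ : E n → ℝ} (hγ : GaugeFn γ) :
    ∃ v : ℝ, 0 < v ∧ (volume {x | γ x ≤ 1}).toReal = kap n * v ^ n ∧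
      ∫ b, (v * γ b)⁻¹ ^ n ∂(σ n) = 1 := by
  have hI := hγ.integral_inv_pow_pos n
  set I := ∫ b, (γ b)⁻¹ ^ n ∂(σ n) with hIdef
  have hn : n ≠ 0 := NeZero.ne n
  have hv : (I ^ (1 / (n : ℝ))) ^ n = I := by
    rw [one_div]; exact Real.rpow_inv_natCast_pow hI.le hn
  have hvpos : 0 < I ^ (1 / (n : ℝ)) := Real.rpow_pos_of_pos hI _
  refine ⟨I ^ (1 / (n : ℝ)), hvpos, ?_, ?_⟩
  · rw [hγ.volume_eq, hv, ENNReal.toReal_ofReal (mul_pos (kap_pos n) hI).le]
  · simp_rw [mul_inv, mul_pow]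
    rw [integral_const_mul, inv_pow, hv, ← hIdef, inv_mul_cancel₀ hI.ne']

theorem core_sqrt {η α β : ℝ} (hη : η ≤ 1) (hα : 1 ≤ α) (hβ : 1 ≤ β) :
    √((1 - η) * (α ^ 2 - 1)) * √((1 - η) * (β ^ 2 - 1)) ≤ (1 - η) * (α * β - 1) := by
  have h1 : 0 ≤ 1 - η := by linarith
  have h2 : 0 ≤ α ^ 2 - 1 := by nlinarith
  have h3 : 0 ≤ α * β - 1 := by nlinarith
  rw [← Real.sqrt_mul (mul_nonneg h1 h2)]
  refine Real.sqrt_le_iff.2 ⟨mul_nonneg h1 h3, ?_⟩
  have h4 : (α ^ 2 - 1) * (β ^ 2 - 1) ≤ (α * β - 1) ^ 2 := by nlinarith [sq_nonneg (α - β)]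
  calc (1 - η) * (α ^ 2 - 1) * ((1 - η) * (β ^ 2 - 1))
      = (1 - η) ^ 2 * ((α ^ 2 - 1) * (β ^ 2 - 1)) := by ring
    _ ≤ (1 - η) ^ 2 * (α * β - 1) ^ 2 := mul_le_mul_of_nonneg_left h4 (sq_nonneg _)
    _ = ((1 - η) * (α * β - 1)) ^ 2 := by ring

/-- **Core inequality.** -/
theorem core [NeZero n] (hn : 4 ≤ n) (c : Cert n) {γ : E n → ℝ} (hγ : GaugeFn γ)
    (heven : ∀ x, γ (-x) = γ x) (hnorm : ∫ b, (γ b)⁻¹ ^ n ∂(σ n) = 1) (hpos : InPos γ) :
    kap n * psi n ^ n ≤ (volume (zG γ)).toReal ∧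
      ((volume (zG γ)).toReal ≤ kap n * psi n ^ n → ∀ x, γ x = ‖x‖) := by
  have hn1 : 1 ≤ n := by omega
  have hn3 : 3 ≤ n := by omega
  have hψ := psi_pos hn1
  have hτ := tau_pos hn1
  have hκ := kap_pos n
  set α := ∫ b, γ b ∂(σ n) with hα
  have hα1 : 1 ≤ α := one_le_mean hγ hnorm
  set r := psi n / tau n * α with hr
  have hrpos : 0 < r := by positivity
  have hball : Metric.closedBall (0 : E n) r ⊆ zG γ := by
    intro y hy ν
    rw [mem_closedBall_zero_iff] at hy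
    refine le_trans ?_ (hpos.zonoid_ge hn hγ heven ν)
    exact (real_inner_le_norm _ _).trans (mul_le_mul_of_nonneg_right hy (norm_nonneg _))
  have h0 : (0 : E n) ∈ interior (zG γ) :=
    mem_interior_iff_mem_nhds.2 (Filter.mem_of_superset (Metric.closedBall_mem_nhds 0 hrpos) hball)
  obtain ⟨g, hg, hG, -⟩ := exists_gaugeFn (isCompact_zG hγ.hl) (convex_zG γ) h0
  have hgle : ∀ x, g x ≤ ‖x‖ / r := by
    intro x
    by_cases hx : x = 0
    · have := hg.hom 0 x le_rfl
      rw [hx] at this ⊢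
      simp only [smul_zero, zero_mul] at this
      simp [this]
    · have hxn : 0 < ‖x‖ := norm_pos_iff.2 hx
      have h1 : (r / ‖x‖) • x ∈ zG γ := by
        refine hball ?_
        rw [mem_closedBall_zero_iff, norm_smul, Real.norm_eq_abs, abs_of_pos (by positivity),
          div_mul_cancel₀ _ hxn.ne']
      rw [hG] at h1
      have h2 : g ((r / ‖x‖) • x) ≤ 1 := h1
      rw [hg.hom _ _ (by positivity)] at h2
      rw [le_div_iff₀ hrpos]
      rw [div_mul_eq_mul_div, div_le_one hxn] at h2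
      linarith
  obtain ⟨v, hv, hvol, hvnorm⟩ := exists_normalise hg
  rw [← hG] at hvol
  have hg' : GaugeFn (fun x => v * g x) := hg.const_mul hv
  set α' := ∫ b, v * g b ∂(σ n) with hα'
  have hα'1 : 1 ≤ α' := one_le_mean hg' hvnorm
  have key : v ≤ psi n → psi n * (1 + c.η * (α * α' - 1)) ≤ v := by
    intro hvψ
    have hT' : ∀ x, v * g x ≤ tau n * α' * ‖x‖ := by
      intro x
      have h1 : v * g x ≤ psi n * (‖x‖ / r) :=
        mul_le_mul hvψ (hgle x) (hg.nonneg x) hψ.le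
      have h2 : psi n * (‖x‖ / r) = tau n * α⁻¹ * ‖x‖ := by
        rw [hr]; field_simp
      have h3 : α⁻¹ ≤ α' := (inv_le_one_of_one_le₀ hα1).trans hα'1
      calc v * g x ≤ tau n * α⁻¹ * ‖x‖ := h2 ▸ h1
        _ ≤ tau n * α' * ‖x‖ := by gcongr
    have hA := spade hn c hγ hnorm (hpos.le_tau hγ heven)
    have hB := spade hn c hg' hvnorm hT'
    have hP := pairing_ge hn3 hγ.hl hg'.hl (fun Y hY => hpos.harm_two hγ.hl hY) hA hB
    have hS := core_sqrt c.η_le hα1 hα'1
    have hU : ∫ b, inner ℝ (gradient (fun x => v * g x) b) (sgnT γ b) ∂(σ n) ≤ v := by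
      have h1 : ∫ _b : E n, v ∂(σ n) = v := by simp
      refine le_trans (integral_mono (integrable_inner_sgnT hγ.hl hg'.hl) (integrable_const v)
        fun b => ?_) h1.le
      refine (hg'.inner_grad_le b _).trans ?_
      have h2 := sgnT_mem_zG hγ.hl b
      rw [hG] at h2
      have h3 : g (sgnT γ b) ≤ 1 := h2
      show v * g (sgnT γ b) ≤ v
      nlinarith
    have h4 : 1 + c.η * (α * α' - 1) ≤
        α * α' - √((1 - c.η) * (α ^ 2 - 1)) * √((1 - c.η) * (α' ^ 2 - 1)) := by nlinarith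
    exact (mul_le_mul_of_nonneg_left h4 hψ.le).trans (hP.trans hU)
  have hαα : 0 ≤ α * α' - 1 := by nlinarith
  have hge : psi n ≤ v := by
    by_contra h
    push Not at h
    have h1 := key h.le
    have h2 : 0 ≤ psi n * (c.η * (α * α' - 1)) := mul_nonneg hψ.le (mul_nonneg c.η_pos.le hαα)
    nlinarith
  refine ⟨?_, fun hle => ?_⟩
  · rw [hvol]
    exact mul_le_mul_of_nonneg_left (pow_le_pow_left₀ hψ.le hge n) hκ.le
  · rw [hvol] at hle
    have h1 : v ^ n ≤ psi n ^ n := le_of_mul_le_mul_left hle hκ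
    have h2 : v ≤ psi n := (pow_le_pow_iff_left₀ hv.le hψ.le (by omega)).1 h1
    have h3 := key h2
    have h4 : psi n * (c.η * (α * α' - 1)) ≤ 0 := by nlinarith
    have h5 : α * α' - 1 ≤ 0 := by
      by_contra h
      push Not at h
      have := mul_pos hψ (mul_pos c.η_pos h)
      linarith
    have h6 : α = 1 := by nlinarith
    exact eq_norm_of_mean_eq_one hγ hnorm h6

end Crest.Agent.R230
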