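import Mathlib

/-!
# Row 230 (Petty's projection conjecture): definitions

`E n` Euclidean space, `σ n` the uniform probability measure on the unit sphere (as a measure on
`E n`), `kap n` the volume of the unit ball, `psi n = E|⟪b,e⟫|`.
-/

set_option autoImplicit false
open MeasureTheory Set
open scoped ENNReal

namespace Crest.Agent.R230

/-- Euclidean `n`-space. -/
abbrev E (n : ℕ) := EuclideanSpace ℝ (Fin n)

/-- Uniform probability measure on the unit sphere, seen as a measure on `E n`. -/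
noncomputable def σ (n : ℕ) : Measure (E n) :=
  ((volume : Measure (E n)).toSphere univ)⁻¹ •
    ((volume : Measure (E n)).toSphere).map Subtype.val

/-- Volume of the unit ball of `ℝ^n`. -/
noncomputable def kap (n : ℕ) : ℝ := (volume (Metric.ball (0 : E n) 1)).toReal

/-- `psi n = 2 κ_{n-1} / (n κ_n)`; it equals the mean of `|⟪b, e⟫|` over the sphere. -/
noncomputable def psi (n : ℕ) : ℝ := 2 * kap (n - 1) / (n * kap n)

/-- Positively one-homogeneous Lipschitz functions. -/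
structure HL {n : ℕ} (U : E n → ℝ) : Prop where
  lip : ∃ C : NNReal, LipschitzWith C U
  hom : ∀ (t : ℝ) (x : E n), 0 ≤ t → U (t • x) = t * U x

/-- Gauge functions: subadditive, positively homogeneous, positive away from `0`. -/
structure GaugeFn {n : ℕ} (γ : E n → ℝ) : Prop where
  add : ∀ x y, γ (x + y) ≤ γ x + γ y
  hom : ∀ (t : ℝ) (x : E n), 0 ≤ t → γ (t • x) = t * γ x
  pos : ∀ x, x ≠ 0 → 0 < γ x

/-- Real polynomials in `n` variables. -/
abbrev Pol (n : ℕ) := MvPolynomial (Fin n) ℝ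

/-- Evaluation of a polynomial at a point of `E n`. -/
noncomputable def ev {n : ℕ} (p : Pol n) (x : E n) : ℝ := MvPolynomial.eval (fun i => x i) p

/-- Laplacian of a polynomial. -/
noncomputable def lap {n : ℕ} (p : Pol n) : Pol n :=
  ∑ i, MvPolynomial.pderiv i (MvPolynomial.pderiv i p)

/-- Harmonic homogeneous polynomials of degree `k`. -/
def Harm {n : ℕ} (k : ℕ) (p : Pol n) : Prop := p.IsHomogeneous k ∧ lap p = 0

/-- `L²(σ)` inner product of two polynomials. -/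
noncomputable def ip {n : ℕ} (p q : Pol n) : ℝ := ∫ b, ev p b * ev q b ∂(σ n)

/-- Orthogonal projection of a function on the spherical harmonics of degree `k`. -/
noncomputable def pr {n : ℕ} (k : ℕ) (f : E n → ℝ) : Pol n :=
  Classical.epsilon (fun H : Pol n =>
    Harm k H ∧ ∀ Y : Pol n, Harm k Y → ∫ b, f b * ev Y b ∂(σ n) = ip H Y)

/-- Eigenvalues `k (k + n - 2)` of the spherical Laplacian. -/
noncomputable def lam (n k : ℕ) : ℝ := (k : ℝ) * ((k : ℝ) + n - 2)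

/-- Funk–Hecke multipliers of the kernel `sign ⟪a, b⟫`. -/
noncomputable def psis (n : ℕ) : ℕ → ℝ
  | 0 => 0
  | 1 => psi n
  | (j + 2) => -((j : ℝ) / ((n : ℝ) + j)) * psis n j

/-- The worst coefficient (degree four) of the pairing. -/
noncomputable def beta4 (n : ℕ) : ℝ :=
  (1 + 4 * ((n : ℝ) + 1) * ((n : ℝ) + 2)) / (((n : ℝ) + 1) * ((n : ℝ) + 3))

/-- `tau n = 1 / (n E|s|^3)`. -/
noncomputable def tau (n : ℕ) : ℝ := ((n : ℝ) + 1) / (2 * n * psi n)

/-- A rational upper bound for `tau n ^ 2`. -/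
noncomputable def tau2 (n : ℕ) : ℝ := ((n : ℝ) + 1) ^ 2 * ((n : ℝ) - 1 / 2) / (63 / 25 * (n : ℝ) ^ 2)

/-- The gain function `t - 1 + (t^{-n} - 1)/n`. -/
noncomputable def hfun (n : ℕ) (t : ℝ) : ℝ := t - 1 + (t⁻¹ ^ n - 1) / n

/-- One-dimensional certificate for the key inequality. -/
structure Cert (n : ℕ) where
  η : ℝ
  a : ℝ
  C : ℝ
  β : ℝ
  φ : ℝ → ℝ
  w : ℝ → ℝ
  Θ : ℝ → ℝ
  θ : ℝ → ℝ
  ζ : ℝ → ℝ
  η_pos : 0 < η
  η_le : η ≤ 1
  one_le_a : 1 ≤ a
  C_pos : 0 < C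
  β_pos : 0 < β
  hCβ : beta4 n * (1 / C + 1 / (β * lam n 4)) ≤ 1
  dφ : ∀ t, HasDerivAt φ (w t) t
  cw : Continuous w
  dΘ : ∀ t, HasDerivAt Θ (θ t) t
  cθ : Continuous θ
  cζ : Continuous ζ
  Θ_nonneg : ∀ t, 0 ≤ Θ t
  ζ_nonneg : ∀ t, 0 ≤ ζ t
  ζ_ge : ∀ t, w t ^ 2 - θ t ≤ ζ t
  main : ∀ α t : ℝ, 1 ≤ α → α ≤ a → 0 < t → t ^ 2 ≤ tau2 n * α ^ 2 →
    C * (t - 1 - φ t) ^ 2 + β * (((n : ℝ) - 1) * t * Θ t + ζ t * (tau2 n * α ^ 2 - t ^ 2)) ≤
      (1 - η) * (1 + α) * hfun n t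
  big : beta4 n / lam n 4 * (tau2 n - 1) * a ^ 2 ≤ (1 - η) * (a ^ 2 - 1)

/-- Volume of the shadow of `K` on `u^⊥`. -/
noncomputable def shadow {n : ℕ} (K : Set (E n)) (u : E n) : ℝ :=
  ((μHE[n - 1] : Measure (E n)) ((fun y => y - inner ℝ y u • u) '' K)).toReal

/-- The projection body. -/
def PiBody {n : ℕ} (K : Set (E n)) : Set (E n) :=
  ⋂ u ∈ Metric.sphere (0 : E n) 1, {x : E n | inner ℝ x u ≤ shadow K u}

end Crest.Agent.R230
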