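import Crest.Agent.R230.Proj
import Crest.Agent.R230.Psi

/-! # Row 230: Funk–Hecke for the sign kernel and the pairing of two gradients -/

set_option autoImplicit false
open MeasureTheory Set MvPolynomial
open scoped ENNReal

namespace Crest.Agent.R230
variable {n : ℕ}

theorem fh_meas_sign : Measurable Real.sign := by
  unfold Real.sign
  exact Measurable.ite measurableSet_Iio measurable_const
    (Measurable.ite measurableSet_Ioi measurable_const measurable_const)

theorem fh_abs_sign_le (r : ℝ) : |Real.sign r| ≤ 1 := by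
  rcases Real.sign_apply_eq r with h | h | h <;> simp [h]

theorem fh_sign_mul (r : ℝ) : Real.sign r * r = |r| := by
  rcases lt_trichotomy r 0 with h | h | h
  · rw [Real.sign_of_neg h, abs_of_neg h]; ring
  · simp [h]
  · rw [Real.sign_of_pos h, abs_of_pos h]; ring

theorem fh_meas_sgn (b : E n) : Measurable fun a : E n => Real.sign (inner ℝ a b) :=
  fh_meas_sign.comp (by fun_prop)

theorem fh_memLp_sgn (b : E n) : MemLp (fun a : E n => Real.sign (inner ℝ a b)) 2 (σ n) :=
  memLp_of_bdd (fh_meas_sgn b).aestronglyMeasurable (C := 1) (fun _ _ => fh_abs_sign_le _) 2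

/-- Pairing of a function with a polynomial. -/
noncomputable def fhI (f : E n → ℝ) (p : Pol n) : ℝ := ∫ a, f a * ev p a ∂(σ n)

theorem fhI_sum {f : E n → ℝ} (hf : MemLp f 2 (σ n)) (p : Fin n → Pol n) :
    fhI f (∑ i, p i) = ∑ i, fhI f (p i) := by
  unfold fhI
  rw [← integral_finsetSum _ fun i _ => integrable_mul_ev hf (p i)]
  simp only [ev_sum, Finset.mul_sum]

theorem fhI_nsmul (f : E n → ℝ) (c : ℕ) (p : Pol n) : fhI f (c • p) = c * fhI f p := by
  unfold fhI
  rw [← integral_const_mul, ← Nat.cast_smul_eq_nsmul ℝ]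
  simp only [ev_smul]
  congr 1; funext a; ring

theorem fh_ibp [NeZero n] {b : E n} (hb : ‖b‖ = 1) {j : ℕ} {Y : Fin n → Pol n}
    (hY : ∀ i, (Y i).IsHomogeneous j) :
    fhI (fun a => Real.sign (inner ℝ a b)) (∑ i, C (b i) * Y i) +
      fhI (fun a => |inner ℝ a b|) (∑ i, pderiv i (Y i)) =
      ((j : ℝ) + n) * fhI (fun a => |inner ℝ a b|) (∑ i, X i * Y i) := by
  have hb0 : b ≠ 0 := by rintro rfl; simp at hb
  have hU := hl_abs_inner b
  rw [fhI_sum (fh_memLp_sgn b), fhI_sum (hU.memLp 2), fhI_sum (hU.memLp 2),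
    ← Finset.sum_add_distrib, Finset.mul_sum]
  refine Finset.sum_congr rfl fun i _ => ?_
  have h := ibp_coord hU (hY i) i
  unfold fhI
  convert h using 2
  · refine integral_congr_ae ?_
    filter_upwards [ae_inner_ne_zero hb0] with a ha
    rw [grad_abs_inner ha]
    simp only [ev_mul, ev_C, PiLp.smul_apply, smul_eq_mul]
    ring
  · congr 1; funext a
    simp only [ev_mul, ev_X]
    ring

theorem fh_pderiv_linP (b : E n) (i : Fin n) : pderiv i (linP b) = C (b i) := by
  classical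
  simp [linP, pderiv_X, Pi.single_apply]

theorem fh_sum_sq {b : E n} (hb : ‖b‖ = 1) : ∑ i, b i * b i = 1 := by
  have := EuclideanSpace.real_norm_sq_eq b
  rw [hb] at this
  simp only [← sq]
  linarith

theorem fh_relA [NeZero n] {b : E n} (hb : ‖b‖ = 1) {d : ℕ} {W : Pol n} (hW : Harm (d + 1) W) :
    fhI (fun a => Real.sign (inner ℝ a b)) (dirD b W) =
      ((d : ℝ) + n) * (d + 1) * fhI (fun a => |inner ℝ a b|) W := by
  have h := fh_ibp hb (j := d) (Y := fun i => pderiv i W) fun i => hW.1.pderiv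
  have h0 : ∑ i, pderiv i (pderiv i W) = 0 := hW.2
  rw [h0, hW.1.sum_X_mul_pderiv, fhI_nsmul] at h
  have h1 : fhI (fun a => |inner ℝ a b|) (0 : Pol n) = 0 := by simp [fhI]
  rw [h1, add_zero] at h
  rw [dirD, h]
  push_cast
  ring

theorem fh_relC [NeZero n] {b : E n} (hb : ‖b‖ = 1) {d : ℕ} {W : Pol n} (hW : Harm (d + 1) W) :
    ((d : ℝ) + 1) * fhI (fun a => Real.sign (inner ℝ a b)) W =
      (1 - (d : ℝ)) * fhI (fun a => |inner ℝ a b|) (dirD b W) := by
  have hB := fh_ibp hb (j := d + 1) (Y := fun i => C (b i) * W)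
    fun i => by simpa using (isHomogeneous_C _ (b i)).mul hW.1
  have hC := fh_ibp hb (j := d + 1) (Y := fun i => linP b * pderiv i W)
    fun i => by simpa [add_comm] using (linP_hom b).mul (hW.1.pderiv (i := i))
  have e1 : ∑ i, C (b i) * (C (b i) * W) = W := by
    simp only [← mul_assoc, ← Finset.sum_mul, ← map_mul, ← map_sum, fh_sum_sq hb, map_one, one_mul]
  have e2 : ∑ i, pderiv i (C (b i) * W) = dirD b W := by
    simp [dirD]
  have e3 : ∑ i, X i * (C (b i) * W) = linP b * W := by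
    rw [linP, Finset.sum_mul]
    exact Finset.sum_congr rfl fun i _ => by ring
  have e4 : ∑ i, C (b i) * (linP b * pderiv i W) = linP b * dirD b W := by
    rw [dirD, Finset.mul_sum]
    exact Finset.sum_congr rfl fun i _ => by ring
  have e5 : ∑ i, pderiv i (linP b * pderiv i W) = dirD b W := by
    have h0 : ∑ i, pderiv i (pderiv i W) = 0 := hW.2
    simp only [Derivation.leibniz, smul_eq_mul, fh_pderiv_linP, Finset.sum_add_distrib,
      ← Finset.mul_sum, h0, mul_zero, zero_add, dirD]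
    exact Finset.sum_congr rfl fun i _ => by ring
  have e6 : ∑ i, X i * (linP b * pderiv i W) = (d + 1) • (linP b * W) := by
    rw [← mul_smul_comm, ← hW.1.sum_X_mul_pderiv, Finset.mul_sum]
    exact Finset.sum_congr rfl fun i _ => by ring
  have e7 : fhI (fun a => Real.sign (inner ℝ a b)) (linP b * dirD b W) =
      fhI (fun a => |inner ℝ a b|) (dirD b W) := by
    unfold fhI
    congr 1; funext a
    rw [ev_mul, ev_linP, ← mul_assoc, fh_sign_mul]
  rw [e1, e2, e3] at hB
  rw [e4, e5, e6, e7, fhI_nsmul] at hC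
  push_cast at hB hC
  linear_combination ((d : ℝ) + 1) * hB - hC

theorem fh_const {W : Pol n} (hW : W.IsHomogeneous 0) (a b : E n) : ev W a = ev W b := by
  have h1 := ev_smul_arg hW 0 a
  have h2 := ev_smul_arg hW 0 b
  simp only [zero_smul, pow_zero, one_mul] at h1 h2
  rw [← h1, ← h2]

/-- Funk–Hecke formula for the kernel `sign ⟪a, b⟫`. -/
theorem funk_hecke [NeZero n] (hn : 3 ≤ n) {b : E n} (hb : ‖b‖ = 1) {j : ℕ} {Y : Pol n}
    (hY : Harm j Y) :
    ∫ a, Real.sign (inner ℝ a b) * ev Y a ∂(σ n) = psis n j * ev Y b := by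
  change fhI (fun a => Real.sign (inner ℝ a b)) Y = _
  induction j using Nat.twoStepInduction generalizing Y with
  | zero =>
    have h := integral_neg_σ (n := n) fun a => Real.sign (inner ℝ a b) * ev Y a
    simp only [inner_neg_left, Real.sign_neg, fh_const hY.1 (-_) b, neg_mul] at h
    rw [integral_neg] at h
    have h2 : ∫ a, Real.sign (inner ℝ a b) * ev Y b ∂(σ n) =
        ∫ a, Real.sign (inner ℝ a b) * ev Y a ∂(σ n) := by
      congr 1; funext a; rw [fh_const hY.1 a b]
    simp only [psis, zero_mul, fhI]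
    linarith
  | one =>
    have h := fh_relC hb (d := 0) hY
    have h2 : fhI (fun a => |inner ℝ a b|) (dirD b Y) = psi n * ev Y b := by
      have h3 := ev_dirD_self hY.1 b
      have h4 : ∀ a, ev (dirD b Y) a = ev Y b := fun a => by
        rw [fh_const (dirD_hom b hY.1) a b, h3]; simp
      simp only [fhI, h4]
      rw [integral_mul_const, integral_abs_inner, hb, mul_one]
    rw [h2] at h
    simpa [psis] using h
  | more j ih _ =>
    have h1 : Harm (j + 1) (dirD b Y) := hY.dirD b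
    have h2 : Harm j (dirD b (dirD b Y)) := h1.dirD b
    have hC := fh_relC hb (d := j + 1) hY
    have hA := fh_relA hb h1
    rw [ih h2, ev_dirD_self h1.1, ev_dirD_self hY.1] at hA
    have hn' : (3 : ℝ) ≤ n := by exact_mod_cast hn
    have hj : (0 : ℝ) ≤ j := Nat.cast_nonneg j
    have hnj : (n : ℝ) + j ≠ 0 := by positivity
    have hj1 : (j : ℝ) + 1 ≠ 0 := by positivity
    have hj2 : (j : ℝ) + 2 ≠ 0 := by positivity
    push_cast at hA hC
    rw [psis]
    refine mul_left_cancel₀ (mul_ne_zero (mul_ne_zero hnj hj1) hj2) ?_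
    field_simp
    refine mul_left_cancel₀ (mul_ne_zero hj1 hj2) ?_
    linear_combination ((n : ℝ) + j) * (j + 1) * hC + j * hA

/-- The field `F(b) = E_a [sign ⟪a,b⟫ ∇U(a)]`. -/
noncomputable def sgnT (U : E n → ℝ) (b : E n) : E n :=
  ∫ a, Real.sign (inner ℝ a b) • gradient U a ∂(σ n)

theorem fh_meas_ker (U : E n → ℝ) :
    Measurable fun p : E n × E n => Real.sign (inner ℝ p.2 p.1) • gradient U p.2 :=
  (fh_meas_sign.comp (by fun_prop)).smul ((measurable_grad U).comp measurable_snd)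

theorem fh_norm_ker {U : E n → ℝ} {C : ℝ} (hC : ∀ x, ‖gradient U x‖ ≤ C) (a b : E n) :
    ‖Real.sign (inner ℝ a b) • gradient U a‖ ≤ C := by
  rw [norm_smul, Real.norm_eq_abs]
  exact (mul_le_of_le_one_left (norm_nonneg _) (fh_abs_sign_le _)).trans (hC a)

theorem inner_sgnT {U : E n → ℝ} (hU : HL U) (b v : E n) :
    inner ℝ (sgnT U b) v = ∫ a, Real.sign (inner ℝ a b) * inner ℝ (gradient U a) v ∂(σ n) := by
  obtain ⟨C, -, hC, -⟩ := hU.exists_bound
  have hi : Integrable (fun a => Real.sign (inner ℝ a b) • gradient U a) (σ n) :=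
    integrable_of_bdd ((fh_meas_sgn b).smul (measurable_grad U)).aestronglyMeasurable
      fun a _ => fh_norm_ker hC a b
  rw [real_inner_comm, sgnT, ← integral_inner hi]
  congr 1; funext a
  rw [inner_smul_right, real_inner_comm (gradient U a) v]

theorem fh_meas_sgnT [NeZero n] (U : E n → ℝ) : StronglyMeasurable (sgnT U) :=
  (fh_meas_ker U).stronglyMeasurable.integral_prod_right'

theorem fh_norm_sgnT [NeZero n] {U : E n → ℝ} {C : ℝ} (hC : ∀ x, ‖gradient U x‖ ≤ C) (b : E n) :
    ‖sgnT U b‖ ≤ C := by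
  have := norm_integral_le_of_norm_le_const (μ := σ n)
    (Filter.Eventually.of_forall fun a => fh_norm_ker hC a b)
  simpa [sgnT] using this

theorem integrable_inner_sgnT [NeZero n] {U V : E n → ℝ} (hU : HL U) (hV : HL V) :
    Integrable (fun b => inner ℝ (gradient V b) (sgnT U b)) (σ n) := by
  obtain ⟨C, -, hC, -⟩ := hU.exists_bound
  obtain ⟨D, hD0, hD, -⟩ := hV.exists_bound
  refine integrable_of_bdd (C := D * C) ((measurable_grad V).aestronglyMeasurable.inner
    (fh_meas_sgnT U).aestronglyMeasurable) fun b _ => ?_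
  exact (norm_inner_le_norm _ _).trans
    (mul_le_mul (hD b) (fh_norm_sgnT hC b) (norm_nonneg _) hD0)

/-- Coefficient of the degree `k` components in the pairing. -/
noncomputable def piC (n k : ℕ) : ℝ := psis n (k - 1) * cX n k + psis n (k + 1) * cY n k

theorem fh_memLp_sgnT [NeZero n] {U : E n → ℝ} (hU : HL U) (i : Fin n) :
    MemLp (fun b => sgnT U b i) 2 (σ n) := by
  obtain ⟨C, -, hC, -⟩ := hU.exists_bound
  refine memLp_of_bdd (C := C) ?_ (fun b _ => ?_) 2
  · exact ((EuclideanSpace.proj i : E n →L[ℝ] ℝ).continuous.comp_stronglyMeasurable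
      (fh_meas_sgnT U)).aestronglyMeasurable
  · exact (PiLp.norm_apply_le _ i).trans (fh_norm_sgnT hC b)

theorem fh_sgnT_apply {U : E n → ℝ} (hU : HL U) (b : E n) (i : Fin n) :
    sgnT U b i = ∫ a, Real.sign (inner ℝ a b) * gradient U a i ∂(σ n) := by
  have := inner_sgnT hU b (EuclideanSpace.single i 1)
  simpa only [EuclideanSpace.inner_single_right, conj_trivial, one_mul] using this

theorem fh_pair [NeZero n] (hn : 3 ≤ n) {U : E n → ℝ} (hU : HL U) (i : Fin n) {j : ℕ}
    {Y : Pol n} (hY : Harm j Y) :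
    ∫ b, sgnT U b i * ev Y b ∂(σ n) = psis n j * ∫ a, gradient U a i * ev Y a ∂(σ n) := by
  have hi : Integrable (Function.uncurry fun b a : E n =>
      Real.sign (inner ℝ a b) * gradient U a i * ev Y b) ((σ n).prod (σ n)) := by
    have h1 : Integrable (fun p : E n × E n => ev Y p.1 * gradient U p.2 i) ((σ n).prod (σ n)) :=
      ((memLp_ev Y 1).integrable le_rfl).mul_prod ((hU.memLp_grad_apply i 1).integrable le_rfl)
    have h2 : Measurable fun p : E n × E n => Real.sign (inner ℝ p.2 p.1) :=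
      fh_meas_sign.comp (by fun_prop)
    refine (h1.bdd_mul (c := 1) h2.aestronglyMeasurable
      (Filter.Eventually.of_forall fun p => fh_abs_sign_le _)).congr
      (Filter.Eventually.of_forall fun p => ?_)
    simp only [Function.uncurry]
    ring
  simp only [fh_sgnT_apply hU, ← integral_mul_const]
  rw [integral_integral_swap hi, ← integral_const_mul]
  refine integral_congr_ae ?_
  filter_upwards [ae_norm] with a ha
  have h := funk_hecke hn ha hY
  calc ∫ b, Real.sign (inner ℝ a b) * gradient U a i * ev Y b ∂(σ n)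
      = ∫ b, gradient U a i * (Real.sign (inner ℝ b a) * ev Y b) ∂(σ n) := by
        congr 1; funext b; rw [real_inner_comm]; ring
    _ = _ := by rw [integral_const_mul, h]; ring

theorem fh_abs_psis (hn : 3 ≤ n) (j : ℕ) : |psis n j| ≤ psi n := by
  have hp := psi_pos (n := n) (by omega)
  induction j using Nat.twoStepInduction with
  | zero => simp [psis, hp.le]
  | one => simp [psis, abs_of_pos hp]
  | more j ih _ =>
    have hn' : (3 : ℝ) ≤ n := by exact_mod_cast hn
    have hj : (0 : ℝ) ≤ j := Nat.cast_nonneg j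
    rw [psis, abs_mul, abs_neg, abs_of_nonneg (by positivity)]
    refine (mul_le_of_le_one_left (abs_nonneg _) ?_).trans ih
    rw [div_le_one (by positivity)]
    linarith

theorem fh_cX_nonneg (hn : 3 ≤ n) (k : ℕ) : 0 ≤ cX n k := by
  have hn' : (3 : ℝ) ≤ n := by exact_mod_cast hn
  have hk : (0 : ℝ) ≤ k := Nat.cast_nonneg k
  exact div_nonneg (by positivity) (by linarith)

theorem fh_cY_nonneg (hn : 3 ≤ n) (k : ℕ) : 0 ≤ cY n k := by
  have hn' : (3 : ℝ) ≤ n := by exact_mod_cast hn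
  have hk : (0 : ℝ) ≤ k := Nat.cast_nonneg k
  exact div_nonneg (mul_nonneg (sq_nonneg _) (by linarith)) (by linarith)

theorem fh_summable_sq [NeZero n] (hn : 3 ≤ n) {U : E n → ℝ} (hU : HL U) :
    Summable fun k => (1 + lam n k) * ip (pr k U) (pr k U) := by
  refine summable_of_sum_le (c := ∫ b, ‖gradient U b‖ ^ 2 ∂(σ n)) (fun k => ?_) fun s => ?_
  · rw [← cX_add_cY hn]
    exact mul_nonneg (add_nonneg (fh_cX_nonneg hn k) (fh_cY_nonneg hn k)) (ip_self_nonneg _)
  · have h1 := bessel hn (hU.memLp 2) s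
    have h2 := dirichlet hn hU s
    simp only [add_mul, one_mul, Finset.sum_add_distrib]
    linarith

theorem fh_summable [NeZero n] (hn : 3 ≤ n) {U V : E n → ℝ} (hU : HL U) (hV : HL V)
    {c : ℕ → ℝ} (hc : ∀ k, |c k| ≤ psi n * (1 + lam n k)) :
    Summable fun k => c k * ip (pr k U) (pr k V) := by
  refine Summable.of_norm_bounded
    (((fh_summable_sq hn hU).add (fh_summable_sq hn hV)).mul_left (psi n)) fun k => ?_
  have h1 := abs_ip_le (pr k U) (pr k V)
  have h2 := ip_self_nonneg (pr k U)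
  have h3 := ip_self_nonneg (pr k V)
  have h4 : |ip (pr k U) (pr k V)| ≤ ip (pr k U) (pr k U) + ip (pr k V) (pr k V) := by
    nlinarith [Real.sq_sqrt h2, Real.sq_sqrt h3, Real.sqrt_nonneg (ip (pr k U) (pr k U)),
      Real.sqrt_nonneg (ip (pr k V) (pr k V)),
      sq_nonneg (√(ip (pr k U) (pr k U)) - √(ip (pr k V) (pr k V)))]
  rw [Real.norm_eq_abs, abs_mul, ← mul_add, ← mul_assoc]
  exact mul_le_mul (hc k) h4 (abs_nonneg _) ((abs_nonneg _).trans (hc k))

theorem hasSum_pairing [NeZero n] (hn : 3 ≤ n) {U V : E n → ℝ} (hU : HL U) (hV : HL V) :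
    HasSum (fun k => piC n k * ip (pr k U) (pr k V))
      (∫ b, inner ℝ (gradient V b) (sgnT U b) ∂(σ n)) := by
  have hp := psi_pos (n := n) (by omega)
  have h1 : ∀ i : Fin n, HasSum (fun j => psis n j *
      ip (pr j fun b => gradient U b i) (pr j fun b => gradient V b i))
      (∫ b, sgnT U b i * gradient V b i ∂(σ n)) := by
    intro i
    have h := parseval hn (fh_memLp_sgnT hU i) (hV.memLp_grad_apply i 2)
    convert h using 2 with j
    have hY := pr_harm (hV.memLp_grad_apply i 2) j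
    rw [← pr_spec (fh_memLp_sgnT hU i) hY, ← pr_spec (hU.memLp_grad_apply i 2) hY,
      fh_pair hn hU i hY]
  have h2 := hasSum_sum fun i (_ : i ∈ Finset.univ) => h1 i
  have e : ∑ i, ∫ b, sgnT U b i * gradient V b i ∂(σ n) =
      ∫ b, inner ℝ (gradient V b) (sgnT U b) ∂(σ n) := by
    rw [← integral_finsetSum _ (f := fun i b => sgnT U b i * gradient V b i) fun i _ =>
      (fh_memLp_sgnT hU i).integrable_mul (hV.memLp_grad_apply i 2)]
    refine integral_congr_ae (Filter.Eventually.of_forall fun b => ?_)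
    simp only [PiLp.inner_apply, RCLike.inner_apply, conj_trivial]
  simp only [← Finset.mul_sum, sum_ip_pr_grad hn hU hV] at h2
  rw [e] at h2
  have hA := (fh_summable hn hU hV (c := fun k => psis n (k - 1) * cX n k) fun k => by
    rw [abs_mul, abs_of_nonneg (fh_cX_nonneg hn k), ← cX_add_cY hn]
    exact mul_le_mul (fh_abs_psis hn _) (le_add_of_nonneg_right (fh_cY_nonneg hn k))
      (fh_cX_nonneg hn k) hp.le).hasSum
  have hB := (fh_summable hn hU hV (c := fun k => psis n (k + 1) * cY n k) fun k => by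
    rw [abs_mul, abs_of_nonneg (fh_cY_nonneg hn k), ← cX_add_cY hn]
    exact mul_le_mul (fh_abs_psis hn _) (le_add_of_nonneg_left (fh_cX_nonneg hn k))
      (fh_cY_nonneg hn k) hp.le).hasSum
  have hA' := (hasSum_nat_add_iff' 1).2 hA
  have hB' := (hasSum_nat_add_iff (f := fun j => psis n j *
    (if j = 0 then 0 else cY n (j - 1) * ip (pr (j - 1) U) (pr (j - 1) V))) 1).1
    (by simpa [mul_assoc] using hB)
  have h3 := hA'.add hB'
  simp only [Nat.add_sub_cancel, mul_assoc, ← mul_add] at h3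
  have h4 := h2.unique h3
  have h5 := hA.add hB
  convert h5 using 1
  · funext k
    rw [piC, add_mul]
  · rw [h4]
    simp [psis, mul_assoc]

theorem piC_zero (hn : 3 ≤ n) : piC n 0 = psi n := by
  have hn' : (3 : ℝ) ≤ n := by exact_mod_cast hn
  have h : (n : ℝ) - 2 ≠ 0 := by linarith
  simp [piC, psis, cY, h]

theorem fh_psis_even (m : ℕ) : psis n (2 * m) = 0 := by
  induction m with
  | zero => rfl
  | succ m ih => rw [show 2 * (m + 1) = 2 * m + 2 by ring, psis, ih, mul_zero]

theorem piC_odd (k : ℕ) (hk : Odd k) : piC n k = 0 := by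
  obtain ⟨m, rfl⟩ := hk
  rw [piC, Nat.add_sub_cancel, show 2 * m + 1 + 1 = 2 * (m + 1) by ring, fh_psis_even,
    fh_psis_even, zero_mul, zero_mul, add_zero]

theorem fh_piC_succ (hn : 3 ≤ n) (j : ℕ) :
    piC n (j + 1) = psis n j * ((1 + ((n : ℝ) + 1) * lam n (j + 1)) / ((n : ℝ) + j)) := by
  have hn' : (3 : ℝ) ≤ n := by exact_mod_cast hn
  have hj : (0 : ℝ) ≤ j := Nat.cast_nonneg j
  have h1 : (n : ℝ) + j ≠ 0 := by positivity
  have h2 : 2 * (j : ℝ) + n ≠ 0 := by positivity
  rw [piC, Nat.add_sub_cancel, psis, cX, cY, lam]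
  push_cast
  rw [show 2 * ((j : ℝ) + 1) + n - 2 = 2 * j + n by ring]
  field_simp
  ring

theorem fh_abs_piC (hn : 3 ≤ n) (m : ℕ) : |piC n (2 * m + 3 + 1)| ≤ psi n * beta4 n := by
  have hn' : (3 : ℝ) ≤ n := by exact_mod_cast hn
  have hp := psi_pos (n := n) (by omega)
  have hpos : ∀ j : ℕ, 0 ≤ (1 + ((n : ℝ) + 1) * lam n (j + 1)) / ((n : ℝ) + j) := by
    intro j
    have hj : (0 : ℝ) ≤ j := Nat.cast_nonneg j
    have : 0 ≤ lam n (j + 1) := by
      unfold lam
      push_cast
      exact mul_nonneg (by positivity) (by linarith)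
    positivity
  induction m with
  | zero =>
    rw [fh_piC_succ hn, abs_mul, abs_of_nonneg (hpos _)]
    simp only [psis, abs_mul, abs_neg, abs_of_pos hp, lam, beta4]
    rw [abs_of_nonneg (by positivity)]
    apply le_of_eq
    push_cast
    field_simp
    ring
  | succ m ih =>
    refine le_trans ?_ ih
    rw [show 2 * (m + 1) + 3 = 2 * m + 3 + 2 by ring]
    generalize 2 * m + 3 = j
    rw [fh_piC_succ hn, fh_piC_succ hn, psis, abs_mul, abs_mul, abs_mul, abs_of_nonneg (hpos _), abs_of_nonneg (hpos _), abs_neg,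
      abs_of_nonneg (by positivity), mul_comm (_ / _) |_|, mul_assoc]
    refine mul_le_mul_of_nonneg_left ?_ (abs_nonneg _)
    have hj : (0 : ℝ) ≤ j := Nat.cast_nonneg j
    unfold lam
    push_cast
    rw [div_mul_div_comm, div_le_div_iff₀ (by positivity) (by positivity)]
    obtain ⟨t, ht⟩ : ∃ t : ℝ, (n : ℝ) = t + 2 := ⟨n - 2, by ring⟩
    have ht0 : 0 ≤ t := by linarith
    rw [ht, ← sub_nonneg]
    ring_nf
    positivity

/-- For even `k ≥ 2`, `piC n k = psis n (k-1) (1 + (n+1) lam n k) / (n+k-1)`, and its absolute value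
decreases in `k`. -/
theorem abs_piC_le (hn : 3 ≤ n) {k : ℕ} (hk : 4 ≤ k) : |piC n k| ≤ psi n * beta4 n := by
  rcases Nat.even_or_odd k with ⟨m, rfl⟩ | hodd
  · have := fh_abs_piC hn (m - 2)
    rwa [show 2 * (m - 2) + 3 + 1 = m + m by omega] at this
  · rw [piC_odd k hodd, abs_zero]
    exact (abs_nonneg _).trans (fh_abs_piC hn 0)

/-- Lower bound for the pairing. -/
theorem pairing_ge [NeZero n] (hn : 3 ≤ n) {U V : E n → ℝ} (hU : HL U) (hV : HL V)
    (h2 : ∀ Y : Pol n, Harm 2 Y → ∫ b, U b * ev Y b ∂(σ n) = 0) {A B : ℝ}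
    (hA : ∀ s : Finset ℕ, (∀ k ∈ s, 4 ≤ k) → beta4 n * ∑ k ∈ s, ip (pr k U) (pr k U) ≤ A)
    (hB : ∀ s : Finset ℕ, (∀ k ∈ s, 4 ≤ k) → beta4 n * ∑ k ∈ s, ip (pr k V) (pr k V) ≤ B) :
    psi n * ((∫ b, U b ∂(σ n)) * (∫ b, V b ∂(σ n)) - √A * √B) ≤
      ∫ b, inner ℝ (gradient V b) (sgnT U b) ∂(σ n) := by
  have hp := psi_pos (n := n) (by omega)
  have hb : 0 ≤ beta4 n := by unfold beta4; positivity
  refine ge_of_tendsto (hasSum_pairing hn hU hV).tendsto_sum_nat ?_
  filter_upwards [Filter.eventually_ge_atTop 4] with N hN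
  obtain ⟨M, rfl⟩ : ∃ M, N = 4 + M := ⟨N - 4, by omega⟩
  have e2 : ip (pr 2 U) (pr 2 V) = 0 := by
    rw [← pr_spec (hU.memLp 2) (pr_harm (hV.memLp 2) 2)]
    exact h2 _ (pr_harm (hV.memLp 2) 2)
  rw [← Finset.sum_range_add_sum_Ico _ (Nat.le_add_right 4 M)]
  simp only [Finset.sum_range_succ, Finset.sum_range_zero, piC_zero hn, piC_odd 1 (by decide),
    piC_odd 3 (by decide), e2, ip_pr_zero (hU.memLp 2) (hV.memLp 2), zero_mul, mul_zero, add_zero,
    zero_add]
  have hs : ∀ k ∈ Finset.Ico 4 (4 + M), 4 ≤ k := fun k hk => (Finset.mem_Ico.1 hk).1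
  have h3 : |∑ k ∈ Finset.Ico 4 (4 + M), piC n k * ip (pr k U) (pr k V)| ≤ psi n * (√A * √B) := by
    calc _ ≤ ∑ k ∈ Finset.Ico 4 (4 + M), |piC n k * ip (pr k U) (pr k V)| :=
          Finset.abs_sum_le_sum_abs _ _
      _ ≤ ∑ k ∈ Finset.Ico 4 (4 + M), psi n * beta4 n *
            (√(ip (pr k U) (pr k U)) * √(ip (pr k V) (pr k V))) := by
          refine Finset.sum_le_sum fun k hk => ?_
          rw [abs_mul]
          exact mul_le_mul (abs_piC_le hn (hs k hk)) (abs_ip_le _ _) (abs_nonneg _)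
            (mul_nonneg hp.le hb)
      _ ≤ psi n * beta4 n * (√(∑ k ∈ Finset.Ico 4 (4 + M), ip (pr k U) (pr k U)) *
            √(∑ k ∈ Finset.Ico 4 (4 + M), ip (pr k V) (pr k V))) := by
          rw [← Finset.mul_sum]
          exact mul_le_mul_of_nonneg_left (Real.sum_sqrt_mul_sqrt_le _
            (fun _ => ip_self_nonneg _) fun _ => ip_self_nonneg _) (mul_nonneg hp.le hb)
      _ = psi n * (√(beta4 n * ∑ k ∈ Finset.Ico 4 (4 + M), ip (pr k U) (pr k U)) *
            √(beta4 n * ∑ k ∈ Finset.Ico 4 (4 + M), ip (pr k V) (pr k V))) := by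
          rw [Real.sqrt_mul hb, Real.sqrt_mul hb, mul_mul_mul_comm (√(beta4 n)),
            Real.mul_self_sqrt hb, mul_assoc]
      _ ≤ _ := mul_le_mul_of_nonneg_left (mul_le_mul (Real.sqrt_le_sqrt (hA _ hs))
          (Real.sqrt_le_sqrt (hB _ hs)) (Real.sqrt_nonneg _) (Real.sqrt_nonneg _)) hp.le
  have := neg_abs_le (∑ k ∈ Finset.Ico 4 (4 + M), piC n k * ip (pr k U) (pr k V))
  rw [mul_sub]
  linarith

end Crest.Agent.R230
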