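import Crest.Agent.R230.Sph

/-! # Row 230: one-homogeneous Lipschitz functions, gauges and their gradients -/

set_option autoImplicit false
open MeasureTheory Set
open scoped ENNReal

namespace Crest.Agent.R230
variable {n : ℕ}

theorem inner_grad (U : E n → ℝ) (x v : E n) : inner ℝ (gradient U x) v = fderiv ℝ U x v := by
  exact inner_gradient_left

theorem measurable_grad (U : E n → ℝ) : Measurable (gradient U) := by
  exact (InnerProductSpace.toDual ℝ (E n)).symm.continuous.measurable.comp (measurable_fderiv ℝ U)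

theorem norm_grad_le {U : E n → ℝ} {C : ℝ} (hC : 0 ≤ C)
    (h : ∀ x y, |U x - U y| ≤ C * ‖x - y‖) (x : E n) : ‖gradient U x‖ ≤ C := by
  rw [gradient, LinearIsometryEquiv.norm_map]
  exact norm_fderiv_le_of_lip' ℝ hC (Filter.Eventually.of_forall fun y => h y x)

theorem HL.continuous {U : E n → ℝ} (hU : HL U) : Continuous U := by
  obtain ⟨C, hC⟩ := hU.lip
  exact hC.continuous

theorem grad_zero {U : E n → ℝ} (h : ∀ (t : ℝ) (x : E n), 0 ≤ t → U (t • x) = t * U x) :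
    U 0 = 0 := by
  simpa using h 0 0 le_rfl

theorem grad_lip {U : E n → ℝ} (hU : HL U) :
    ∃ C : ℝ, 0 ≤ C ∧ (∀ x y, |U x - U y| ≤ C * ‖x - y‖) ∧ ∀ x, |U x| ≤ C * ‖x‖ := by
  obtain ⟨C, hC⟩ := hU.lip
  have h : ∀ x y, |U x - U y| ≤ C * ‖x - y‖ := fun x y => hC.norm_sub_le x y
  exact ⟨C, C.2, h, fun x => by simpa [grad_zero hU.hom] using h x 0⟩

theorem grad_hl {U : E n → ℝ} {C : ℝ} (h : ∀ x y, |U x - U y| ≤ C * ‖x - y‖)
    (h' : ∀ (t : ℝ) (x : E n), 0 ≤ t → U (t • x) = t * U x) : HL U :=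
  ⟨⟨C.toNNReal, LipschitzWith.of_dist_le' fun x y => by
    rw [Real.dist_eq, dist_eq_norm]; exact h x y⟩, h'⟩

theorem HL.exists_bound {U : E n → ℝ} (hU : HL U) :
    ∃ C : ℝ, 0 ≤ C ∧ (∀ x, ‖gradient U x‖ ≤ C) ∧ ∀ x, |U x| ≤ C * ‖x‖ := by
  obtain ⟨C, h0, h1, h2⟩ := grad_lip hU
  exact ⟨C, h0, norm_grad_le h0 h1, h2⟩

/-- The gradient is zero-homogeneous (at every point, differentiable or not). -/
theorem HL.grad_smul {U : E n → ℝ} (hU : HL U) {t : ℝ} (ht : 0 < t) (x : E n) :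
    gradient U (t • x) = gradient U x := by
  have e : (fun y => U (t • y)) = t • U := funext fun y => hU.hom t y ht.le
  have h := fderiv_comp_smul (𝕜 := ℝ) (f := U) (x := x) t
  rw [e, fderiv_const_smul_field, Pi.smul_apply] at h
  rw [gradient, gradient, smul_right_injective _ ht.ne' h]

theorem grad_diff_smul {U : E n → ℝ} (hU : HL U) {t : ℝ} (ht : 0 < t) {x : E n}
    (h : DifferentiableAt ℝ U (t • x)) : DifferentiableAt ℝ U x := by
  have e : U = fun y => t⁻¹ * U (t • y) := funext fun y => by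
    rw [hU.hom t y ht.le, inv_mul_cancel_left₀ ht.ne']
  rw [e]
  exact (h.comp x (differentiableAt_id.const_smul t)).const_mul _

theorem HL.differentiableAt_smul {U : E n → ℝ} (hU : HL U) {t : ℝ} (ht : 0 < t) (x : E n) :
    DifferentiableAt ℝ U (t • x) ↔ DifferentiableAt ℝ U x := by
  refine ⟨grad_diff_smul hU ht, fun h => grad_diff_smul hU (inv_pos.2 ht) ?_⟩
  rwa [inv_smul_smul₀ ht.ne']

theorem HL.ae_differentiableAt [NeZero n] {U : E n → ℝ} (hU : HL U) :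
    ∀ᵐ b ∂(σ n), DifferentiableAt ℝ U b := by
  obtain ⟨C, hC⟩ := hU.lip
  exact ae_σ_of_ae hC.ae_differentiableAt fun t x ht h => grad_diff_smul hU ht h

theorem grad_one_add_smul (t : ℝ) (x : E n) : (1 + t) • x = x + t • x := by
  rw [add_smul, one_smul]

/-- Euler's identity. -/
theorem HL.euler {U : E n → ℝ} (hU : HL U) {x : E n} (hx : DifferentiableAt ℝ U x) :
    inner ℝ (gradient U x) x = U x := by
  rw [inner_grad]
  refine tendsto_nhds_unique (hx.hasFDerivAt.hasLineDerivAt x).tendsto_slope_zero_right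
    (tendsto_const_nhds.congr' ?_)
  filter_upwards [self_mem_nhdsWithin] with t (ht : 0 < t)
  rw [← grad_one_add_smul, hU.hom _ _ (by linarith), smul_eq_mul]
  field_simp
  ring

theorem HL.memLp {U : E n → ℝ} (hU : HL U) (p : ℝ≥0∞) : MemLp U p (σ n) := by
  exact memLp_of_continuousOn hU.continuous.continuousOn p

theorem HL.memLp_grad {U : E n → ℝ} (hU : HL U) (p : ℝ≥0∞) : MemLp (gradient U) p (σ n) := by
  obtain ⟨C, -, h, -⟩ := hU.exists_bound
  exact memLp_of_bdd (measurable_grad U).aestronglyMeasurable (fun b _ => h b) p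

theorem HL.memLp_grad_apply {U : E n → ℝ} (hU : HL U) (i : Fin n) (p : ℝ≥0∞) :
    MemLp (fun b => gradient U b i) p (σ n) := by
  exact (EuclideanSpace.proj i : E n →L[ℝ] ℝ).comp_memLp' (hU.memLp_grad p)

theorem hl_norm : HL (fun x : E n => ‖x‖) := by
  exact ⟨⟨1, lipschitzWith_one_norm⟩, fun t x ht => by rw [norm_smul, Real.norm_of_nonneg ht]⟩

theorem grad_hasFDerivAt_norm {x : E n} (hx : ‖x‖ = 1) :
    HasFDerivAt (fun y : E n => ‖y‖) (innerSL ℝ x) x := by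
  have h := (hasStrictFDerivAt_norm_sq x).hasFDerivAt.sqrt (by simp [hx])
  simp only [Real.sqrt_sq (norm_nonneg _), hx] at h
  refine h.congr_fderiv ?_
  ext v
  simp

theorem grad_norm {x : E n} (hx : ‖x‖ = 1) : gradient (fun y : E n => ‖y‖) x = x := by
  refine ext_inner_right ℝ fun v => ?_
  rw [inner_grad, (grad_hasFDerivAt_norm hx).fderiv, innerSL_apply_apply]

theorem hl_abs_inner (e : E n) : HL (fun x : E n => |inner ℝ x e|) := by
  refine grad_hl (C := ‖e‖) (fun x y => (abs_abs_sub_abs_le_abs_sub _ _).trans ?_) fun t x ht => ?_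
  · rw [← inner_sub_left, mul_comm]
    exact abs_real_inner_le_norm _ _
  · rw [real_inner_smul_left, abs_mul, abs_of_nonneg ht]

theorem grad_abs_inner {e x : E n} (hx : inner ℝ x e ≠ 0) :
    gradient (fun y : E n => |inner ℝ y e|) x = Real.sign (inner ℝ x e) • e := by
  have h : HasFDerivAt (fun y : E n => inner ℝ y e) (innerSL ℝ e) x := by
    simp only [real_inner_comm e]
    exact (innerSL ℝ e).hasFDerivAt
  refine ext_inner_right ℝ fun v => ?_
  rw [inner_grad]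
  rcases hx.lt_or_gt with h1 | h1
  · rw [(h.abs_of_neg h1).fderiv, Real.sign_of_neg h1]
    simp
  · rw [(h.abs_of_pos h1).fderiv, Real.sign_of_pos h1]
    simp

/-- Composition: the one-homogeneous extension of `φ ∘ γ` from the sphere. -/
theorem HL.comp {γ : E n → ℝ} (hγ : HL γ) {φ w : ℝ → ℝ} (hφ : ∀ t, HasDerivAt φ (w t) t)
    (hw : Continuous w) : HL (fun x : E n => ‖x‖ * φ (γ x / ‖x‖)) := by
  obtain ⟨C, h0, h1, h2⟩ := grad_lip hγ
  have hu : ∀ x : E n, γ x / ‖x‖ ∈ Icc (-C) C := fun x => by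
    rw [mem_Icc, ← abs_le, abs_div, abs_norm]
    exact div_le_of_le_mul₀ (norm_nonneg _) h0 (h2 x)
  have hm : ∀ x : E n, ‖x‖ * (γ x / ‖x‖) = γ x := fun x => by
    rcases eq_or_ne x 0 with rfl | hx
    · simp [grad_zero hγ.hom]
    · exact mul_div_cancel₀ _ (norm_ne_zero_iff.2 hx)
  obtain ⟨L, hL⟩ := (isCompact_Icc (a := -C) (b := C)).exists_bound_of_continuousOn hw.continuousOn
  obtain ⟨B, hB⟩ := (isCompact_Icc (a := -C) (b := C)).exists_bound_of_continuousOn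
    (f := φ) fun t _ => (hφ t).continuousAt.continuousWithinAt
  have hL0 : 0 ≤ L := (norm_nonneg _).trans (hL _ (hu 0))
  refine grad_hl (C := B + L * (2 * C)) (fun x y => ?_) fun t x ht => ?_
  · have h3 : |φ (γ x / ‖x‖) - φ (γ y / ‖y‖)| ≤ L * |γ x / ‖x‖ - γ y / ‖y‖| :=
      (convex_Icc _ _).norm_image_sub_le_of_norm_hasDerivWithin_le
        (fun t _ => (hφ t).hasDerivWithinAt) hL (hu y) (hu x)
    have h4 : |‖x‖ - ‖y‖| ≤ ‖x - y‖ := abs_norm_sub_norm_le x y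
    have h5 : ‖x‖ * |γ x / ‖x‖ - γ y / ‖y‖| ≤ 2 * C * ‖x - y‖ := by
      have e : ‖x‖ * (γ x / ‖x‖ - γ y / ‖y‖) = (γ x - γ y) - (‖x‖ - ‖y‖) * (γ y / ‖y‖) := by
        linear_combination hm x - hm y
      rw [← abs_norm x, ← abs_mul, abs_norm, e]
      refine (abs_sub _ _).trans ?_
      rw [abs_mul]
      have h6 := mul_le_mul h4 (abs_le.2 (hu y)) (abs_nonneg _) (norm_nonneg _)
      linarith [h1 x y]
    have e : ‖x‖ * φ (γ x / ‖x‖) - ‖y‖ * φ (γ y / ‖y‖) =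
        (‖x‖ - ‖y‖) * φ (γ y / ‖y‖) + ‖x‖ * (φ (γ x / ‖x‖) - φ (γ y / ‖y‖)) := by ring
    rw [e]
    refine (abs_add_le _ _).trans ?_
    rw [abs_mul, abs_mul, abs_norm]
    have h6 := mul_le_mul h4 (hB _ (hu y)) (abs_nonneg _) (norm_nonneg _)
    have h7 := mul_le_mul_of_nonneg_left h3 (norm_nonneg x)
    have h8 := mul_le_mul_of_nonneg_left h5 hL0
    rw [Real.norm_eq_abs] at h6
    nlinarith
  · rcases ht.eq_or_lt with rfl | ht'
    · simp
    · rw [hγ.hom t x ht, norm_smul, Real.norm_of_nonneg ht, mul_div_mul_left _ _ ht'.ne', mul_assoc]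

theorem grad_comp {γ : E n → ℝ} {φ w : ℝ → ℝ} (hφ : ∀ t, HasDerivAt φ (w t) t) {b : E n}
    (hb : ‖b‖ = 1) (hd : DifferentiableAt ℝ γ b) :
    gradient (fun x : E n => ‖x‖ * φ (γ x / ‖x‖)) b =
      φ (γ b) • b + w (γ b) • (gradient γ b - γ b • b) := by
  have hN := grad_hasFDerivAt_norm hb
  have h1 := hd.hasFDerivAt.mul
    ((hasDerivAt_inv (x := ‖b‖) (by simp [hb])).comp_hasFDerivAt b hN)
  have h2 := hN.mul ((hφ _).comp_hasFDerivAt b h1)
  refine ext_inner_right ℝ fun v => ?_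
  rw [inner_grad]
  refine (congrArg (fun L : E n →L[ℝ] ℝ => L v) h2.fderiv).trans ?_
  simp only [inner_add_left, inner_sub_left, real_inner_smul_left, inner_grad]
  simp [hb]
  ring

theorem GaugeFn.nonneg {γ : E n → ℝ} (hγ : GaugeFn γ) (x : E n) : 0 ≤ γ x := by
  rcases eq_or_ne x 0 with rfl | hx
  · exact (grad_zero hγ.hom).ge
  · exact (hγ.pos x hx).le

theorem grad_convexOn {γ : E n → ℝ} (hγ : GaugeFn γ) : ConvexOn ℝ univ γ :=
  ⟨convex_univ, fun x _ y _ a b ha hb _ => (hγ.add _ _).trans (by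
    rw [hγ.hom a x ha, hγ.hom b y hb]; rfl)⟩

theorem grad_bounds {γ : E n → ℝ} (hγ : GaugeFn γ) :
    ∃ c C : ℝ, 0 < c ∧ 0 < C ∧ (∀ x, c * ‖x‖ ≤ γ x) ∧ ∀ x, γ x ≤ C * ‖x‖ := by
  have hc : Continuous γ := (grad_convexOn hγ).locallyLipschitz.continuous
  obtain ⟨c, hc0, h1⟩ := (isCompact_sphere (0 : E n) 1).exists_forall_le' hc.continuousOn
    (a := 0) fun b hb => hγ.pos b (by rintro rfl; simp at hb)
  obtain ⟨C, h2⟩ := (isCompact_sphere (0 : E n) 1).exists_bound_of_continuousOn hc.continuousOn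
  have key : ∀ x : E n, x ≠ 0 → ∃ b ∈ Metric.sphere (0 : E n) 1, γ x = γ b * ‖x‖ := fun x hx => by
    have h3 := norm_ne_zero_iff.2 hx
    refine ⟨‖x‖⁻¹ • x, by simp [norm_smul, h3], ?_⟩
    rw [hγ.hom _ _ (by positivity)]
    field_simp
  refine ⟨c, max C 1, hc0, by positivity, fun x => ?_, fun x => ?_⟩ <;>
    rcases eq_or_ne x 0 with rfl | hx
  · simp [grad_zero hγ.hom]
  · obtain ⟨b, hb, e⟩ := key x hx
    exact e ▸ mul_le_mul_of_nonneg_right (h1 b hb) (norm_nonneg _)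
  · simp [grad_zero hγ.hom]
  · obtain ⟨b, hb, e⟩ := key x hx
    exact e ▸ mul_le_mul_of_nonneg_right
      ((le_abs_self _).trans ((h2 b hb).trans (le_max_left _ _))) (norm_nonneg _)

theorem grad_gauge_lip {γ : E n → ℝ} (hγ : GaugeFn γ) {T : ℝ} (h : ∀ x, γ x ≤ T * ‖x‖)
    (x y : E n) : |γ x - γ y| ≤ T * ‖x - y‖ := by
  have h1 := hγ.add (x - y) y
  have h2 := hγ.add (y - x) x
  have h3 := h (y - x)
  rw [sub_add_cancel] at h1 h2
  rw [norm_sub_rev] at h3
  exact abs_le.2 ⟨by linarith, by linarith [h (x - y)]⟩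

theorem GaugeFn.hl {γ : E n → ℝ} (hγ : GaugeFn γ) : HL γ := by
  obtain ⟨c, C, -, -, -, h⟩ := grad_bounds hγ
  exact grad_hl (grad_gauge_lip hγ h) hγ.hom

theorem GaugeFn.convexOn {γ : E n → ℝ} (hγ : GaugeFn γ) : ConvexOn ℝ univ γ := by
  exact grad_convexOn hγ

theorem GaugeFn.exists_bounds {γ : E n → ℝ} (hγ : GaugeFn γ) :
    ∃ c C : ℝ, 0 < c ∧ 0 < C ∧ (∀ x, c * ‖x‖ ≤ γ x) ∧ ∀ x, γ x ≤ C * ‖x‖ := by
  exact grad_bounds hγ

/-- Subgradient inequality (also true, trivially, where `γ` is not differentiable). -/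
theorem GaugeFn.inner_grad_le {γ : E n → ℝ} (hγ : GaugeFn γ) (x y : E n) :
    inner ℝ (gradient γ x) y ≤ γ y := by
  by_cases hx : DifferentiableAt ℝ γ x
  · rw [inner_grad]
    refine le_of_tendsto (hx.hasFDerivAt.hasLineDerivAt y).tendsto_slope_zero_right ?_
    filter_upwards [self_mem_nhdsWithin] with t (ht : 0 < t)
    have h := hγ.add x (t • y)
    rw [hγ.hom _ _ ht.le] at h
    rw [smul_eq_mul, inv_mul_le_iff₀ ht]
    linarith
  · rw [gradient_eq_zero_of_not_differentiableAt hx, inner_zero_left]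
    exact hγ.nonneg y

theorem GaugeFn.norm_grad_le {γ : E n → ℝ} (hγ : GaugeFn γ) {T : ℝ} (hT : 0 ≤ T)
    (h : ∀ x, γ x ≤ T * ‖x‖) (x : E n) : ‖gradient γ x‖ ≤ T := by
  exact R230.norm_grad_le hT (grad_gauge_lip hγ h) x

theorem GaugeFn.const_mul {γ : E n → ℝ} (hγ : GaugeFn γ) {v : ℝ} (hv : 0 < v) :
    GaugeFn (fun x => v * γ x) := by
  refine ⟨fun x y => ?_, fun t x ht => ?_, fun x hx => mul_pos hv (hγ.pos x hx)⟩
  · rw [← mul_add]
    exact mul_le_mul_of_nonneg_left (hγ.add x y) hv.le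
  · rw [hγ.hom t x ht, mul_left_comm]

theorem GaugeFn.comp_equiv {γ : E n → ℝ} (hγ : GaugeFn γ) (R : E n ≃L[ℝ] E n) :
    GaugeFn (fun x => γ (R x)) := by
  refine ⟨fun x y => ?_, fun t x ht => ?_, fun x hx => hγ.pos _ (by simpa using hx)⟩
  · rw [map_add]
    exact hγ.add _ _
  · rw [map_smul, hγ.hom t _ ht]

theorem GaugeFn.isCompact {γ : E n → ℝ} (hγ : GaugeFn γ) : IsCompact {x | γ x ≤ 1} := by
  obtain ⟨c, C, hc, -, h, -⟩ := hγ.exists_bounds
  refine (isCompact_closedBall (0 : E n) c⁻¹).of_isClosed_subset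
    (isClosed_le hγ.hl.continuous continuous_const) fun x (hx : γ x ≤ 1) => ?_
  rw [mem_closedBall_zero_iff, ← one_div, le_div_iff₀' hc]
  exact (h x).trans hx

theorem GaugeFn.convex {γ : E n → ℝ} (hγ : GaugeFn γ) : Convex ℝ {x | γ x ≤ 1} := by
  simpa using hγ.convexOn.convex_le 1

theorem GaugeFn.integrable_inv_pow {γ : E n → ℝ} (hγ : GaugeFn γ) (m : ℕ) :
    Integrable (fun b => (γ b)⁻¹ ^ m) (σ n) := by
  refine integrable_of_continuousOn ((hγ.hl.continuous.continuousOn.inv₀ fun b hb => ?_).pow m)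
  exact (hγ.pos b (by rintro rfl; simp at hb)).ne'

theorem GaugeFn.integral_inv_pow_pos [NeZero n] {γ : E n → ℝ} (hγ : GaugeFn γ) (m : ℕ) :
    0 < ∫ b, (γ b)⁻¹ ^ m ∂(σ n) := by
  obtain ⟨c, C, -, hC, -, h⟩ := hγ.exists_bounds
  have h1 : ∫ _b, C⁻¹ ^ m ∂(σ n) ≤ ∫ b, (γ b)⁻¹ ^ m ∂(σ n) := by
    refine integral_mono_ae (integrable_const _) (hγ.integrable_inv_pow m) ?_
    filter_upwards [ae_norm] with b hb
    refine pow_le_pow_left₀ (by positivity) (inv_anti₀ (hγ.pos b ?_) ?_) m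
    · rintro rfl
      simp at hb
    · simpa [hb] using h b
  refine lt_of_lt_of_le ?_ h1
  simp only [integral_const, probReal_univ, smul_eq_mul, one_mul]
  positivity

theorem GaugeFn.volume_eq [NeZero n] {γ : E n → ℝ} (hγ : GaugeFn γ) :
    volume {x | γ x ≤ 1} = ENNReal.ofReal (kap n * ∫ b, (γ b)⁻¹ ^ n ∂(σ n)) := by
  have h1 := volume_star (ρ := fun b => (γ b)⁻¹) hγ.hl.continuous.measurable.inv
    fun b => inv_nonneg.2 (hγ.nonneg b)
  have e : {x : E n | γ x ≤ 1} = {x : E n | ‖x‖ ≤ (γ (‖x‖⁻¹ • x))⁻¹} := by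
    ext x
    rcases eq_or_ne x 0 with rfl | hx
    · simp [grad_zero hγ.hom]
    · have h2 := norm_pos_iff.2 hx
      have h3 := hγ.pos x hx
      simp only [mem_ofPred_eq]
      rw [hγ.hom _ _ (by positivity), mul_inv, inv_inv, le_mul_iff_one_le_right h2,
        one_le_inv₀ h3]
  rw [e, h1, ENNReal.ofReal_mul (kap_pos n).le, ofReal_integral_eq_lintegral_ofReal
    (hγ.integrable_inv_pow n)
    (Filter.Eventually.of_forall fun b => pow_nonneg (inv_nonneg.2 (hγ.nonneg b)) n)]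

/-- A compact convex neighbourhood of `0` is the unit ball of a gauge function. -/
theorem exists_gaugeFn {K : Set (E n)} (hK : IsCompact K) (hc : Convex ℝ K)
    (h0 : (0 : E n) ∈ interior K) :
    ∃ γ : E n → ℝ, GaugeFn γ ∧ K = {x | γ x ≤ 1} ∧ ((∀ x ∈ K, -x ∈ K) → ∀ x, γ (-x) = γ x) := by
  have h1 : K ∈ nhds (0 : E n) := mem_interior_iff_mem_nhds.1 h0
  have h2 : Absorbent ℝ K := absorbent_nhds_zero h1
  refine ⟨gauge K, ⟨gauge_add_le hc h2, fun t x ht => gauge_smul_of_nonneg ht x,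
    fun x hx => (gauge_pos h2 (hK.isVonNBounded ℝ)).2 hx⟩, ?_, fun h => gauge_neg h⟩
  ext x
  rw [mem_ofPred_eq, gauge_le_one_iff_mem_closure hc h1, hK.isClosed.closure_eq]

end Crest.Agent.R230
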