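import Crest.Agent.R230.IBP

/-! # Row 230: spherical harmonics -/

set_option autoImplicit false
open MeasureTheory Set MvPolynomial
open scoped ENNReal

namespace Crest.Agent.R230
variable {n : ℕ}

theorem harm_int (p q : Pol n) : Integrable (fun b => ev p b * ev q b) (σ n) :=
  integrable_mul_ev (memLp_ev p 2) q

theorem harm_int1 (p : Pol n) : Integrable (ev p) (σ n) :=
  memLp_one_iff_integrable.1 (memLp_ev p 1)

theorem ip_comm (p q : Pol n) : ip p q = ip q p := by
  simp only [ip, mul_comm]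

theorem ip_add_left (p q r : Pol n) : ip (p + q) r = ip p r + ip q r := by
  simp only [ip, ev_add, add_mul]
  exact integral_add (harm_int p r) (harm_int q r)

theorem ip_smul_left (c : ℝ) (p q : Pol n) : ip (c • p) q = c * ip p q := by
  simp only [ip, ev_smul, mul_assoc]
  exact integral_const_mul _ _

theorem ip_self_nonneg (p : Pol n) : 0 ≤ ip p p :=
  integral_nonneg fun _ => mul_self_nonneg _

/-- Polynomials as elements of `L²(σ)`. -/
noncomputable def harm_T (n : ℕ) : Pol n →ₗ[ℝ] Lp ℝ 2 (σ n) where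
  toFun p := (memLp_ev p 2).toLp (ev p)
  map_add' p q := by
    rw [← MemLp.toLp_add]
    exact MemLp.toLp_congr _ _ (Filter.Eventually.of_forall fun b => by simp)
  map_smul' c p := by
    rw [RingHom.id_apply, ← MemLp.toLp_const_smul]
    exact MemLp.toLp_congr _ _ (Filter.Eventually.of_forall fun b => by simp)

theorem harm_T_ae (p : Pol n) : ⇑(harm_T n p) =ᵐ[σ n] ev p := MemLp.coeFn_toLp (memLp_ev p 2)

theorem harm_inner_toLp {f g : E n → ℝ} (hf : MemLp f 2 (σ n)) (hg : MemLp g 2 (σ n)) :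
    inner ℝ (hf.toLp f) (hg.toLp g) = ∫ b, f b * g b ∂(σ n) := by
  rw [L2.inner_def]
  refine integral_congr_ae ?_
  filter_upwards [hf.coeFn_toLp, hg.coeFn_toLp] with b h1 h2
  rw [h1, h2]
  simp [mul_comm]

theorem harm_inner_T (p q : Pol n) : inner ℝ (harm_T n p) (harm_T n q) = ip p q :=
  harm_inner_toLp (memLp_ev p 2) (memLp_ev q 2)

theorem harm_inner_toLp_T {f : E n → ℝ} (hf : MemLp f 2 (σ n)) (q : Pol n) :
    inner ℝ (hf.toLp f) (harm_T n q) = ∫ b, f b * ev q b ∂(σ n) :=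
  harm_inner_toLp hf (memLp_ev q 2)

theorem abs_ip_le (p q : Pol n) : |ip p q| ≤ √(ip p p) * √(ip q q) := by
  rw [← harm_inner_T, ← harm_inner_T, ← harm_inner_T, ← norm_eq_sqrt_real_inner,
    ← norm_eq_sqrt_real_inner]
  exact abs_real_inner_le_norm _ _

theorem harm_lap_add (p q : Pol n) : lap (p + q) = lap p + lap q := by
  simp [lap, Finset.sum_add_distrib]

theorem harm_lap_smul (c : ℝ) (p : Pol n) : lap (c • p) = c • lap p := by
  simp [lap, Finset.smul_sum]

theorem harm_lap_zero : lap (0 : Pol n) = 0 := by simp [lap]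

theorem harm_lap_sum {ι : Type*} (s : Finset ι) (p : ι → Pol n) :
    lap (∑ i ∈ s, p i) = ∑ i ∈ s, lap (p i) := by
  classical
  induction s using Finset.induction_on with
  | empty => simp [harm_lap_zero]
  | insert a s ha ih => rw [Finset.sum_insert ha, Finset.sum_insert ha, harm_lap_add, ih]

theorem harm_pderiv_comm (i j : Fin n) (p : Pol n) :
    pderiv i (pderiv j p) = pderiv j (pderiv i p) := by
  induction p using MvPolynomial.induction_on with
  | C a => simp
  | add p q hp hq => simp [hp, hq]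
  | mul_X p l hp =>
    simp only [pderiv_mul, map_add, hp]
    have h1 : ∀ a b : Fin n, pderiv a (pderiv b (X l : Pol n)) = 0 := by
      intro a b
      by_cases h : l = b
      · subst h; simp
      · rw [pderiv_X_of_ne h]; simp
    rw [h1, h1]; ring

theorem harm_hom_smul {k : ℕ} (c : ℝ) {p : Pol n} (hp : p.IsHomogeneous k) :
    (c • p).IsHomogeneous k := by
  rw [smul_eq_C_mul]; exact hp.C_mul c

theorem Harm.zero (k : ℕ) : Harm k (0 : Pol n) :=
  ⟨isHomogeneous_zero _ _ _, harm_lap_zero⟩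

theorem Harm.add {k : ℕ} {p q : Pol n} (hp : Harm k p) (hq : Harm k q) : Harm k (p + q) :=
  ⟨hp.1.add hq.1, by rw [harm_lap_add, hp.2, hq.2, add_zero]⟩

theorem Harm.smul {k : ℕ} (c : ℝ) {p : Pol n} (hp : Harm k p) : Harm k (c • p) :=
  ⟨harm_hom_smul c hp.1, by rw [harm_lap_smul, hp.2, smul_zero]⟩

theorem Harm.pderiv {k : ℕ} {p : Pol n} (hp : Harm k p) (i : Fin n) :
    Harm (k - 1) (pderiv i p) := by
  refine ⟨hp.1.pderiv, ?_⟩
  have h : lap (MvPolynomial.pderiv i p) = MvPolynomial.pderiv i (lap p) := by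
    simp only [lap, map_sum]
    refine Finset.sum_congr rfl fun l _ => ?_
    rw [harm_pderiv_comm l i, harm_pderiv_comm l i]
  rw [h, hp.2, map_zero]

theorem harm_sum {ι : Type*} {k : ℕ} (s : Finset ι) {p : ι → Pol n} (hp : ∀ i ∈ s, Harm k (p i)) :
    Harm k (∑ i ∈ s, p i) := by
  classical
  induction s using Finset.induction_on with
  | empty => simpa using Harm.zero k
  | insert a s ha ih =>
    rw [Finset.sum_insert ha]
    exact (hp a (Finset.mem_insert_self _ _)).add
      (ih fun i hi => hp i (Finset.mem_insert_of_mem hi))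

theorem Harm.dirD {k : ℕ} {p : Pol n} (hp : Harm k p) (e : E n) : Harm (k - 1) (dirD e p) := by
  unfold R230.dirD
  refine harm_sum _ fun i _ => ?_
  rw [← smul_eq_C_mul]
  exact (hp.pderiv i).smul _

theorem harm_eq_C {p : Pol n} (hp : p.IsHomogeneous 0) : p = C (coeff 0 p) :=
  totalDegree_eq_zero_iff_eq_C.1 ((totalDegree_zero_iff_isHomogeneous _).2 hp)

theorem harm_pderiv_zero {p : Pol n} (hp : p.IsHomogeneous 0) (i : Fin n) : pderiv i p = 0 := by
  rw [harm_eq_C hp, pderiv_C]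

theorem harm_of_le_one {k : ℕ} (hk : k ≤ 1) {p : Pol n} (hp : p.IsHomogeneous k) : Harm k p := by
  refine ⟨hp, Finset.sum_eq_zero fun i _ => harm_pderiv_zero ?_ i⟩
  have h := hp.pderiv (i := i)
  rwa [Nat.sub_eq_zero_of_le hk] at h

theorem harm_linP (e : E n) : Harm 1 (linP e) := harm_of_le_one le_rfl (linP_hom e)

theorem harm_euler {k : ℕ} {p : Pol n} (hp : p.IsHomogeneous k) (b : E n) :
    ∑ i, b i * ev (pderiv i p) b = k * ev p b := by
  have h := congrArg (fun r => ev r b) hp.sum_X_mul_pderiv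
  simp only [ev_sum, ev_mul, ev_X] at h
  rw [h, ← Nat.cast_smul_eq_nsmul ℝ, ev_smul]

theorem harm_int_coord (i : Fin n) (p : Pol n) : Integrable (fun b : E n => b i * ev p b) (σ n) := by
  simpa using harm_int (X i) p

/-- Green's identity: `∑ᵢ E[∂ᵢp ∂ᵢq] = k (j + k + n - 2) E[p q]` for `q` harmonic of degree `k`. -/
theorem sum_ip_pderiv [NeZero n] {j k : ℕ} {p q : Pol n} (hp : p.IsHomogeneous j) (hq : Harm k q) :
    ∑ i, ip (pderiv i p) (pderiv i q) = k * ((j : ℝ) + k + n - 2) * ip p q := by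
  rcases Nat.eq_zero_or_pos k with rfl | hk
  · simp [harm_pderiv_zero hq.1, ip]
  obtain ⟨m, rfl⟩ : ∃ m, k = m + 1 := ⟨k - 1, by omega⟩
  have h1 : ∀ i : Fin n, ip (pderiv i p) (pderiv i q) + ip p (pderiv i (pderiv i q)) =
      ((j : ℝ) + m + n - 1) * ∫ b, b i * ev (p * pderiv i q) b ∂(σ n) := by
    intro i
    have hY : (p * pderiv i q).IsHomogeneous (j + m) := hp.mul (by simpa using hq.1.pderiv (i := i))
    have h := ibp_poly hY i
    rw [pderiv_mul] at h
    simp only [ev_add] at h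
    rw [integral_add (harm_int1 _) (harm_int1 _)] at h
    simpa [ip] using h
  have h2 : ∑ i, ip p (pderiv i (pderiv i q)) = 0 := by
    simp only [ip]
    rw [← integral_finsetSum _ fun i _ => harm_int _ _]
    have : ∀ b, ∑ i, ev p b * ev (pderiv i (pderiv i q)) b = 0 := by
      intro b
      rw [← Finset.mul_sum, ← ev_sum]
      have := hq.2
      unfold lap at this
      rw [this]; simp
    simp [this]
  have h3 : ∑ i, ∫ b, b i * ev (p * pderiv i q) b ∂(σ n) = ((m : ℝ) + 1) * ip p q := by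
    rw [← integral_finsetSum _ fun i _ => harm_int_coord i (p * pderiv i q), ip, ← integral_const_mul]
    refine integral_congr_ae (Filter.Eventually.of_forall fun b => ?_)
    have h := harm_euler hq.1 b
    push_cast at h
    simp only [ev_mul]
    calc ∑ i, b i * (ev p b * ev (pderiv i q) b) = ev p b * ∑ i, b i * ev (pderiv i q) b := by
          rw [Finset.mul_sum]; exact Finset.sum_congr rfl fun i _ => by ring
      _ = _ := by rw [h]; ring
  have h4 := Finset.sum_congr (s₁ := Finset.univ) rfl fun i _ => h1 i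
  rw [Finset.sum_add_distrib, h2, add_zero, ← Finset.mul_sum, h3] at h4
  rw [h4]; push_cast; ring

theorem ip_orth [NeZero n] (hn : 3 ≤ n) {j k : ℕ} {p q : Pol n} (hp : Harm j p) (hq : Harm k q)
    (h : j ≠ k) : ip p q = 0 := by
  have h1 := sum_ip_pderiv hp.1 hq
  have h2 := sum_ip_pderiv hq.1 hp
  simp only [ip_comm (pderiv _ q)] at h2
  rw [h1, ip_comm q p] at h2
  have hn' : (3 : ℝ) ≤ n := by exact_mod_cast hn
  have hjk : (k : ℝ) - j ≠ 0 := sub_ne_zero.2 (by exact_mod_cast h.symm)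
  have hpos : (j : ℝ) + k + n - 2 ≠ 0 := by
    have : (0 : ℝ) ≤ j := Nat.cast_nonneg _
    have : (0 : ℝ) ≤ k := Nat.cast_nonneg _
    linarith
  have h3 : ((k : ℝ) - j) * (((j : ℝ) + k + n - 2) * ip p q) = 0 := by linarith
  rcases mul_eq_zero.1 h3 with h4 | h4
  · exact absurd h4 hjk
  · exact (mul_eq_zero.1 h4).resolve_left hpos

theorem harm_pderiv_rsq (l : Fin n) : pderiv l (rsq n) = 2 * X l := by
  unfold rsq
  rw [map_sum, Finset.sum_eq_single l]
  · rw [pderiv_pow]; simp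
  · intro i _ hi
    rw [pderiv_pow, pderiv_X_of_ne hi, mul_zero]
  · simp

theorem harm_lap_rsq_mul {d : ℕ} {g : Pol n} (hg : g.IsHomogeneous d) :
    lap (rsq n * g) = rsq n * lap g + (4 * (d : ℝ) + 2 * n) • g := by
  have h1 : ∀ l : Fin n, pderiv l (pderiv l (rsq n * g)) =
      rsq n * pderiv l (pderiv l g) + 4 * (X l * pderiv l g) + 2 * g := by
    intro l
    have h2 : pderiv l (2 * X l : Pol n) = 2 := by
      rw [two_mul, map_add, pderiv_X_self]; norm_num
    simp only [pderiv_mul, map_add, harm_pderiv_rsq, h2]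
    ring
  unfold lap
  simp only [h1, Finset.sum_add_distrib, ← Finset.mul_sum, hg.sum_X_mul_pderiv, Finset.sum_const,
    Finset.card_univ, Fintype.card_fin]
  rw [smul_eq_C_mul]
  simp only [map_add, map_mul, map_natCast, map_ofNat, nsmul_eq_mul]
  ring

theorem harm_lap_rsq_pow (hn : 3 ≤ n) {j : ℕ} {h : Pol n} (hh : Harm j h) (i : ℕ) :
    ∃ c : ℝ, 0 < c ∧ lap (rsq n * (rsq n ^ i * h)) = c • (rsq n ^ i * h) := by
  have hn' : (3 : ℝ) ≤ n := by exact_mod_cast hn
  induction i with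
  | zero =>
    refine ⟨4 * (j : ℝ) + 2 * n, by positivity, ?_⟩
    rw [pow_zero, one_mul, harm_lap_rsq_mul hh.1, hh.2, mul_zero, zero_add]
  | succ i ih =>
    obtain ⟨c, hc, h1⟩ := ih
    have hg : (rsq n ^ (i + 1) * h).IsHomogeneous (2 * (i + 1) + j) := (rsq_hom.pow _).mul hh.1
    refine ⟨c + (4 * ((2 * (i + 1) + j : ℕ) : ℝ) + 2 * n), by positivity, ?_⟩
    rw [harm_lap_rsq_mul hg, add_smul c]
    congr 1
    rw [pow_succ', mul_assoc, h1, mul_smul_comm]

/-- Span of the products `‖x‖^{2i} h` with `h` harmonic, of total degree `m`. -/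
noncomputable def harm_W (n m : ℕ) : Submodule ℝ (Pol n) :=
  Submodule.span ℝ {r | ∃ (i j : ℕ) (h : Pol n), Harm j h ∧ 2 * i + j = m ∧ r = rsq n ^ i * h}

theorem harm_W_hom {m : ℕ} {r : Pol n} (hr : r ∈ harm_W n m) : r.IsHomogeneous m := by
  induction hr using Submodule.span_induction with
  | mem x hx =>
    obtain ⟨i, j, h, hh, rfl, rfl⟩ := hx
    exact (rsq_hom.pow _).mul hh.1
  | zero => exact isHomogeneous_zero _ _ _
  | add x y _ _ hx hy => exact hx.add hy
  | smul c x _ hx => exact harm_hom_smul c hx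

theorem harm_W_mul {m : ℕ} {r : Pol n} (hr : r ∈ harm_W n m) : rsq n * r ∈ harm_W n (m + 2) := by
  induction hr using Submodule.span_induction with
  | mem x hx =>
    obtain ⟨i, j, h, hh, rfl, rfl⟩ := hx
    exact Submodule.subset_span ⟨i + 1, j, h, hh, by ring, by ring⟩
  | zero => rw [mul_zero]; exact Submodule.zero_mem _
  | add x y _ _ hx hy => rw [mul_add]; exact Submodule.add_mem _ hx hy
  | smul c x _ hx => rw [mul_smul_comm]; exact Submodule.smul_mem _ _ hx

theorem harm_W_of_harm {m : ℕ} {h : Pol n} (hh : Harm m h) : h ∈ harm_W n m :=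
  Submodule.subset_span ⟨0, m, h, hh, by ring, by ring⟩

theorem harm_W_surj (hn : 3 ≤ n) {m : ℕ} {r : Pol n} (hr : r ∈ harm_W n m) :
    ∃ q ∈ harm_W n m, lap (rsq n * q) = r := by
  induction hr using Submodule.span_induction with
  | mem x hx =>
    obtain ⟨i, j, h, hh, hm, rfl⟩ := hx
    obtain ⟨c, hc, h1⟩ := harm_lap_rsq_pow hn hh i
    refine ⟨c⁻¹ • (rsq n ^ i * h),
      Submodule.smul_mem _ _ (Submodule.subset_span ⟨i, j, h, hh, hm, rfl⟩), ?_⟩
    rw [mul_smul_comm, harm_lap_smul, h1, smul_smul, inv_mul_cancel₀ hc.ne', one_smul]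
  | zero => exact ⟨0, Submodule.zero_mem _, by rw [mul_zero, harm_lap_zero]⟩
  | add x y _ _ hx hy =>
    obtain ⟨p, hp, rfl⟩ := hx
    obtain ⟨q, hq, rfl⟩ := hy
    exact ⟨p + q, Submodule.add_mem _ hp hq, by rw [mul_add, harm_lap_add]⟩
  | smul c x _ hx =>
    obtain ⟨p, hp, rfl⟩ := hx
    exact ⟨c • p, Submodule.smul_mem _ _ hp, by rw [mul_smul_comm, harm_lap_smul]⟩

theorem harm_lap_hom {m : ℕ} {p : Pol n} (hp : p.IsHomogeneous (m + 2)) :
    (lap p).IsHomogeneous m := by
  unfold lap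
  refine IsHomogeneous.sum _ _ _ fun i _ => ?_
  simpa using (hp.pderiv (i := i)).pderiv (i := i)

theorem harm_mem_W (hn : 3 ≤ n) (m : ℕ) : ∀ p : Pol n, p.IsHomogeneous m → p ∈ harm_W n m := by
  induction m using Nat.strong_induction_on with
  | _ m ih =>
    intro p hp
    rcases le_or_gt m 1 with hm | hm
    · exact harm_W_of_harm (harm_of_le_one hm hp)
    obtain ⟨d, rfl⟩ : ∃ d, m = d + 2 := ⟨m - 2, by omega⟩
    obtain ⟨q, hq, h1⟩ := harm_W_surj hn (ih d (by omega) _ (harm_lap_hom hp))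
    have h2 : Harm (d + 2) (p + (-1 : ℝ) • (rsq n * q)) :=
      ⟨hp.add (harm_hom_smul _ (harm_W_hom (harm_W_mul hq))), by
        rw [harm_lap_add, harm_lap_smul, h1]; simp⟩
    have h3 : p = (p + (-1 : ℝ) • (rsq n * q)) + rsq n * q := by simp
    rw [h3]
    exact Submodule.add_mem _ (harm_W_of_harm h2) (harm_W_mul hq)

/-- Fischer decomposition on the sphere. -/
theorem exists_harm_decomp (hn : 3 ≤ n) {k : ℕ} {p : Pol n} (hp : p.IsHomogeneous k) :
    ∃ H : ℕ → Pol n, (∀ j, Harm j (H j)) ∧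
      ∀ b : E n, ‖b‖ = 1 → ev p b = ∑ j ∈ Finset.range (k + 1), ev (H j) b := by
  have hW := harm_mem_W hn k p hp
  clear hp
  induction hW using Submodule.span_induction with
  | mem x hx =>
    obtain ⟨i, j, h, hh, hm, rfl⟩ := hx
    refine ⟨fun l => if l = j then h else 0, fun l => ?_, fun b hb => ?_⟩
    · by_cases hl : l = j
      · subst hl; simpa using hh
      · simpa [hl] using Harm.zero l
    · rw [Finset.sum_eq_single j]
      · simp [ev_rsq, hb]
      · intro l _ hl; simp [hl]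
      · intro hj; exact absurd (Finset.mem_range.2 (by omega)) hj
  | zero => exact ⟨fun _ => 0, fun j => Harm.zero j, fun b _ => by simp⟩
  | add x y _ _ hx hy =>
    obtain ⟨H, hH, h1⟩ := hx
    obtain ⟨G, hG, h2⟩ := hy
    exact ⟨fun j => H j + G j, fun j => (hH j).add (hG j), fun b hb => by
      simp [h1 b hb, h2 b hb, Finset.sum_add_distrib]⟩
  | smul c x _ hx =>
    obtain ⟨H, hH, h1⟩ := hx
    exact ⟨fun j => c • H j, fun j => (hH j).smul c, fun b hb => by
      simp [h1 b hb, Finset.mul_sum]⟩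

/-- The space of harmonic polynomials of degree `k`. -/
noncomputable def harm_S (n k : ℕ) : Submodule ℝ (Pol n) where
  carrier := {p | Harm k p}
  add_mem' := fun hp hq => hp.add hq
  zero_mem' := Harm.zero k
  smul_mem' := fun c _ hp => hp.smul c

instance harm_S_fin (k : ℕ) : FiniteDimensional ℝ (harm_S n k) := by
  have : FiniteDimensional ℝ (homogeneousSubmodule (Fin n) ℝ k) :=
    Module.Finite.iff_fg.2 (homogeneousSubmodule_fg (Fin n) ℝ k)
  exact Submodule.finiteDimensional_of_le (S₂ := homogeneousSubmodule (Fin n) ℝ k)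
    fun p hp => (mem_homogeneousSubmodule k p).2 hp.1

/-- Spherical harmonics of degree `k` inside `L²(σ)`. -/
noncomputable def harm_V (n k : ℕ) : Submodule ℝ (Lp ℝ 2 (σ n)) := (harm_S n k).map (harm_T n)

instance harm_V_fin (k : ℕ) : FiniteDimensional ℝ (harm_V n k) := by
  unfold harm_V; infer_instance

theorem harm_mem_V {k : ℕ} {y : Lp ℝ 2 (σ n)} :
    y ∈ harm_V n k ↔ ∃ Y, Harm k Y ∧ harm_T n Y = y := Submodule.mem_map

theorem harm_pr_exists {f : E n → ℝ} (hf : MemLp f 2 (σ n)) (k : ℕ) :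
    ∃ H : Pol n, Harm k H ∧ ∀ Y : Pol n, Harm k Y → ∫ b, f b * ev Y b ∂(σ n) = ip H Y := by
  obtain ⟨H, hH, h1⟩ := harm_mem_V.1 ((harm_V n k).starProjection_apply_mem (hf.toLp f))
  refine ⟨H, hH, fun Y hY => ?_⟩
  have h2 := (harm_V n k).starProjection_inner_eq_zero (hf.toLp f) (harm_T n Y)
    (harm_mem_V.2 ⟨Y, hY, rfl⟩)
  rw [inner_sub_left, ← h1, harm_inner_T, harm_inner_toLp_T] at h2
  linarith

theorem pr_harm {f : E n → ℝ} (hf : MemLp f 2 (σ n)) (k : ℕ) : Harm k (pr k f) :=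
  (Classical.epsilon_spec (harm_pr_exists hf k)).1

theorem pr_spec {f : E n → ℝ} (hf : MemLp f 2 (σ n)) {k : ℕ} {Y : Pol n} (hY : Harm k Y) :
    ∫ b, f b * ev Y b ∂(σ n) = ip (pr k f) Y :=
  (Classical.epsilon_spec (harm_pr_exists hf k)).2 Y hY

/-- Two harmonics of degree `k` with the same pairings against all harmonics of degree `k` have the
same pairings with everything. -/
theorem ip_congr_of_harm {k : ℕ} {p q : Pol n} (hp : Harm k p) (hq : Harm k q)
    (h : ∀ Y, Harm k Y → ip p Y = ip q Y) (r : Pol n) : ip p r = ip q r := by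
  have h1 : Harm k (p - q) := by
    have := hp.add (hq.smul (-1))
    simpa [sub_eq_add_neg] using this
  have h2 : inner ℝ (harm_T n p - harm_T n q) (harm_T n p - harm_T n q) = 0 := by
    rw [inner_sub_left, ← map_sub, harm_inner_T, harm_inner_T, h _ h1, sub_self]
  rw [inner_self_eq_zero, sub_eq_zero] at h2
  rw [← harm_inner_T, ← harm_inner_T, h2]

theorem harm_abs_hasSum {H : Type*} [NormedAddCommGroup H] [InnerProductSpace ℝ H]
    [CompleteSpace H] (V : ℕ → Submodule ℝ H) [∀ k, FiniteDimensional ℝ (V k)]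
    (horth : ∀ j k, j ≠ k → ∀ x ∈ V j, ∀ y ∈ V k, inner ℝ x y = 0)
    (hd : ⊤ ≤ (⨆ k, V k).topologicalClosure) (x : H) (a : ℕ → H) (ha : ∀ k, a k ∈ V k)
    (hx : ∀ k, ∀ y ∈ V k, inner ℝ x y = inner ℝ (a k) y) : HasSum a x := by
  have hO : OrthogonalFamily ℝ (fun k => V k) fun k => (V k).subtypeₗᵢ :=
    fun j k hjk u v => horth j k hjk u u.2 v v.2
  have hV := IsHilbertSum.mkInternal V hO hd
  have h1 := hV.hasSum_linearIsometryEquiv_symm (hV.linearIsometryEquiv x)
  rw [LinearIsometryEquiv.symm_apply_apply] at h1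
  set w := hV.linearIsometryEquiv x with hw
  have h2 : ∀ k, a k = (w k : H) := by
    intro k
    have h3 : ∀ y ∈ V k, inner ℝ x y = inner ℝ (w k : H) y := by
      intro y hy
      have h4 : HasSum (fun j => inner ℝ y (w j : H)) (inner ℝ y x) := (innerSL ℝ y).hasSum h1
      have h5 : HasSum (fun j => inner ℝ y (w j : H)) (inner ℝ y (w k : H)) :=
        hasSum_single k fun j hj => horth k j (Ne.symm hj) y hy _ (w j).2
      rw [real_inner_comm, h4.unique h5, real_inner_comm]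
    have h6 : a k - (w k : H) ∈ V k := Submodule.sub_mem _ (ha k) (w k).2
    have h7 : inner ℝ (a k - (w k : H)) (a k - (w k : H)) = 0 := by
      rw [inner_sub_left, ← hx k _ h6, ← h3 _ h6, sub_self]
    rwa [inner_self_eq_zero, sub_eq_zero] at h7
  have : a = fun k => (w k : H) := funext h2
  rw [this]
  exact h1

theorem harm_T_mem (hn : 3 ≤ n) (p : Pol n) : harm_T n p ∈ ⨆ k, harm_V n k := by
  rw [← sum_homogeneousComponent p, map_sum]
  refine Submodule.sum_mem _ fun d _ => ?_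
  obtain ⟨H, hH, h1⟩ := exists_harm_decomp hn (homogeneousComponent_isHomogeneous d p)
  have h2 : harm_T n (homogeneousComponent d p) = harm_T n (∑ j ∈ Finset.range (d + 1), H j) := by
    refine Lp.ext ?_
    filter_upwards [harm_T_ae (homogeneousComponent d p),
      harm_T_ae (∑ j ∈ Finset.range (d + 1), H j), ae_norm] with b h3 h4 h5
    rw [h3, h4, h1 b h5, ev_sum]
  rw [h2, map_sum]
  exact Submodule.sum_mem _ fun j _ =>
    Submodule.mem_iSup_of_mem j (harm_mem_V.2 ⟨H j, hH j, rfl⟩)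

/-- Polynomial functions as a subalgebra of the continuous functions. -/
def harm_A (n : ℕ) : Subalgebra ℝ C(E n, ℝ) where
  carrier := {g | ∃ p : Pol n, ∀ x, g x = ev p x}
  mul_mem' := by
    rintro f g ⟨p, hp⟩ ⟨q, hq⟩
    exact ⟨p * q, fun x => by simp [hp, hq]⟩
  add_mem' := by
    rintro f g ⟨p, hp⟩ ⟨q, hq⟩
    exact ⟨p + q, fun x => by simp [hp, hq]⟩
  algebraMap_mem' := fun c => ⟨C c, fun x => by simp⟩

theorem harm_A_sep : (harm_A n).SeparatesPoints := by
  intro x y hxy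
  obtain ⟨i, hi⟩ : ∃ i, x i ≠ y i := by
    by_contra h
    push Not at h
    exact hxy (PiLp.ext h)
  exact ⟨ev (X i), ⟨⟨ev (X i), continuous_ev _⟩, ⟨X i, fun _ => rfl⟩, rfl⟩, by simpa using hi⟩

theorem harm_dense [NeZero n] (hn : 3 ≤ n) : ⊤ ≤ (⨆ k, harm_V n k).topologicalClosure := by
  intro y _
  have hD := BoundedContinuousFunction.toLp_denseRange ℝ (σ n) ℝ (p := 2) ENNReal.ofNat_ne_top
  refine hD.induction_on y (Submodule.isClosed_topologicalClosure _) fun g => ?_
  rw [← SetLike.mem_coe, Submodule.topologicalClosure_coe, Metric.mem_closure_iff]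
  intro ε hε
  obtain ⟨g', ⟨p, hp⟩, h1⟩ :=
    ContinuousMap.exists_mem_subalgebra_near_continuous_of_isCompact_of_separatesPoints
      harm_A_sep g.toContinuousMap (isCompact_sphere (0 : E n) 1) (half_pos hε)
  refine ⟨harm_T n p, harm_T_mem hn p, ?_⟩
  rw [dist_eq_norm]
  have h2 : ∀ᵐ b ∂(σ n), ‖(BoundedContinuousFunction.toLp 2 (σ n) ℝ g - harm_T n p) b‖ ≤ ε / 2 := by
    filter_upwards [Lp.coeFn_sub (BoundedContinuousFunction.toLp 2 (σ n) ℝ g) (harm_T n p),
      BoundedContinuousFunction.coeFn_toLp 2 (σ n) ℝ g, harm_T_ae p, ae_norm] with b h3 h4 h5 h6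
    rw [h3, Pi.sub_apply, h4, h5, ← hp, norm_sub_rev]
    exact (h1 b (by simpa using h6)).le
  have h3 := Lp.norm_le_of_ae_bound (half_pos hε).le h2
  simp only [measureUnivNNReal, measure_univ, ENNReal.toNNReal_one, NNReal.coe_one, Real.one_rpow,
    one_mul] at h3
  linarith

theorem harm_hasSum [NeZero n] (hn : 3 ≤ n) {f : E n → ℝ} (hf : MemLp f 2 (σ n)) :
    HasSum (fun k => harm_T n (pr k f)) (hf.toLp f) := by
  refine harm_abs_hasSum (harm_V n) ?_ (harm_dense hn) _ _
    (fun k => harm_mem_V.2 ⟨_, pr_harm hf k, rfl⟩) ?_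
  · intro j k hjk x hx y hy
    obtain ⟨p, hp, rfl⟩ := harm_mem_V.1 hx
    obtain ⟨q, hq, rfl⟩ := harm_mem_V.1 hy
    rw [harm_inner_T, ip_orth hn hp hq hjk]
  · intro k y hy
    obtain ⟨q, hq, rfl⟩ := harm_mem_V.1 hy
    rw [harm_inner_T, harm_inner_toLp_T, pr_spec hf hq]

theorem parseval [NeZero n] (hn : 3 ≤ n) {f g : E n → ℝ} (hf : MemLp f 2 (σ n))
    (hg : MemLp g 2 (σ n)) :
    HasSum (fun k => ip (pr k f) (pr k g)) (∫ b, f b * g b ∂(σ n)) := by
  have h1 : HasSum (fun k => inner ℝ (hf.toLp f) (harm_T n (pr k g)))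
      (inner ℝ (hf.toLp f) (hg.toLp g)) := (innerSL ℝ (hf.toLp f)).hasSum (harm_hasSum hn hg)
  rw [harm_inner_toLp] at h1
  simp only [harm_inner_toLp_T, pr_spec hf (pr_harm hg _)] at h1
  exact h1

theorem bessel [NeZero n] (hn : 3 ≤ n) {f : E n → ℝ} (hf : MemLp f 2 (σ n)) (s : Finset ℕ) :
    ∑ k ∈ s, ip (pr k f) (pr k f) ≤ ∫ b, f b ^ 2 ∂(σ n) := by
  simp only [sq]
  exact sum_le_hasSum s (fun k _ => ip_self_nonneg _) (parseval hn hf hf)

theorem harm_pr_zero [NeZero n] {f : E n → ℝ} (hf : MemLp f 2 (σ n)) :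
    pr 0 f = C (∫ b, f b ∂(σ n)) := by
  have h1 := harm_eq_C (pr_harm hf 0).1
  have h2 := pr_spec hf (harm_of_le_one (Nat.zero_le 1) (isHomogeneous_one (Fin n) ℝ))
  rw [h1] at h2 ⊢
  simp only [ev_one, mul_one, ip, ev_C, integral_const, probReal_univ, smul_eq_mul,
    one_mul] at h2
  rw [h2]

theorem ip_pr_zero [NeZero n] {f g : E n → ℝ} (hf : MemLp f 2 (σ n)) (hg : MemLp g 2 (σ n)) :
    ip (pr 0 f) (pr 0 g) = (∫ b, f b ∂(σ n)) * ∫ b, g b ∂(σ n) := by
  rw [harm_pr_zero hf, harm_pr_zero hg]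
  simp [ip]

/-- Nonconstant harmonics have mean zero. -/
theorem integral_ev_harm [NeZero n] (hn : 3 ≤ n) {k : ℕ} (hk : k ≠ 0) {Y : Pol n} (hY : Harm k Y) :
    ∫ b, ev Y b ∂(σ n) = 0 := by
  have h := ip_orth hn hY (harm_of_le_one (Nat.zero_le 1) (isHomogeneous_one (Fin n) ℝ)) hk
  simpa [ip] using h

/-- Degree one harmonics are linear forms. -/
theorem exists_eq_linP {p : Pol n} (hp : p.IsHomogeneous 1) : ∃ e : E n, p = linP e := by
  have h1 : p ∈ homogeneousSubmodule (Fin n) ℝ 1 := (mem_homogeneousSubmodule 1 p).2 hp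
  rw [homogeneousSubmodule_one_eq_span_X, Submodule.mem_span_range_iff_exists_fun] at h1
  obtain ⟨c, hc⟩ := h1
  refine ⟨WithLp.toLp 2 c, ?_⟩
  rw [← hc, linP]
  exact Finset.sum_congr rfl fun i _ => smul_eq_C_mul _ _

end Crest.Agent.R230
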