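import Crest.Agent.R230.Grad

/-! # Row 230: polynomial calculus and integration by parts on the sphere -/

set_option autoImplicit false
open MeasureTheory Set MvPolynomial
open scoped ENNReal

namespace Crest.Agent.R230
variable {n : ℕ}

@[simp] theorem ev_add (p q : Pol n) (x : E n) : ev (p + q) x = ev p x + ev q x := by simp [ev]
@[simp] theorem ev_sub (p q : Pol n) (x : E n) : ev (p - q) x = ev p x - ev q x := by simp [ev]
@[simp] theorem ev_neg (p : Pol n) (x : E n) : ev (-p) x = -ev p x := by simp [ev]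
@[simp] theorem ev_mul (p q : Pol n) (x : E n) : ev (p * q) x = ev p x * ev q x := by simp [ev]
@[simp] theorem ev_pow (p : Pol n) (k : ℕ) (x : E n) : ev (p ^ k) x = ev p x ^ k := by simp [ev]
@[simp] theorem ev_C (c : ℝ) (x : E n) : ev (C c : Pol n) x = c := by simp [ev]
@[simp] theorem ev_X (i : Fin n) (x : E n) : ev (X i : Pol n) x = x i := by simp [ev]
@[simp] theorem ev_zero (x : E n) : ev (0 : Pol n) x = 0 := by simp [ev]
@[simp] theorem ev_one (x : E n) : ev (1 : Pol n) x = 1 := by simp [ev]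
@[simp] theorem ev_smul (c : ℝ) (p : Pol n) (x : E n) : ev (c • p) x = c * ev p x := by
  simp [ev]
theorem ev_sum {ι : Type*} (s : Finset ι) (p : ι → Pol n) (x : E n) :
    ev (∑ i ∈ s, p i) x = ∑ i ∈ s, ev (p i) x := by simp [ev]

/-- The linear form `x ↦ ⟪x, e⟫` as a polynomial. -/
noncomputable def linP (e : E n) : Pol n := ∑ i, C (e i) * X i

/-- The polynomial `‖x‖²`. -/
noncomputable def rsq (n : ℕ) : Pol n := ∑ i, X i ^ 2

/-- Directional derivative of a polynomial. -/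
noncomputable def dirD (e : E n) (p : Pol n) : Pol n := ∑ i, C (e i) * pderiv i p

theorem ibp_dirD_C (v : E n) (a : ℝ) : dirD v (C a) = 0 := by simp [dirD]

theorem ibp_dirD_add (v : E n) (p q : Pol n) : dirD v (p + q) = dirD v p + dirD v q := by
  simp [dirD, mul_add, Finset.sum_add_distrib]

theorem ibp_dirD_mul (v : E n) (p q : Pol n) : dirD v (p * q) = dirD v p * q + p * dirD v q := by
  simp only [dirD, pderiv_mul, Finset.sum_mul, Finset.mul_sum, ← Finset.sum_add_distrib]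
  exact Finset.sum_congr rfl fun i _ => by ring

theorem ibp_dirD_X (v : E n) (i : Fin n) : dirD v (X i) = C (v i) := by
  unfold dirD
  rw [Finset.sum_eq_single i (fun k _ hk => by rw [pderiv_X_of_ne hk.symm, mul_zero]) (by simp)]
  simp

theorem ev_linP (e x : E n) : ev (linP e) x = inner ℝ x e := by
  simp [linP, ev_sum, PiLp.inner_apply]

theorem ev_rsq (x : E n) : ev (rsq n) x = ‖x‖ ^ 2 := by
  simp [rsq, ev_sum, EuclideanSpace.norm_sq_eq]

theorem linP_hom (e : E n) : (linP e).IsHomogeneous 1 := by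
  exact IsHomogeneous.sum _ _ _ fun i _ => isHomogeneous_C_mul_X _ _

theorem rsq_hom : (rsq n).IsHomogeneous 2 := by
  exact IsHomogeneous.sum _ _ _ fun i _ => isHomogeneous_X_pow _ _

theorem dirD_hom (e : E n) {p : Pol n} {k : ℕ} (hp : p.IsHomogeneous k) :
    (dirD e p).IsHomogeneous (k - 1) := by
  exact IsHomogeneous.sum _ _ _ fun i _ => hp.pderiv.C_mul _

theorem contDiff_ev (p : Pol n) : ContDiff ℝ 1 (ev p) := by
  induction p using MvPolynomial.induction_on with
  | C a =>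
    rw [show ev (C a : Pol n) = fun _ => a from funext (ev_C a)]
    exact contDiff_const
  | add p q hp hq =>
    rw [show ev (p + q) = fun x => ev p x + ev q x from funext (ev_add p q)]
    exact hp.add hq
  | mul_X p i hp =>
    rw [show ev (p * X i) = fun x => ev p x * x i from funext fun x => by simp]
    exact hp.mul (EuclideanSpace.proj i : E n →L[ℝ] ℝ).contDiff

theorem continuous_ev (p : Pol n) : Continuous (ev p) := by
  exact (contDiff_ev p).continuous

theorem fderiv_ev (p : Pol n) (x v : E n) : fderiv ℝ (ev p) x v = ev (dirD v p) x := by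
  have hd : ∀ p : Pol n, HasFDerivAt (ev p) (fderiv ℝ (ev p) x) x := fun p =>
    ((contDiff_ev p).differentiable one_ne_zero x).hasFDerivAt
  induction p using MvPolynomial.induction_on with
  | C a =>
    rw [show ev (C a : Pol n) = fun _ => a from funext (ev_C a)]
    simp [ibp_dirD_C]
  | add p q hp hq =>
    rw [show ev (p + q) = fun x => ev p x + ev q x from funext (ev_add p q),
      ((hd p).fun_add (hd q)).fderiv, ibp_dirD_add, ev_add, ← hp, ← hq]
    rfl
  | mul_X p i hp =>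
    have h1 : HasFDerivAt (fun y : E n => y i) (EuclideanSpace.proj i : E n →L[ℝ] ℝ) x :=
      (EuclideanSpace.proj i : E n →L[ℝ] ℝ).hasFDerivAt
    rw [show ev (p * X i) = fun x => ev p x * x i from funext fun x => by simp,
      ((hd p).fun_mul h1).fderiv, ibp_dirD_mul, ibp_dirD_X]
    simp [hp]
    ring

theorem ev_smul_arg {p : Pol n} {k : ℕ} (hp : p.IsHomogeneous k) (t : ℝ) (x : E n) :
    ev p (t • x) = t ^ k * ev p x := by
  unfold ev
  rw [eval_eq, eval_eq, Finset.mul_sum]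
  refine Finset.sum_congr rfl fun d hd => ?_
  rw [hp.degree_eq_sum_deg_support hd, ← Finset.prod_pow_eq_pow_sum, mul_left_comm,
    ← Finset.prod_mul_distrib]
  simp [mul_pow]

/-- Euler's identity for polynomials. -/
theorem ev_dirD_self {p : Pol n} {k : ℕ} (hp : p.IsHomogeneous k) (x : E n) :
    ev (dirD x p) x = k * ev p x := by
  have h := congrArg (fun q => ev q x) hp.sum_X_mul_pderiv
  simp only [ev_sum, ev_mul, ev_X, nsmul_eq_mul] at h
  simp only [dirD, ev_sum, ev_mul, ev_C, h]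
  simp [ev]

theorem memLp_ev (p : Pol n) (q : ℝ≥0∞) : MemLp (ev p) q (σ n) := by
  exact memLp_of_continuousOn (continuous_ev p).continuousOn q

theorem integrable_mul_ev {f : E n → ℝ} (hf : MemLp f 2 (σ n)) (p : Pol n) :
    Integrable (fun b => f b * ev p b) (σ n) := by
  exact hf.integrable_mul (memLp_ev p 2)

theorem ibp_dirD_smul {p : Pol n} {k : ℕ} (hp : p.IsHomogeneous k) (e : E n) (t : ℝ) (x : E n) :
    t * ev (dirD e p) (t • x) = t ^ k * ev (dirD e p) x := by
  cases k with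
  | zero =>
    rw [← totalDegree_zero_iff_isHomogeneous, totalDegree_eq_zero_iff_eq_C] at hp
    rw [hp, ibp_dirD_C]
    simp
  | succ k =>
    rw [ev_smul_arg (dirD_hom e hp), Nat.add_sub_cancel]
    ring

theorem ibp_ev_dirD_pow (v : E n) (p : Pol n) (d : ℕ) (x : E n) :
    ev (dirD v (p ^ (d + 1))) x = ((d : ℝ) + 1) * ev p x ^ d * ev (dirD v p) x := by
  induction d with
  | zero => simp
  | succ d ih =>
    rw [pow_succ, ibp_dirD_mul, ev_add, ev_mul, ev_mul, ih, ev_pow]
    push_cast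
    ring

theorem ibp_ev_dirD_linP (v e x : E n) : ev (dirD v (linP e)) x = inner ℝ v e := by
  rw [← fderiv_ev, show ev (linP e) = innerSL ℝ e from funext fun y => by
    rw [ev_linP, real_inner_comm]; rfl, ContinuousLinearMap.fderiv, real_inner_comm]
  rfl

theorem ibp_cutoff : ∃ χ : ℝ → ℝ, ContDiff ℝ 1 χ ∧ (∀ t, 0 ≤ χ t) ∧ (∀ t, |t| ≤ 1 → χ t = 1) ∧
    (∀ t, 2 < t → χ t = 0) ∧ ∀ t, 2 < t → deriv χ t = 0 := by
  let φ : ContDiffBump (0 : ℝ) := ⟨1, 2, one_pos, one_lt_two⟩
  have h : ∀ t, 2 < t → φ t = 0 := fun t ht =>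
    φ.zero_of_le_dist (by rw [dist_zero_right]; exact ht.le.trans (le_abs_self t))
  refine ⟨φ, φ.contDiff, φ.nonneg', fun t ht => φ.one_of_mem_closedBall (by simpa using ht), h,
    fun t ht => ?_⟩
  have h1 : (φ : ℝ → ℝ) =ᶠ[nhds t] fun _ => 0 := by
    filter_upwards [Ioi_mem_nhds ht] with s hs using h s hs
  rw [h1.deriv_eq, deriv_const]

theorem ibp_radial {χ : ℝ → ℝ} (hχ : ContDiff ℝ 1 χ) (h0 : ∀ t, 0 ≤ χ t)
    (h1 : ∀ t, |t| ≤ 1 → χ t = 1) (h2 : ∀ t, 2 < t → χ t = 0) (h3 : ∀ t, 2 < t → deriv χ t = 0)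
    (m : ℕ) : 0 < ∫ r in Ioi (0 : ℝ), r ^ m * χ (r ^ 2) ∧
      ∫ r in Ioi (0 : ℝ), 2 * r ^ (m + 2) * deriv χ (r ^ 2) =
        -(((m : ℝ) + 1) * ∫ r in Ioi (0 : ℝ), r ^ m * χ (r ^ 2)) := by
  have hχ' : Continuous (deriv χ) := hχ.continuous_deriv le_rfl
  have hc := hχ.continuous
  have hsupp : ∀ (F φ : ℝ → ℝ), (∀ t, 2 < t → φ t = 0) →
      HasCompactSupport fun r : ℝ => F r * φ (r ^ 2) := fun F φ hφ =>
    HasCompactSupport.intro (isCompact_closedBall 0 2) fun x hx => by
      rw [mem_closedBall_zero_iff, not_le, Real.norm_eq_abs] at hx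
      rw [hφ _ (by rw [← sq_abs]; nlinarith), mul_zero]
  have i1 : Integrable fun r : ℝ => r ^ m * χ (r ^ 2) :=
    Continuous.integrable_of_hasCompactSupport (by fun_prop) (hsupp _ χ h2)
  have i2 : Integrable fun r : ℝ => 2 * r ^ (m + 2) * deriv χ (r ^ 2) :=
    Continuous.integrable_of_hasCompactSupport (by fun_prop) (hsupp _ _ h3)
  constructor
  · refine (setIntegral_pos_iff_support_of_nonneg_ae ?_ i1.integrableOn).2 ?_
    · filter_upwards [self_mem_ae_restrict measurableSet_Ioi] with r hr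
      exact mul_nonneg (pow_nonneg (le_of_lt hr) m) (h0 _)
    · refine lt_of_lt_of_le ?_ (measure_mono (s := Ioo (0 : ℝ) 1) fun r hr => ⟨?_, hr.1⟩)
      · simp
      · rw [Function.mem_support, h1 _ (by rw [abs_of_nonneg (sq_nonneg r)]; nlinarith [hr.1, hr.2]),
          mul_one]
        exact pow_ne_zero _ hr.1.ne'
  · have h4 := (hsupp (fun r => r ^ (m + 1)) χ h2).integral_Ioi_deriv_eq
      ((contDiff_id.pow _).mul (hχ.comp (contDiff_id.pow 2))) 0
    have h5 : ∀ r : ℝ, deriv (fun r : ℝ => r ^ (m + 1) * χ (r ^ 2)) r =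
        ((m : ℝ) + 1) * (r ^ m * χ (r ^ 2)) + 2 * r ^ (m + 2) * deriv χ (r ^ 2) := fun r => by
      have h6 := (hasDerivAt_pow (m + 1) r).fun_mul
        ((hχ.differentiable one_ne_zero (r ^ 2)).hasDerivAt.comp r (hasDerivAt_pow 2 r))
      simp only [Function.comp_def] at h6
      rw [h6.deriv]
      simp
      ring
    simp only [id, Function.comp_def, h5] at h4
    rw [integral_add (i1.const_mul _).integrableOn i2.integrableOn, integral_const_mul] at h4
    simp only [ne_eq, Nat.add_eq_zero_iff, one_ne_zero, and_false, not_false_eq_true, zero_pow,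
      zero_mul, neg_zero] at h4
    linarith

theorem ibp_polar [NeZero n] {F g : E n → ℝ} {η : ℝ → ℝ} (hg : Measurable g)
    (h : ∀ (r : ℝ) (b : E n), 0 < r → ‖b‖ = 1 → F (r • b) = η r * g b) :
    ∫ x, F x = n * kap n * (∫ r in Ioi (0 : ℝ), r ^ (n - 1) * η r) * ∫ b, g b ∂(σ n) := by
  rw [← integral_polar_mul hg]
  refine integral_congr_ae ?_
  filter_upwards [compl_mem_ae_iff.2 (measure_singleton (0 : E n))] with x hx
  have h1 : 0 < ‖x‖ := norm_pos_iff.2 hx
  have h2 : ‖‖x‖⁻¹ • x‖ = 1 := by rw [norm_smul, norm_inv, norm_norm, inv_mul_cancel₀ h1.ne']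
  rw [← h _ _ h1 h2, smul_inv_smul₀ h1.ne']

/-- **The basic integration by parts identity** (direction `e`). -/
theorem ibp [NeZero n] {U : E n → ℝ} (hU : HL U) {Y : Pol n} {j : ℕ} (hY : Y.IsHomogeneous j)
    (e : E n) :
    ∫ b, inner ℝ (gradient U b) e * ev Y b ∂(σ n) + ∫ b, U b * ev (dirD e Y) b ∂(σ n) =
      ((j : ℝ) + n) * ∫ b, inner ℝ b e * U b * ev Y b ∂(σ n) := by
  obtain ⟨χ, hχ, h0, h1, h2, h3⟩ := ibp_cutoff
  obtain ⟨C, hC⟩ := hU.lip
  have hUc := hU.continuous
  have hχ' : Continuous (deriv χ) := hχ.continuous_deriv le_rfl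
  have hsupp : ∀ (F : E n → ℝ) (φ : ℝ → ℝ), (∀ t, 2 < t → φ t = 0) →
      HasCompactSupport fun x : E n => F x * φ (‖x‖ ^ 2) := fun F φ hφ =>
    HasCompactSupport.intro (isCompact_closedBall 0 2) fun x hx => by
      rw [mem_closedBall_zero_iff, not_le] at hx
      rw [hφ _ (by nlinarith), mul_zero]
  have hg : ContDiff ℝ 1 fun x : E n => ev Y x * χ (‖x‖ ^ 2) :=
    (contDiff_ev Y).mul (hχ.comp (contDiff_norm_sq ℝ))
  obtain ⟨D, hD⟩ := hg.lipschitzWith_of_hasCompactSupport (hsupp _ χ h2) one_ne_zero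
  have key := hC.integral_lineDeriv_mul_eq (μ := volume) hD (hsupp _ χ h2) e
  have hL : ∫ x, lineDeriv ℝ U x e * (ev Y x * χ (‖x‖ ^ 2)) =
      ∫ x, inner ℝ (gradient U x) e * (ev Y x * χ (‖x‖ ^ 2)) := by
    refine integral_congr_ae ?_
    filter_upwards [hC.ae_differentiableAt (μ := volume)] with x hx
    rw [hx.lineDeriv_eq_fderiv, inner_grad]
  have hR : ∀ x : E n, lineDeriv ℝ (fun x : E n => ev Y x * χ (‖x‖ ^ 2)) x (-e) * U x =
      -(U x * ev (dirD e Y) x * χ (‖x‖ ^ 2) +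
        2 * (inner ℝ x e * U x * ev Y x) * deriv χ (‖x‖ ^ 2)) := fun x => by
    have h4 := ((contDiff_ev Y).differentiable one_ne_zero x).hasFDerivAt.fun_mul
      ((hχ.differentiable one_ne_zero (‖x‖ ^ 2)).hasDerivAt.comp_hasFDerivAt x
        (hasStrictFDerivAt_norm_sq x).hasFDerivAt)
    have h5 := (h4.hasLineDerivAt (-e)).lineDeriv
    simp only [Function.comp_def] at h5
    rw [h5, map_neg]
    simp [fderiv_ev]
    ring
  have i1 : Integrable fun x : E n => U x * ev (dirD e Y) x * χ (‖x‖ ^ 2) :=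
    Continuous.integrable_of_hasCompactSupport
      ((hUc.mul (continuous_ev _)).mul (hχ.continuous.comp (by fun_prop))) (hsupp _ χ h2)
  have i2 : Integrable fun x : E n => 2 * (inner ℝ x e * U x * ev Y x) * deriv χ (‖x‖ ^ 2) :=
    Continuous.integrable_of_hasCompactSupport
      ((continuous_const.mul (((by fun_prop : Continuous fun x : E n => inner ℝ x e).mul hUc).mul
        (continuous_ev _))).mul (hχ'.comp (by fun_prop))) (hsupp _ _ h3)
  have hn : ∀ (r : ℝ) (b : E n), 0 < r → ‖b‖ = 1 → ‖r • b‖ = r := fun r b hr hb => by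
    rw [norm_smul, hb, mul_one, Real.norm_of_nonneg hr.le]
  have e1 := ibp_polar (F := fun x => inner ℝ (gradient U x) e * (ev Y x * χ (‖x‖ ^ 2)))
    (η := fun r => r ^ j * χ (r ^ 2)) (g := fun b => inner ℝ (gradient U b) e * ev Y b)
    (((measurable_grad U).inner_const).mul (continuous_ev Y).measurable) fun r b hr hb => by
      rw [hU.grad_smul hr, ev_smul_arg hY, hn r b hr hb]
      ring
  have e2 := ibp_polar (F := fun x => U x * ev (dirD e Y) x * χ (‖x‖ ^ 2))
    (η := fun r => r ^ j * χ (r ^ 2)) (g := fun b => U b * ev (dirD e Y) b)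
    (hUc.mul (continuous_ev _)).measurable fun r b hr hb => by
      rw [hU.hom r b hr.le, hn r b hr hb]
      linear_combination U b * χ (r ^ 2) * ibp_dirD_smul hY e r b
  have e3 := ibp_polar (F := fun x => 2 * (inner ℝ x e * U x * ev Y x) * deriv χ (‖x‖ ^ 2))
    (η := fun r => 2 * r ^ (j + 2) * deriv χ (r ^ 2)) (g := fun b => inner ℝ b e * U b * ev Y b)
    (((by fun_prop : Continuous fun x : E n => inner ℝ x e).mul hUc).mul
      (continuous_ev _)).measurable fun r b hr hb => by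
      rw [hU.hom r b hr.le, hn r b hr hb, ev_smul_arg hY, real_inner_smul_left]
      ring
  obtain ⟨m, hm⟩ : ∃ m, n = m + 1 := Nat.exists_eq_succ_of_ne_zero (NeZero.ne n)
  obtain ⟨h4, h5⟩ := ibp_radial hχ h0 h1 h2 h3 (m + j)
  have e4 : (fun r : ℝ => r ^ (n - 1) * (r ^ j * χ (r ^ 2))) = fun r => r ^ (m + j) * χ (r ^ 2) := by
    funext r
    rw [hm, Nat.add_sub_cancel]
    ring
  have e5 : (fun r : ℝ => r ^ (n - 1) * (2 * r ^ (j + 2) * deriv χ (r ^ 2))) =
      fun r => 2 * r ^ (m + j + 2) * deriv χ (r ^ 2) := by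
    funext r
    rw [hm, Nat.add_sub_cancel]
    ring
  simp only [hR] at key
  rw [hL, integral_neg, integral_add i1 i2, e1, e2, e3, e4, e5, h5] at key
  have h6 : (0 : ℝ) < n * kap n * ∫ r in Ioi (0 : ℝ), r ^ (m + j) * χ (r ^ 2) :=
    mul_pos (mul_pos (Nat.cast_pos.2 (NeZero.pos n)) (kap_pos n)) h4
  have h7 : (n : ℝ) = m + 1 := by exact_mod_cast hm
  refine mul_left_cancel₀ h6.ne' ?_
  push_cast at key
  rw [show (j : ℝ) + n = m + j + 1 by linarith]
  linarith

/-- Coordinate form of `ibp`. -/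
theorem ibp_coord [NeZero n] {U : E n → ℝ} (hU : HL U) {Y : Pol n} {j : ℕ}
    (hY : Y.IsHomogeneous j) (i : Fin n) :
    ∫ b, gradient U b i * ev Y b ∂(σ n) + ∫ b, U b * ev (pderiv i Y) b ∂(σ n) =
      ((j : ℝ) + n) * ∫ b, b i * U b * ev Y b ∂(σ n) := by
  have h := ibp hU hY (EuclideanSpace.single i 1)
  have e : dirD (EuclideanSpace.single i (1 : ℝ)) Y = pderiv i Y := by
    unfold dirD
    rw [Finset.sum_eq_single i (fun k _ hk => by simp [hk]) (by simp)]
    simp
  simpa only [e, EuclideanSpace.inner_single_right, one_mul, conj_trivial] using h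

/-- Polynomial form (take `U = ‖·‖` in `ibp_coord`). -/
theorem ibp_poly [NeZero n] {Y : Pol n} {j : ℕ} (hY : Y.IsHomogeneous j) (i : Fin n) :
    ∫ b, ev (pderiv i Y) b ∂(σ n) = ((j : ℝ) + n - 1) * ∫ b, b i * ev Y b ∂(σ n) := by
  have h := ibp_coord hl_norm hY i
  have e1 : ∫ b, gradient (fun x : E n => ‖x‖) b i * ev Y b ∂(σ n) = ∫ b, b i * ev Y b ∂(σ n) :=
    integral_congr_ae (ae_norm.mono fun b hb => by simp only [grad_norm hb])
  have e2 : ∫ b, ‖b‖ * ev (pderiv i Y) b ∂(σ n) = ∫ b, ev (pderiv i Y) b ∂(σ n) :=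
    integral_congr_ae (ae_norm.mono fun b hb => by simp only [hb, one_mul])
  have e3 : ∫ b, b i * ‖b‖ * ev Y b ∂(σ n) = ∫ b, b i * ev Y b ∂(σ n) :=
    integral_congr_ae (ae_norm.mono fun b hb => by simp only [hb, mul_one])
  rw [e1, e2, e3] at h
  linarith

/-- Moments of `s = ⟪b, e⟫`. -/
theorem integral_inner_pow_succ [NeZero n] {e : E n} (he : ‖e‖ = 1) (d : ℕ) :
    ((d : ℝ) + n) * ∫ b, inner ℝ b e ^ (d + 2) ∂(σ n) =
      ((d : ℝ) + 1) * ∫ b, inner ℝ b e ^ d ∂(σ n) := by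
  have h := ibp hl_norm ((linP_hom e).pow (d + 1)) e
  have e1 : ∫ b, inner ℝ (gradient (fun x : E n => ‖x‖) b) e * ev (linP e ^ (d + 1)) b ∂(σ n) =
      ∫ b, inner ℝ b e ^ (d + 2) ∂(σ n) :=
    integral_congr_ae (ae_norm.mono fun b hb => by
      simp only [grad_norm hb, ev_pow, ev_linP]
      ring)
  have e2 : ∫ b, ‖b‖ * ev (dirD e (linP e ^ (d + 1))) b ∂(σ n) =
      ((d : ℝ) + 1) * ∫ b, inner ℝ b e ^ d ∂(σ n) := by
    rw [← integral_const_mul]
    exact integral_congr_ae (ae_norm.mono fun b hb => by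
      simp only [hb, one_mul, ibp_ev_dirD_pow, ibp_ev_dirD_linP, ev_linP,
        real_inner_self_eq_norm_sq, he, one_pow, mul_one])
  have e3 : ∫ b, inner ℝ b e * ‖b‖ * ev (linP e ^ (d + 1)) b ∂(σ n) =
      ∫ b, inner ℝ b e ^ (d + 2) ∂(σ n) :=
    integral_congr_ae (ae_norm.mono fun b hb => by
      simp only [hb, ev_pow, ev_linP]
      ring)
  rw [e1, e2, e3] at h
  push_cast at h
  linarith

theorem integral_inner_sq [NeZero n] {e : E n} (he : ‖e‖ = 1) :
    ∫ b, inner ℝ b e ^ 2 ∂(σ n) = 1 / n := by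
  have h := integral_inner_pow_succ he 0
  have hn : (0 : ℝ) < n := Nat.cast_pos.2 (NeZero.pos n)
  rw [eq_div_iff hn.ne', mul_comm]
  simpa using h

theorem integral_inner_pow_six [NeZero n] {e : E n} (he : ‖e‖ = 1) :
    ∫ b, inner ℝ b e ^ 6 ∂(σ n) = 15 / (n * (n + 2) * (n + 4)) := by
  have h1 := integral_inner_sq he
  have h2 := integral_inner_pow_succ he 2
  have h3 := integral_inner_pow_succ he 4
  have hn : (0 : ℝ) < n := Nat.cast_pos.2 (NeZero.pos n)
  rw [eq_div_iff hn.ne'] at h1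
  rw [eq_div_iff (by positivity)]
  push_cast at h2 h3
  linear_combination n * (n + 2) * h3 + 5 * n * h2 + 15 * h1

theorem integral_abs_inner_cube [NeZero n] {e : E n} (he : ‖e‖ = 1) :
    ((n : ℝ) + 1) * ∫ b, |inner ℝ b e| ^ 3 ∂(σ n) = 2 * ∫ b, |inner ℝ b e| ∂(σ n) := by
  have he0 : e ≠ 0 := fun h => by simp [h] at he
  have h := ibp (hl_abs_inner e) (linP_hom e) e
  have e1 : ∫ b, inner ℝ (gradient (fun x : E n => |inner ℝ x e|) b) e * ev (linP e) b ∂(σ n) =
      ∫ b, |inner ℝ b e| ∂(σ n) :=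
    integral_congr_ae ((ae_inner_ne_zero he0).mono fun b hb => by
      simp only [grad_abs_inner hb, ev_linP, real_inner_smul_left, real_inner_self_eq_norm_sq, he,
        one_pow, mul_one]
      rcases lt_or_gt_of_ne hb with h | h
      · rw [Real.sign_of_neg h, abs_of_neg h, neg_one_mul]
      · rw [Real.sign_of_pos h, abs_of_pos h, one_mul])
  have e2 : ∫ b, |inner ℝ b e| * ev (dirD e (linP e)) b ∂(σ n) = ∫ b, |inner ℝ b e| ∂(σ n) := by
    simp only [ibp_ev_dirD_linP, real_inner_self_eq_norm_sq, he, one_pow, mul_one]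
  have e3 : ∫ b, inner ℝ b e * |inner ℝ b e| * ev (linP e) b ∂(σ n) =
      ∫ b, |inner ℝ b e| ^ 3 ∂(σ n) := by
    refine integral_congr_ae (ae_of_all _ fun b => ?_)
    simp only [ev_linP]
    rw [pow_succ, sq_abs]
    ring
  rw [e1, e2, e3] at h
  push_cast at h
  linarith

end Crest.Agent.R230
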