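import Crest.Agent.R230.Proj

/-! # Row 230: equality in Brunn–Minkowski with a ball -/

set_option autoImplicit false
open MeasureTheory Set
open scoped ENNReal Pointwise

namespace Crest.Agent.R230
variable {n : ℕ}

open Filter Topology

theorem iso_pow (m : ℕ) : ∃ P : ℝ → ℝ, Continuous P ∧ P 0 = (m : ℝ) * (m - 1) / 2 ∧
    ∀ t, (1 + t) ^ m = 1 + m * t + t ^ 2 * P t := by
  induction m with
  | zero => exact ⟨fun _ => 0, continuous_const, by simp, fun t => by simp⟩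
  | succ m ih =>
    obtain ⟨P, h1, h2, h3⟩ := ih
    refine ⟨fun t => m + (1 + t) * P t, by fun_prop, ?_, fun t => ?_⟩
    · simp only [h2]; push_cast; ring
    · rw [pow_succ, h3]; push_cast; ring

theorem iso_star [NeZero n] {f : E n → ℝ} (hf : Measurable f) {C : ℝ}
    (h0 : ∀ b : E n, ‖b‖ = 1 → 0 ≤ f b ∧ f b ≤ C) :
    volume {x : E n | ‖x‖ ≤ max (f (‖x‖⁻¹ • x)) 0} =
      ENNReal.ofReal (kap n * ∫ b, f b ^ n ∂(σ n)) := by
  rw [volume_star (ρ := fun b => max (f b) 0) (hf.max measurable_const) fun b => le_max_right _ _,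
    ENNReal.ofReal_mul (kap_pos n).le]
  congr 1
  have hi : Integrable (fun b => f b ^ n) (σ n) :=
    integrable_of_bdd (hf.pow_const n).aestronglyMeasurable (C := C ^ n) fun b hb => by
      rw [Real.norm_eq_abs, abs_of_nonneg (pow_nonneg (h0 b hb).1 _)]
      exact pow_le_pow_left₀ (h0 b hb).1 (h0 b hb).2 _
  rw [ofReal_integral_eq_lintegral_ofReal hi
    (ae_norm.mono fun b hb => pow_nonneg (h0 b hb).1 _)]
  refine lintegral_congr_ae (ae_norm.mono fun b hb => ?_)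
  simp only [max_eq_left (h0 b hb).1]

/-- The support function. -/
theorem iso_support {K : Set (E n)} (hK : IsCompact K) (hne : K.Nonempty) :
    ∃ (h : E n → ℝ) (R : ℝ), 0 < R ∧ (∀ k ∈ K, ‖k‖ ≤ R) ∧ (∀ x, ∃ k ∈ K, h x = inner ℝ k x) ∧
      (∀ x, ∀ k ∈ K, inner ℝ k x ≤ h x) ∧ (∀ x y, |h x - h y| ≤ R * ‖x - y‖) ∧ HL h := by
  obtain ⟨R, hR, hR'⟩ := hK.isBounded.exists_pos_norm_le
  have : ∀ x : E n, ∃ k ∈ K, IsMaxOn (fun k : E n => inner ℝ k x) K k := fun x =>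
    hK.exists_isMaxOn hne (by fun_prop)
  choose k hk hk' using this
  have hle : ∀ x, ∀ y ∈ K, inner ℝ y x ≤ inner ℝ (k x) x := fun x y hy => hk' x hy
  have h1 : ∀ x y, inner ℝ (k x) x - inner ℝ (k y) y ≤ R * ‖x - y‖ := by
    intro x y
    have a1 := hle y (k x) (hk x)
    have a2 : inner ℝ (k x) (x - y) ≤ R * ‖x - y‖ :=
      (real_inner_le_norm _ _).trans (mul_le_mul_of_nonneg_right (hR' _ (hk x)) (norm_nonneg _))
    rw [inner_sub_right] at a2
    linarith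
  have h2 : ∀ x y, |inner ℝ (k x) x - inner ℝ (k y) y| ≤ R * ‖x - y‖ := by
    intro x y
    have := h1 y x
    rw [norm_sub_rev] at this
    exact abs_le.2 ⟨by linarith, h1 x y⟩
  refine ⟨fun x => inner ℝ (k x) x, R, hR, hR', fun x => ⟨k x, hk x, rfl⟩, hle, h2,
    ⟨⟨R, hR.le⟩, LipschitzWith.of_dist_le_mul fun x y => ?_⟩, fun t x ht => ?_⟩
  · rw [Real.dist_eq, dist_eq_norm]
    exact h2 x y
  · have a1 := hle x (k (t • x)) (hk _)
    have a2 := hle (t • x) (k x) (hk _)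
    simp only [real_inner_smul_right] at a2 ⊢
    exact le_antisymm (mul_le_mul_of_nonneg_left a1 ht) a2

theorem iso_unit {x : E n} (hx : x ≠ 0) : ‖‖x‖⁻¹ • x‖ = 1 := by
  rw [norm_smul, norm_inv, norm_norm, inv_mul_cancel₀ (norm_ne_zero_iff.2 hx)]

theorem iso_lower {K : Set (E n)} {h : E n → ℝ} {R δ : ℝ} (hR : ∀ k ∈ K, ‖k‖ ≤ R)
    (hh : ∀ x, ∃ k ∈ K, h x = inner ℝ k x) (hδ : 0 < δ) (hδR : δ * R ≤ 1 / 2) :
    {x : E n | ‖x‖ ≤ max (1 + δ * h (‖x‖⁻¹ • x) - δ ^ 2 * R ^ 2) 0} ⊆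
      Metric.closedBall (0 : E n) 1 + δ • K := by
  intro x hx
  obtain ⟨k, hk, e⟩ := hh (‖x‖⁻¹ • x)
  refine ⟨x - δ • k, ?_, δ • k, smul_mem_smul_set hk, sub_add_cancel _ _⟩
  rw [mem_closedBall_zero_iff]
  have hk0 := norm_nonneg k
  have hkR := hR k hk
  have hδk : δ * ‖k‖ ≤ δ * R := mul_le_mul_of_nonneg_left hkR hδ.le
  by_cases h0 : x = 0
  · rw [h0, zero_sub, norm_neg, norm_smul, Real.norm_eq_abs, abs_of_pos hδ]
    linarith
  have hu := iso_unit h0
  have hr : 0 < ‖x‖ := norm_pos_iff.2 h0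
  have hx' : ‖x‖ ≤ 1 + δ * h (‖x‖⁻¹ • x) - δ ^ 2 * R ^ 2 := by
    rcases le_max_iff.1 (mem_setOf_eq ▸ hx) with h1 | h1
    · exact h1
    · exact absurd h1 (not_le.2 hr)
  have hs : |h (‖x‖⁻¹ • x)| ≤ ‖k‖ := by
    rw [e]
    exact (abs_real_inner_le_norm _ _).trans (by rw [hu, mul_one])
  have hi : inner ℝ x k = ‖x‖ * h (‖x‖⁻¹ • x) := by
    rw [e, real_inner_smul_right, ← mul_assoc, mul_inv_cancel₀ hr.ne', one_mul, real_inner_comm]
  generalize h (‖x‖⁻¹ • x) = s at *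
  have h2 : ‖x - δ • k‖ ^ 2 = ‖x‖ ^ 2 - 2 * (δ * (‖x‖ * s)) + (δ * ‖k‖) ^ 2 := by
    rw [norm_sub_sq_real, real_inner_smul_right, hi, norm_smul, Real.norm_eq_abs, abs_of_pos hδ]
  rw [← sq_le_one_iff₀ (norm_nonneg _), h2]
  generalize ‖x‖ = r at *
  have hδs : δ * s ≤ δ * R := mul_le_mul_of_nonneg_left ((le_abs_self s).trans (hs.trans hkR)) hδ.le
  have hu0 : 0 ≤ δ * ‖k‖ := by positivity
  have e2 : δ ^ 2 * R ^ 2 = (δ * R) ^ 2 := by ring
  rw [e2] at hx'
  have e3 : r ^ 2 - 2 * (δ * (r * s)) = (r - δ * s) ^ 2 - (δ * s) ^ 2 := by ring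
  rw [e3]
  generalize δ * s = p at *
  generalize δ * R = u at *
  generalize δ * ‖k‖ = v at *
  have h3 : v ^ 2 ≤ u ^ 2 := pow_le_pow_left₀ hu0 hδk 2
  have h4 : (r - p) ^ 2 ≤ (1 - u ^ 2) ^ 2 := by
    apply sq_le_sq'
    · nlinarith
    · linarith
  have h5 : u ^ 2 ≤ 1 := by nlinarith
  nlinarith [sq_nonneg p, mul_nonneg (sq_nonneg u) (sub_nonneg.2 h5)]

theorem iso_upper {K : Set (E n)} {h : E n → ℝ} {δ : ℝ} (hh : ∀ x, ∀ k ∈ K, inner ℝ k x ≤ h x)
    (hδ : 0 < δ) {w : E n → E n} (hw : ∀ b, ‖b‖ = 1 → inner ℝ b (w b) = 0) :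
    Metric.closedBall (0 : E n) 1 + δ • K ⊆
      {x : E n | ‖x‖ ≤ max ((fun b => 1 + δ ^ 2 * ‖w b‖ ^ 2 / 2 + δ * h (b - δ • w b))
        (‖x‖⁻¹ • x)) 0} := by
  rintro x ⟨u, hu, _, ⟨k, hk, rfl⟩, hx⟩
  simp only at hx
  rw [mem_closedBall_zero_iff] at hu
  by_cases h0 : x = 0
  · rw [mem_setOf_eq, h0, norm_zero]
    exact le_max_right _ _
  have hb := iso_unit h0
  have hr : 0 < ‖x‖ := norm_pos_iff.2 h0
  rw [mem_setOf_eq]
  refine le_max_of_le_left ?_
  set b := ‖x‖⁻¹ • x with hbd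
  have hxb : x = ‖x‖ • b := by rw [hbd, smul_smul, mul_inv_cancel₀ hr.ne', one_smul]
  clear_value b
  have h1 : inner ℝ x (b - δ • w b) = ‖x‖ := by
    generalize ‖x‖ = r at hxb
    rw [hxb, real_inner_smul_left, inner_sub_right, real_inner_smul_right, hw b hb,
      real_inner_self_eq_norm_sq, hb]
    ring
  have h2 : ‖b - δ • w b‖ ≤ 1 + δ ^ 2 * ‖w b‖ ^ 2 / 2 := by
    have : ‖b - δ • w b‖ ^ 2 = 1 + δ ^ 2 * ‖w b‖ ^ 2 := by
      rw [norm_sub_sq_real, real_inner_smul_right, hw b hb, norm_smul, Real.norm_eq_abs,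
        abs_of_pos hδ, hb]
      ring
    nlinarith [sq_nonneg (‖b - δ • w b‖ - 1)]
  have h3 : inner ℝ u (b - δ • w b) ≤ ‖b - δ • w b‖ :=
    (real_inner_le_norm _ _).trans (mul_le_of_le_one_left (norm_nonneg _) hu)
  have h4 := mul_le_mul_of_nonneg_left (hh (b - δ • w b) k hk) hδ.le
  rw [← hx, inner_add_left, real_inner_smul_left, hx] at h1
  simp only
  linarith

theorem iso_small {R : ℝ} (hR : 0 < R) : ∀ᶠ δ in 𝓝[>] (0 : ℝ), 0 < δ ∧ δ ≤ 1 ∧ δ * R ≤ 1 / 2 := by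
  have h : Ioo (0 : ℝ) (min 1 (1 / (2 * R))) ∈ 𝓝[>] (0 : ℝ) :=
    Ioo_mem_nhdsGT (lt_min one_pos (by positivity))
  filter_upwards [h] with δ hδ
  refine ⟨hδ.1, (hδ.2.trans_le (min_le_left _ _)).le, ?_⟩
  have := (hδ.2.trans_le (min_le_right _ _)).le
  rw [le_div_iff₀ (by positivity)] at this
  linarith

/-- first order: the mean of the support function is at most `ρ` -/
theorem iso_mean_le [NeZero n] {K : Set (E n)} {h : E n → ℝ} {R ρ : ℝ} (hR0 : 0 < R)
    (hR : ∀ k ∈ K, ‖k‖ ≤ R) (hh : ∀ x, ∃ k ∈ K, h x = inner ℝ k x) (hl : HL h) (hρ : 0 ≤ ρ)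
    (hv : ∀ δ : ℝ, 0 < δ → volume (Metric.closedBall (0 : E n) 1 + δ • K) =
      ENNReal.ofReal (kap n * (1 + δ * ρ) ^ n)) : ∫ b, h b ∂(σ n) ≤ ρ := by
  obtain ⟨P, P1, -, P3⟩ := iso_pow n
  have hn : (0 : ℝ) < n := by exact_mod_cast Nat.pos_of_ne_zero (NeZero.ne n)
  have hb : ∀ b : E n, ‖b‖ = 1 → |h b| ≤ R := by
    intro b hb
    obtain ⟨k, hk, e⟩ := hh b
    rw [e]
    exact (abs_real_inner_le_norm _ _).trans (by rw [hb, mul_one]; exact hR k hk)
  have hc := hl.continuous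
  have hi : Integrable h (σ n) := integrable_of_continuousOn hc.continuousOn
  have key : ∀ᶠ δ in 𝓝[>] (0 : ℝ),
      n * (∫ b, h b ∂(σ n) - ρ) ≤ δ * (ρ ^ 2 * P (δ * ρ) + n * R ^ 2) := by
    filter_upwards [iso_small hR0] with δ ⟨d0, _, d2⟩
    have hbd : ∀ b : E n, ‖b‖ = 1 → -(3 / 4) ≤ δ * h b - δ ^ 2 * R ^ 2 ∧ δ * h b ≤ 1 / 2 := by
      intro b hb1
      obtain ⟨a1, a2⟩ := abs_le.1 (hb b hb1)
      have a3 := mul_le_mul_of_nonneg_left a1 d0.le
      have a4 := mul_le_mul_of_nonneg_left a2 d0.le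
      have a5 : 0 ≤ δ * R := by positivity
      constructor <;> nlinarith
    have h1 := measure_mono (μ := volume) (iso_lower hR hh d0 d2)
    rw [hv δ d0, iso_star (f := fun b => 1 + δ * h b - δ ^ 2 * R ^ 2) (by fun_prop) (C := 2)
      fun b hb1 => ⟨by linarith [(hbd b hb1).1], by nlinarith [(hbd b hb1).2, sq_nonneg (δ * R)]⟩,
      ENNReal.ofReal_le_ofReal_iff (by have := kap_pos n; positivity),
      mul_le_mul_iff_right₀ (kap_pos n)] at h1
    have h2 : ∫ b, (1 + n * (δ * h b - δ ^ 2 * R ^ 2)) ∂(σ n) ≤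
        ∫ b, (1 + δ * h b - δ ^ 2 * R ^ 2) ^ n ∂(σ n) := by
      refine integral_mono_ae (integrable_of_continuousOn (Continuous.continuousOn (by fun_prop)))
        (integrable_of_continuousOn (Continuous.continuousOn (by fun_prop)))
        (ae_norm.mono fun b hb1 => ?_)
      have := one_add_mul_le_pow (a := δ * h b - δ ^ 2 * R ^ 2) (by linarith [(hbd b hb1).1]) n
      simpa only [add_sub_assoc] using this
    have h3 : ∫ b, (1 + n * (δ * h b - δ ^ 2 * R ^ 2)) ∂(σ n) =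
        1 + n * (δ * ∫ b, h b ∂(σ n) - δ ^ 2 * R ^ 2) := by
      have i1 : Integrable (fun b => n * (δ * h b - δ ^ 2 * R ^ 2)) (σ n) :=
        ((hi.const_mul δ).sub (integrable_const _)).const_mul _
      rw [integral_add (integrable_const _) i1, integral_const_mul,
        integral_sub (hi.const_mul δ) (integrable_const _), integral_const_mul]
      simp
    rw [h3] at h2
    have h4 := h2.trans h1
    rw [P3] at h4
    have h5 : δ * (n * (∫ b, h b ∂(σ n) - ρ)) ≤ δ * (δ * (ρ ^ 2 * P (δ * ρ) + n * R ^ 2)) := by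
      nlinarith
    exact le_of_mul_le_mul_left h5 d0
  have lim : Tendsto (fun δ : ℝ => δ * (ρ ^ 2 * P (δ * ρ) + n * R ^ 2)) (𝓝[>] 0) (𝓝 0) := by
    have : Continuous fun δ : ℝ => δ * (ρ ^ 2 * P (δ * ρ) + n * R ^ 2) := by fun_prop
    simpa using (this.tendsto 0).mono_left nhdsWithin_le_nhds
  have := ge_of_tendsto lim key
  nlinarith

/-- second order -/
theorem iso_second [NeZero n] {K : Set (E n)} {h : E n → ℝ} {R ρ : ℝ} (hR0 : 0 < R)
    (hh : ∀ x, ∀ k ∈ K, inner ℝ k x ≤ h x) (hlip : ∀ x y, |h x - h y| ≤ R * ‖x - y‖) (hl : HL h)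
    (hm : ∫ b, h b ∂(σ n) ≤ ρ)
    (hv : ∀ δ : ℝ, 0 < δ → volume (Metric.closedBall (0 : E n) 1 + δ • K) =
      ENNReal.ofReal (kap n * (1 + δ * ρ) ^ n)) :
    ∫ b, h b ∂(σ n) = ρ ∧ ∫ b, ‖gradient h b‖ ^ 2 ∂(σ n) - ∫ b, h b ^ 2 ∂(σ n) ≤
      ((n : ℝ) - 1) * (∫ b, h b ^ 2 ∂(σ n) - ρ ^ 2) := by
  obtain ⟨P, P1, P2, P3⟩ := iso_pow n
  have hn : (0 : ℝ) < n := by exact_mod_cast Nat.pos_of_ne_zero (NeZero.ne n)
  have hc := hl.continuous
  have hi : Integrable h (σ n) := integrable_of_continuousOn hc.continuousOn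
  have h00 : h 0 = 0 := by simpa using hl.hom 0 0 le_rfl
  have hb : ∀ b : E n, ‖b‖ = 1 → |h b| ≤ R := fun b hb => by simpa [h00, hb] using hlip b 0
  have hg := norm_grad_le hR0.le hlip
  have hgm := measurable_grad h
  set w : E n → E n := fun b => gradient h b - inner ℝ (gradient h b) b • b with hw
  have hwm : Measurable w :=
    hgm.sub ((hgm.inner (𝕜 := ℝ) measurable_id').fun_smul measurable_id')
  have hw0 : ∀ b, ‖b‖ = 1 → inner ℝ b (w b) = 0 := by
    intro b hb1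
    simp only [hw]
    rw [inner_sub_right, real_inner_smul_right, real_inner_self_eq_norm_sq, hb1, real_inner_comm]
    ring
  have hw2 : ∀ b, ‖b‖ = 1 → ‖w b‖ ^ 2 = ‖gradient h b‖ ^ 2 - inner ℝ (gradient h b) b ^ 2 := by
    intro b hb1
    simp only [hw]
    rw [norm_sub_sq_real, real_inner_smul_right, norm_smul, hb1, Real.norm_eq_abs, mul_one, sq_abs]
    ring
  have hw3 : ∀ b, ‖b‖ = 1 → inner ℝ (gradient h b) (w b) = ‖w b‖ ^ 2 := by
    intro b hb1
    rw [hw2 b hb1]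
    simp only [hw]
    rw [inner_sub_right, real_inner_smul_right, real_inner_self_eq_norm_sq]
    ring
  have hwR : ∀ b, ‖b‖ = 1 → ‖w b‖ ≤ R := by
    intro b hb1
    refine le_trans ?_ (hg b)
    rw [← sq_le_sq₀ (norm_nonneg _) (norm_nonneg _), hw2 b hb1]
    nlinarith [sq_nonneg (inner ℝ (gradient h b) b)]
  set q : ℝ → E n → ℝ := fun δ b => ‖w b‖ ^ 2 / 2 + δ⁻¹ * (h (b - δ • w b) - h b) with hq
  have hqm : ∀ δ, Measurable (q δ) := fun δ =>
    ((hwm.norm.pow_const 2).div_const 2).add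
      (((hc.measurable.comp (measurable_id.sub (hwm.const_smul δ))).sub hc.measurable).const_mul _)
  have hqb : ∀ δ, 0 < δ → ∀ b, ‖b‖ = 1 → |q δ b| ≤ 2 * R ^ 2 := by
    intro δ d0 b hb1
    have a1 := hlip (b - δ • w b) b
    rw [sub_sub_cancel_left, norm_neg, norm_smul, Real.norm_eq_abs, abs_of_pos d0] at a1
    have a2 : |δ⁻¹ * (h (b - δ • w b) - h b)| ≤ R * ‖w b‖ := by
      rw [abs_mul, abs_inv, abs_of_pos d0, inv_mul_le_iff₀ d0]
      linarith
    have a3 := hwR b hb1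
    have a4 := norm_nonneg (w b)
    have a5 : R * ‖w b‖ ≤ R * R := mul_le_mul_of_nonneg_left a3 hR0.le
    have a6 : ‖w b‖ ^ 2 ≤ R ^ 2 := pow_le_pow_left₀ a4 a3 2
    obtain ⟨a7, a8⟩ := abs_le.1 a2
    simp only [hq]
    rw [abs_le]
    constructor <;> nlinarith
  set M := R + 2 * R ^ 2 with hM
  have hM0 : 0 < M := by positivity
  have htb : ∀ δ, 0 < δ → δ ≤ 1 → ∀ b, ‖b‖ = 1 → |h b + δ * q δ b| ≤ M := by
    intro δ d0 d1 b hb1
    refine (abs_add_le _ _).trans (add_le_add (hb b hb1) ?_)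
    rw [abs_mul, abs_of_pos d0]
    exact (mul_le_of_le_one_left (abs_nonneg _) d1).trans (hqb δ d0 b hb1)
  obtain ⟨Pm, hPm⟩ := (isCompact_Icc (a := (-1 : ℝ)) (b := 1)).exists_bound_of_continuousOn
    P1.continuousOn
  set G : ℝ → E n → ℝ := fun δ b =>
    n * q δ b + (h b + δ * q δ b) ^ 2 * P (δ * (h b + δ * q δ b)) with hG
  have hGm : ∀ δ, Measurable (G δ) := fun δ =>
    ((hqm δ).const_mul _).add (((hc.measurable.add ((hqm δ).const_mul _)).pow_const 2).mul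
      (P1.measurable.comp ((hc.measurable.add ((hqm δ).const_mul _)).const_mul _)))
  have htδ : ∀ δ, 0 < δ → δ ≤ 1 → δ * M ≤ 1 / 2 → ∀ b, ‖b‖ = 1 →
      |δ * (h b + δ * q δ b)| ≤ 1 / 2 := by
    intro δ d0 d1 d2 b hb1
    rw [abs_mul, abs_of_pos d0]
    exact (mul_le_mul_of_nonneg_left (htb δ d0 d1 b hb1) d0.le).trans d2
  have hGb : ∀ δ, 0 < δ → δ ≤ 1 → δ * M ≤ 1 / 2 → ∀ b, ‖b‖ = 1 →
      ‖G δ b‖ ≤ n * (2 * R ^ 2) + M ^ 2 * Pm := by
    intro δ d0 d1 d2 b hb1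
    have a1 := abs_le.1 (htδ δ d0 d1 d2 b hb1)
    have a2 := hPm (δ * (h b + δ * q δ b)) ⟨by linarith [a1.1], by linarith [a1.2]⟩
    rw [Real.norm_eq_abs] at a2 ⊢
    refine (abs_add_le _ _).trans (add_le_add ?_ ?_)
    · rw [abs_mul, abs_of_pos hn]
      exact mul_le_mul_of_nonneg_left (hqb δ d0 b hb1) hn.le
    · rw [abs_mul, abs_pow]
      exact mul_le_mul (pow_le_pow_left₀ (abs_nonneg _) (htb δ d0 d1 b hb1) 2) a2 (abs_nonneg _)
        (by positivity)
  have key : ∀ᶠ δ in 𝓝[>] (0 : ℝ), 0 < δ ∧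
      n * (ρ - ∫ b, h b ∂(σ n)) ≤ δ * (∫ b, G δ b ∂(σ n) - ρ ^ 2 * P (δ * ρ)) := by
    filter_upwards [iso_small hM0] with δ ⟨d0, d1, d2⟩
    refine ⟨d0, ?_⟩
    have he : ∀ b, 1 + δ ^ 2 * ‖w b‖ ^ 2 / 2 + δ * h (b - δ • w b) = 1 + δ * (h b + δ * q δ b) := by
      intro b
      simp only [hq]
      field_simp
      ring
    have h1 := measure_mono (μ := volume) (iso_upper hh d0 hw0)
    simp only [he] at h1
    have hnn : ∀ b, ‖b‖ = 1 → 0 ≤ 1 + δ * (h b + δ * q δ b) ∧ 1 + δ * (h b + δ * q δ b) ≤ 2 := by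
      intro b hb1
      have a1 := abs_le.1 (htδ δ d0 d1 d2 b hb1)
      constructor <;> linarith [a1.1, a1.2]
    rw [hv δ d0, iso_star (f := fun b => 1 + δ * (h b + δ * q δ b))
      (((hc.measurable.add ((hqm δ).const_mul _)).const_mul _).const_add _) hnn,
      ENNReal.ofReal_le_ofReal_iff (mul_nonneg (kap_pos n).le (integral_nonneg_of_ae
        (ae_norm.mono fun b hb1 => pow_nonneg (hnn b hb1).1 _))),
      mul_le_mul_iff_right₀ (kap_pos n)] at h1
    have hGi : Integrable (G δ) (σ n) :=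
      integrable_of_bdd (hGm δ).aestronglyMeasurable (hGb δ d0 d1 d2)
    have h2 : ∫ b, (1 + δ * (h b + δ * q δ b)) ^ n ∂(σ n) =
        1 + n * δ * ∫ b, h b ∂(σ n) + δ ^ 2 * ∫ b, G δ b ∂(σ n) := by
      have : ∀ b, (1 + δ * (h b + δ * q δ b)) ^ n = 1 + n * δ * h b + δ ^ 2 * G δ b := by
        intro b
        rw [P3]
        simp only [hG]
        ring
      simp only [this]
      have i1 : Integrable (fun b => 1 + n * δ * h b) (σ n) :=
        (integrable_const _).add (hi.const_mul _)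
      rw [integral_add i1 (hGi.const_mul _),
        integral_add (integrable_const _) (hi.const_mul _), integral_const_mul, integral_const_mul]
      simp
    rw [h2, P3] at h1
    have h5 : δ * (n * (ρ - ∫ b, h b ∂(σ n))) ≤
        δ * (δ * (∫ b, G δ b ∂(σ n) - ρ ^ 2 * P (δ * ρ))) := by
      nlinarith
    exact le_of_mul_le_mul_left h5 d0
  have limG : Tendsto (fun δ => ∫ b, G δ b ∂(σ n)) (𝓝[>] 0)
      (𝓝 (∫ b, (n * (-(‖gradient h b‖ ^ 2 - h b ^ 2) / 2) + h b ^ 2 * P 0) ∂(σ n))) := by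
    refine tendsto_integral_filter_of_dominated_convergence (fun _ => n * (2 * R ^ 2) + M ^ 2 * Pm)
      (Eventually.of_forall fun δ => (hGm δ).aestronglyMeasurable) ?_ (integrable_const _) ?_
    · filter_upwards [iso_small hM0] with δ ⟨d0, d1, d2⟩
      exact ae_norm.mono fun b hb1 => hGb δ d0 d1 d2 b hb1
    · filter_upwards [ae_norm, hl.ae_differentiableAt] with b hb1 hd
      have l0 : Tendsto (fun δ : ℝ => δ) (𝓝[>] 0) (𝓝 0) := tendsto_id.mono_left nhdsWithin_le_nhds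
      have d1 : HasDerivAt (fun t : ℝ => b - t • w b) (-w b) 0 := by
        simpa using ((hasDerivAt_id (0 : ℝ)).smul_const (w b)).const_sub b
      have d2 : HasDerivAt (fun t : ℝ => h (b - t • w b)) (fderiv ℝ h b (-w b)) 0 :=
        HasFDerivAt.comp_hasDerivAt_of_eq (0 : ℝ) hd.hasFDerivAt d1 (by simp)
      rw [← inner_grad, inner_neg_right, hw3 b hb1, hasDerivAt_iff_tendsto_slope_zero] at d2
      have l1 : Tendsto (fun δ => q δ b) (𝓝[>] 0) (𝓝 (-(‖gradient h b‖ ^ 2 - h b ^ 2) / 2)) := by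
        have := (d2.mono_left (nhdsGT_le_nhdsNE 0)).const_add (‖w b‖ ^ 2 / 2)
        simp only [zero_add, zero_smul, sub_zero, smul_eq_mul] at this
        convert this using 2
        rw [hw2 b hb1, hl.euler hd]
        ring
      have l2 : Tendsto (fun δ => h b + δ * q δ b) (𝓝[>] 0) (𝓝 (h b)) := by
        simpa using (l0.mul l1).const_add (h b)
      have l3 : Tendsto (fun δ => P (δ * (h b + δ * q δ b))) (𝓝[>] 0) (𝓝 (P 0)) := by
        refine (P1.tendsto 0).comp ?_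
        simpa using l0.mul l2
      exact (l1.const_mul _).add ((l2.pow 2).mul l3)
  have limP : Tendsto (fun δ : ℝ => ρ ^ 2 * P (δ * ρ)) (𝓝[>] 0) (𝓝 (ρ ^ 2 * P 0)) := by
    have : Continuous fun δ : ℝ => ρ ^ 2 * P (δ * ρ) := by fun_prop
    simpa using (this.tendsto 0).mono_left nhdsWithin_le_nhds
  have l0 : Tendsto (fun δ : ℝ => δ) (𝓝[>] 0) (𝓝 0) := tendsto_id.mono_left nhdsWithin_le_nhds
  have f1 := ge_of_tendsto (l0.mul (limG.sub limP)) (key.mono fun δ hδ => hδ.2)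
  have f2 : ∫ b, h b ∂(σ n) = ρ := by
    rw [zero_mul] at f1
    exact le_antisymm hm (by nlinarith)
  have f3 := ge_of_tendsto (limG.sub limP) (key.mono fun δ hδ =>
    show (0 : ℝ) ≤ ∫ b, G δ b ∂(σ n) - ρ ^ 2 * P (δ * ρ) from by
      have := hδ.2
      rw [f2, sub_self, mul_zero] at this
      exact (mul_nonneg_iff_of_pos_left hδ.1).1 this)
  have i1 : Integrable (fun b => h b ^ 2) (σ n) :=
    integrable_of_continuousOn (Continuous.continuousOn (by fun_prop))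
  have i2 : Integrable (fun b => ‖gradient h b‖ ^ 2) (σ n) :=
    integrable_of_bdd (hgm.norm.pow_const 2).aestronglyMeasurable (C := R ^ 2) fun b _ => by
      rw [Real.norm_eq_abs, abs_of_nonneg (sq_nonneg _)]
      exact pow_le_pow_left₀ (norm_nonneg _) (hg b) 2
  refine ⟨f2, ?_⟩
  have i3 : Integrable (fun b => n * (-(‖gradient h b‖ ^ 2 - h b ^ 2) / 2)) (σ n) :=
    ((i2.sub i1).neg.div_const 2).const_mul _
  rw [integral_add i3 (i1.mul_const _), integral_const_mul,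
    integral_div, integral_neg, integral_sub i2 i1, integral_mul_const, P2] at f3
  have f4 : (n : ℝ) * (∫ b, ‖gradient h b‖ ^ 2 ∂(σ n) - ∫ b, h b ^ 2 ∂(σ n)) ≤
      n * (((n : ℝ) - 1) * (∫ b, h b ^ 2 ∂(σ n) - ρ ^ 2)) := by nlinarith
  exact le_of_mul_le_mul_left f4 hn

/-- If all parallel bodies of `K` have the volume of the parallel bodies of a ball of radius `ρ`, then
`K` is a ball of radius `ρ`. -/
theorem iso_eq [NeZero n] (hn : 3 ≤ n) {K : Set (E n)} (hK : IsCompact K) (hc : Convex ℝ K)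
    (hne : K.Nonempty) {ρ : ℝ} (hρ : 0 ≤ ρ)
    (h : ∀ δ : ℝ, 0 < δ → volume (Metric.closedBall (0 : E n) 1 + δ • K) =
      ENNReal.ofReal (kap n * (1 + δ * ρ) ^ n)) :
    ∃ a : E n, K = Metric.closedBall a ρ := by
  obtain ⟨s, R, hR0, hR, s1, s2, s3, s4⟩ := iso_support hK hne
  obtain ⟨e1, e2⟩ := iso_second hR0 s2 s3 s4 (iso_mean_le hR0 hR s1 s4 hρ h) h
  obtain ⟨a, ha⟩ := eq_affine_of_dirichlet_le hn s4 (by rw [e1]; exact e2)
  rw [e1] at ha
  refine ⟨a, Subset.antisymm (fun k hk => ?_) fun x hx => ?_⟩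
  · rw [mem_closedBall_iff_norm]
    by_cases h0 : k - a = 0
    · rw [h0, norm_zero]; exact hρ
    have hu := iso_unit h0
    have h1 := s2 (‖k - a‖⁻¹ • (k - a)) k hk
    rw [ha _ hu, real_inner_comm] at h1
    have h2 : inner ℝ (‖k - a‖⁻¹ • (k - a)) (k - a) = ‖k - a‖ := by
      rw [real_inner_smul_left, real_inner_self_eq_norm_sq]
      field_simp
    rw [inner_sub_right] at h2
    linarith
  · by_contra hxK
    obtain ⟨f, u, f1, f2⟩ := geometric_hahn_banach_point_closed hc hK.isClosed hxK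
    obtain ⟨v, rfl⟩ := (InnerProductSpace.toDual ℝ (E n)).surjective f
    simp only [InnerProductSpace.toDual_apply_apply] at f1 f2
    have hv : -v ≠ 0 := by
      obtain ⟨k, hk⟩ := hne
      intro h0
      have h1 := f2 k hk
      rw [neg_eq_zero.1 h0, inner_zero_left] at f1 h1
      linarith
    have hu := iso_unit hv
    obtain ⟨k, hk, e⟩ := s1 (‖-v‖⁻¹ • -v)
    have h1 := ha _ hu
    have h2 : inner ℝ (‖-v‖⁻¹ • -v) (x - a) ≤ ρ :=
      (real_inner_le_norm _ _).trans (by rw [hu, one_mul]; exact mem_closedBall_iff_norm.1 hx)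
    rw [inner_sub_right] at h2
    have h3 : inner ℝ k (‖-v‖⁻¹ • -v) < inner ℝ (‖-v‖⁻¹ • -v) x := by
      rw [real_inner_comm, real_inner_smul_left, real_inner_smul_left, inner_neg_left,
        inner_neg_left]
      exact mul_lt_mul_of_pos_left (by linarith [f2 k hk]) (inv_pos.2 (norm_pos_iff.2 hv))
    linarith

/-- Equality in Brunn–Minkowski with an ellipsoid. -/
theorem ellipsoid_of_bm_eq [NeZero n] (hn : 3 ≤ n) {K : Set (E n)} (hK : IsCompact K)
    (hc : Convex ℝ K) (hi : (interior K).Nonempty) (T : E n ≃L[ℝ] E n)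
    (h : ∀ ε : ℝ, 0 ≤ ε →
      (volume (K + ε • (T '' Metric.closedBall (0 : E n) 1))).toReal ^ (1 / (n : ℝ)) =
        (volume K).toReal ^ (1 / (n : ℝ)) +
          ε * (volume (T '' Metric.closedBall (0 : E n) 1)).toReal ^ (1 / (n : ℝ))) :
    ∃ (a : E n) (T' : E n ≃ₗ[ℝ] E n), K = (fun x => a + T' x) '' Metric.closedBall 0 1 := by
  set K' := T.symm '' K with hK'
  have hKK : T '' K' = K := by rw [hK', image_image]; simp
  have hK'c : IsCompact K' := hK.image T.symm.continuous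
  have hK'v : Convex ℝ K' := hc.linear_image (T.symm : E n →ₗ[ℝ] E n)
  have hne : K'.Nonempty := (hi.mono interior_subset).image _
  set D := |LinearMap.det (T : E n →ₗ[ℝ] E n)| with hD
  have hD0 : 0 < D := abs_pos.2 (T.toLinearEquiv.isUnit_det'.ne_zero)
  have hvol : ∀ S : Set (E n), (volume (T '' S)).toReal = D * (volume S).toReal := by
    intro S
    rw [Measure.addHaar_image_continuousLinearEquiv, ENNReal.toReal_mul,
      ENNReal.toReal_ofReal hD0.le]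
  have hn0 : n ≠ 0 := NeZero.ne n
  have hk := kap_pos n
  have hroot : ∀ x : ℝ, 0 ≤ x → (x ^ (1 / (n : ℝ))) ^ n = x := fun x hx => by
    rw [one_div, Real.rpow_inv_natCast_pow hx hn0]
  have hV : 0 < (volume K').toReal := by
    have h1 : 0 < (volume K).toReal :=
      ENNReal.toReal_pos (Measure.measure_pos_of_nonempty_interior _ hi).ne' hK.measure_lt_top.ne
    rw [← hKK, hvol] at h1
    exact (mul_pos_iff_of_pos_left hD0).1 h1
  have hB : (volume (Metric.closedBall (0 : E n) 1)).toReal = kap n := by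
    rw [volume_closedBall_eq _ zero_le_one, one_pow, mul_one, ENNReal.toReal_ofReal hk.le]
  set c := kap n ^ (1 / (n : ℝ)) with hcdef
  set v := (volume K').toReal ^ (1 / (n : ℝ)) with hvdef
  have hc0 : 0 < c := Real.rpow_pos_of_pos hk _
  have hv0 : 0 < v := Real.rpow_pos_of_pos hV _
  have hρ : 0 < v / c := div_pos hv0 hc0
  obtain ⟨a, ha⟩ := iso_eq hn hK'c hK'v hne hρ.le fun δ hδ => by
    have h1 := h δ⁻¹ (inv_pos.2 hδ).le
    have e1 : K + δ⁻¹ • (T '' Metric.closedBall (0 : E n) 1) =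
        T '' (K' + δ⁻¹ • Metric.closedBall (0 : E n) 1) := by
      rw [image_add T, image_smul_set T, hKK]
    have e2 : Metric.closedBall (0 : E n) 1 + δ • K' =
        δ • (K' + δ⁻¹ • Metric.closedBall (0 : E n) 1) := by
      rw [smul_add, smul_smul, mul_inv_cancel₀ hδ.ne', one_smul, add_comm]
    have hfin : volume (K' + δ⁻¹ • Metric.closedBall (0 : E n) 1) ≠ ⊤ :=
      (hK'c.add ((isCompact_closedBall _ _).smul _)).measure_lt_top.ne
    rw [e1] at h1
    conv_rhs at h1 => rw [← hKK]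
    rw [hvol, hvol, hvol, hB, Real.mul_rpow hD0.le ENNReal.toReal_nonneg,
      Real.mul_rpow hD0.le ENNReal.toReal_nonneg, Real.mul_rpow hD0.le hk.le] at h1
    have hDp : 0 < D ^ (1 / (n : ℝ)) := Real.rpow_pos_of_pos hD0 _
    have h2 : (volume (K' + δ⁻¹ • Metric.closedBall (0 : E n) 1)).toReal ^ (1 / (n : ℝ)) =
        v + δ⁻¹ * c := by
      apply mul_left_cancel₀ hDp.ne'
      rw [h1]; ring
    have h3 : (volume (K' + δ⁻¹ • Metric.closedBall (0 : E n) 1)).toReal = (v + δ⁻¹ * c) ^ n := by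
      rw [← h2, hroot _ ENNReal.toReal_nonneg]
    rw [e2, Measure.addHaar_smul_of_nonneg _ hδ.le, ← ENNReal.ofReal_toReal hfin, h3,
      ← ENNReal.ofReal_mul (by positivity), finrank_euclideanSpace_fin, ← mul_pow,
      ← hroot _ hk.le, ← mul_pow]
    congr 2
    rw [← hcdef]
    field_simp
    ring
  refine ⟨T a, (LinearEquiv.smulOfNeZero ℝ (E n) (v / c) hρ.ne').trans T.toLinearEquiv, ?_⟩
  rw [← hKK, ha]
  ext y
  constructor
  · rintro ⟨x, hx, rfl⟩
    refine ⟨(v / c)⁻¹ • (x - a), ?_, ?_⟩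
    · rw [mem_closedBall_zero_iff, norm_smul, norm_inv, Real.norm_eq_abs, abs_of_pos hρ,
        inv_mul_le_iff₀ hρ, mul_one]
      exact mem_closedBall_iff_norm.1 hx
    · have : (v / c) • (v / c)⁻¹ • (x - a) = x - a := by
        rw [smul_smul, mul_inv_cancel₀ hρ.ne', one_smul]
      change T a + T ((v / c) • (v / c)⁻¹ • (x - a)) = T x
      rw [this, ← map_add, add_sub_cancel]
  · rintro ⟨x, hx, rfl⟩
    refine ⟨a + (v / c) • x, ?_, ?_⟩
    · rw [mem_closedBall_iff_norm, add_sub_cancel_left, norm_smul, Real.norm_eq_abs, abs_of_pos hρ]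
      exact mul_le_of_le_one_right hρ.le (mem_closedBall_zero_iff.1 hx)
    · change T (a + (v / c) • x) = T a + T ((v / c) • x)
      rw [map_add]

end Crest.Agent.R230
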