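import Crest.Agent.R230.Sph

/-! # Row 230: shadows and the projection body -/

set_option autoImplicit false
open MeasureTheory Set
open scoped ENNReal Pointwise

namespace Crest.Agent.R230
variable {n : ℕ}

theorem shadow_nonneg (K : Set (E n)) (u : E n) : 0 ≤ shadow K u := ENNReal.toReal_nonneg

theorem shadow_neg (K : Set (E n)) (u : E n) : shadow K (-u) = shadow K u := by
  simp [shadow]

/-- the projection on `u^⊥` -/
noncomputable abbrev shadowP (u : E n) : E n →L[ℝ] (ℝ ∙ u)ᗮ := (ℝ ∙ u)ᗮ.orthogonalProjectionOnto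

theorem shadowP_coe {u : E n} (hu : ‖u‖ = 1) (y : E n) :
    (shadowP u y : E n) = y - inner ℝ y u • u := by
  rw [← Submodule.starProjection_apply, Submodule.starProjection_orthogonal_val,
    Submodule.starProjection_unit_singleton ℝ hu, real_inner_comm]

theorem shadow_finrank {u : E n} (hu : ‖u‖ = 1) : Module.finrank ℝ (ℝ ∙ u)ᗮ = n - 1 := by
  have h0 : u ≠ 0 := by
    rintro rfl
    simp at hu
  have := (ℝ ∙ u).finrank_add_finrank_orthogonal
  rw [finrank_span_singleton h0, finrank_euclideanSpace_fin] at this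
  omega

theorem shadow_meas {u : E n} (hu : ‖u‖ = 1) (K : Set (E n)) :
    (μHE[n - 1] : Measure (E n)) ((fun y => y - inner ℝ y u • u) '' K) =
      volume (shadowP u '' K) := by
  rw [← InnerProductSpace.euclideanHausdorffMeasure_eq_volume, shadow_finrank hu,
    ← (ℝ ∙ u)ᗮ.subtypeₗᵢ.isometry.euclideanHausdorffMeasure_image, image_image]
  simp only [Submodule.coe_subtypeₗᵢ, Submodule.coe_subtype, shadowP_coe hu]

theorem shadow_eq {u : E n} (hu : ‖u‖ = 1) (K : Set (E n)) :
    shadow K u = (volume (shadowP u '' K)).toReal := by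
  rw [shadow, shadow_meas hu]

theorem shadow_fubini {u : E n} (hu : ‖u‖ = 1) {S : Set (E n)} (hS : MeasurableSet S) :
    volume S = ∫⁻ w : (ℝ ∙ u)ᗮ, volume {t : ℝ | t • u + (w : E n) ∈ S} := by
  have h1 := ((ℝ ∙ u).measurePreserving_measurableEquivProd (0 : E n)).symm
  rw [InnerProductSpace.euclideanHausdorffMeasure_eq_volume] at h1
  have h2 := h1.comp ((LinearIsometryEquiv.toSpanUnitSingleton (𝕜 := ℝ) u hu).measurePreserving.prod
    (MeasurePreserving.id (volume : Measure (ℝ ∙ u)ᗮ)))
  rw [← h2.measure_preimage hS.nullMeasurableSet,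
    Measure.prod_apply_symm (h2.measurable hS)]
  refine lintegral_congr fun w => ?_
  congr 1
  ext t
  simp

theorem shadow_sec {u : E n} (hu : ‖u‖ = 1) {K : Set (E n)} (hK : IsCompact K) (hc : Convex ℝ K)
    (w : (ℝ ∙ u)ᗮ) :
    (w ∉ shadowP u '' K ∧ ∀ t : ℝ, t • u + (w : E n) ∉ K) ∨
      (w ∈ shadowP u '' K ∧ ∃ a b : ℝ, a ≤ b ∧ ∀ t : ℝ, t • u + (w : E n) ∈ K ↔ t ∈ Icc a b) := by
  have hw : inner ℝ (w : E n) u = 0 := by
    rw [real_inner_comm]
    exact Submodule.mem_orthogonal_singleton_iff_inner_right.1 w.2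
  have huu : inner ℝ u u = (1 : ℝ) := by rw [real_inner_self_eq_norm_sq, hu, one_pow]
  by_cases h : w ∈ shadowP u '' K
  · refine .inr ⟨h, ?_⟩
    obtain ⟨y, hy, rfl⟩ := h
    have hne : ({t : ℝ | t • u + (shadowP u y : E n) ∈ K}).Nonempty :=
      ⟨inner ℝ y u, by simpa [shadowP_coe hu] using hy⟩
    have hiso : Isometry fun t : ℝ => t • u + (shadowP u y : E n) :=
      Isometry.of_dist_eq fun s t => by
        rw [dist_add_right, dist_eq_norm, ← sub_smul, norm_smul, hu, mul_one, dist_eq_norm]
    have hcp : IsCompact {t : ℝ | t • u + (shadowP u y : E n) ∈ K} :=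
      hiso.isClosedEmbedding.isCompact_preimage hK
    have hcv : Convex ℝ {t : ℝ | t • u + (shadowP u y : E n) ∈ K} := by
      intro s hs t ht a b ha hb hab
      have := hc hs ht ha hb hab
      have e : (a • s + b • t) • u + (shadowP u y : E n) =
          a • (s • u + (shadowP u y : E n)) + b • (t • u + (shadowP u y : E n)) := by
        rw [smul_add, smul_add, add_add_add_comm, ← add_smul a b, hab, one_smul, add_smul,
          smul_assoc, smul_assoc]
      rw [mem_ofPred_eq, e]
      exact this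
    have e := eq_Icc_of_connected_compact (hcv.isConnected hne) hcp
    exact ⟨_, _, nonempty_Icc.1 (e ▸ hne), fun t => Set.ext_iff.1 e t⟩
  · refine .inl ⟨h, fun t ht => h ⟨_, ht, Subtype.ext ?_⟩⟩
    rw [shadowP_coe hu, inner_add_left, real_inner_smul_left, hw, huu]
    simp

theorem shadow_mem_segment {u x : E n} {h : ℝ} (hh : 0 ≤ h) :
    x ∈ segment ℝ 0 (h • u) ↔ ∃ s ∈ Icc 0 h, s • u = x := by
  have := image_segment ℝ (LinearMap.toSpanSingleton ℝ (E n) u).toAffineMap 0 h
  simp only [LinearMap.coe_toAffineMap, LinearMap.toSpanSingleton_apply, zero_smul,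
    segment_eq_Icc hh] at this
  rw [← this]
  rfl

theorem shadow_vol_ball {V : Type*} [NormedAddCommGroup V] [InnerProductSpace ℝ V]
    [MeasurableSpace V] [BorelSpace V] [FiniteDimensional ℝ V] {d : ℕ}
    (hd : Module.finrank ℝ V = d) :
    volume (Metric.ball (0 : V) 1) = volume (Metric.ball (0 : E d) 1) := by
  subst hd
  rw [← (stdOrthonormalBasis ℝ V).repr.measurePreserving.measure_preimage
    measurableSet_ball.nullMeasurableSet]
  simp

theorem shadow_ne_top (hn : 2 ≤ n) {K : Set (E n)} (hK : IsCompact K) {u : E n} (hu : ‖u‖ = 1) :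
    (μHE[n - 1] : Measure (E n)) ((fun y => y - inner ℝ y u • u) '' K) ≠ ∞ := by
  rw [shadow_meas hu]
  exact (hK.image (shadowP u).continuous).measure_lt_top.ne

theorem shadow_mono (hn : 2 ≤ n) {K L : Set (E n)} (hL : IsCompact L) (h : K ⊆ L) {u : E n}
    (hu : ‖u‖ = 1) : shadow K u ≤ shadow L u :=
  ENNReal.toReal_mono (shadow_ne_top hn hL hu) (measure_mono (image_mono h))

theorem shadow_translate (K : Set (E n)) (a u : E n) :
    shadow ((fun x => a + x) '' K) u = shadow K u := by
  unfold shadow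
  rw [← (isometry_add_left (a - inner ℝ a u • u)).euclideanHausdorffMeasure_image
    ((fun y => y - inner ℝ y u • u) '' K), image_image, image_image]
  congr 3
  funext x
  rw [inner_add_left, add_smul]
  abel

theorem shadow_closedBall (hn : 2 ≤ n) (a : E n) {r : ℝ} (hr : 0 ≤ r) {u : E n} (hu : ‖u‖ = 1) :
    shadow (Metric.closedBall a r) u = kap (n - 1) * r ^ (n - 1) := by
  have e : shadowP u '' Metric.closedBall a r = Metric.closedBall (shadowP u a) r := by
    ext w
    simp only [mem_image, mem_closedBall_iff_norm]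
    constructor
    · rintro ⟨y, hy, rfl⟩
      rw [← map_sub]
      exact (Submodule.norm_orthogonalProjectionOnto_apply_le _ _).trans hy
    · intro hw
      refine ⟨a + ((w - shadowP u a : (ℝ ∙ u)ᗮ) : E n), ?_, ?_⟩
      · rw [add_sub_cancel_left]
        exact hw
      · rw [map_add, Submodule.orthogonalProjectionOnto_mem_subspace_eq_self, add_sub_cancel]
  rw [shadow_eq hu, e, Measure.addHaar_closedBall _ _ hr, shadow_vol_ball (shadow_finrank hu),
    shadow_finrank hu, ENNReal.toReal_mul, ENNReal.toReal_ofReal (pow_nonneg hr _), mul_comm, kap]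

theorem shadow_ofReal {K : Set (E n)} (hK : IsCompact K) {u : E n} (hu : ‖u‖ = 1) {h : ℝ}
    (hh : 0 ≤ h) : ENNReal.ofReal (h * shadow K u) =
      ∫⁻ w, (shadowP u '' K).indicator (fun _ => ENNReal.ofReal h) w := by
  have hc := hK.image (shadowP u).continuous
  rw [lintegral_indicator_const hc.measurableSet, ENNReal.ofReal_mul hh, shadow_eq hu,
    ENNReal.ofReal_toReal hc.measure_lt_top.ne]

/-- Sweeping a convex body along a segment (Fubini along `u`,
`Submodule.measurePreserving_measurableEquivProd`). -/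
theorem volume_add_segment (hn : 2 ≤ n) {K : Set (E n)} (hK : IsCompact K) (hc : Convex ℝ K)
    {u : E n} (hu : ‖u‖ = 1) {h : ℝ} (hh : 0 ≤ h) :
    volume (K + segment ℝ 0 (h • u)) = volume K + ENNReal.ofReal (h * shadow K u) := by
  have hs : IsCompact (segment ℝ (0 : E n) (h • u)) := by
    rw [segment_eq_image]
    exact isCompact_Icc.image (by fun_prop)
  rw [shadow_fubini hu (hK.add hs).measurableSet, shadow_fubini hu hK.measurableSet,
    shadow_ofReal hK hu hh, ← lintegral_add_right _
      (measurable_const.indicator (hK.image (shadowP u).continuous).measurableSet)]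
  congr with w
  have key : ∀ t : ℝ, t • u + (w : E n) ∈ K + segment ℝ 0 (h • u) ↔
      ∃ s ∈ Icc 0 h, (t - s) • u + (w : E n) ∈ K := by
    intro t
    constructor
    · rintro ⟨y, hy, z, hz, e⟩
      obtain ⟨s, hs, rfl⟩ := (shadow_mem_segment hh).1 hz
      refine ⟨s, hs, ?_⟩
      rwa [sub_smul, sub_add_eq_add_sub, ← e, add_sub_cancel_right]
    · rintro ⟨s, hs, e⟩
      refine ⟨_, e, _, (shadow_mem_segment hh).2 ⟨s, hs, rfl⟩, ?_⟩
      simp only [sub_smul]
      abel
  simp only [key]
  rcases shadow_sec hu hK hc w with ⟨h1, h2⟩ | ⟨h1, a, b, hab, h2⟩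
  · simp [h2, indicator_of_notMem h1]
  · have e1 : {t : ℝ | ∃ s ∈ Icc 0 h, (t - s) • u + (w : E n) ∈ K} = Icc a (b + h) := by
      ext t
      simp only [h2, mem_ofPred_eq, mem_Icc]
      constructor
      · rintro ⟨s, ⟨s0, s1⟩, s2, s3⟩
        constructor <;> linarith
      · rintro ⟨s0, s1⟩
        rcases le_total t b with h3 | h3
        · exact ⟨0, ⟨le_rfl, hh⟩, by linarith, by linarith⟩
        · exact ⟨t - b, ⟨by linarith, by linarith⟩, by linarith, by linarith⟩
    have e2 : {t : ℝ | t • u + (w : E n) ∈ K} = Icc a b := Set.ext h2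
    rw [e1, e2, indicator_of_mem h1, Real.volume_Icc, Real.volume_Icc,
      ← ENNReal.ofReal_add (sub_nonneg.2 hab) hh]
    congr 1
    ring

theorem volume_inter_ge (hn : 2 ≤ n) {K : Set (E n)} (hK : IsCompact K) (hc : Convex ℝ K)
    {u : E n} (hu : ‖u‖ = 1) {h : ℝ} (hh : 0 ≤ h) :
    (volume K).toReal - h * shadow K u ≤ (volume (K ∩ (fun x => h • u + x) '' K)).toReal := by
  have hc2 : IsCompact (K ∩ (fun x => h • u + x) '' K) :=
    hK.inter_right (hK.image (by fun_prop)).isClosed
  have key : volume K ≤ volume (K ∩ (fun x => h • u + x) '' K) +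
      ENNReal.ofReal (h * shadow K u) := by
    rw [shadow_fubini hu hc2.measurableSet, shadow_fubini hu hK.measurableSet,
      shadow_ofReal hK hu hh, ← lintegral_add_right _
        (measurable_const.indicator (hK.image (shadowP u).continuous).measurableSet)]
    refine lintegral_mono fun w => ?_
    rcases shadow_sec hu hK hc w with ⟨h1, h2⟩ | ⟨h1, a, b, hab, h2⟩
    · simp [h2]
    · have e2 : {t : ℝ | t • u + (w : E n) ∈ K} = Icc a b := Set.ext h2
      have e1 : Icc (a + h) b ⊆ {t : ℝ | t • u + (w : E n) ∈ K ∩ (fun x => h • u + x) '' K} := by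
        rintro t ⟨t0, t1⟩
        refine ⟨(h2 t).2 ⟨by linarith, t1⟩, _, (h2 (t - h)).2 ⟨by linarith, by linarith⟩, ?_⟩
        simp only [sub_smul]
        abel
      refine le_trans ?_ (add_le_add_left (measure_mono e1) _)
      rw [e2, indicator_of_mem h1, Real.volume_Icc, Real.volume_Icc]
      refine le_trans (le_of_eq ?_) ENNReal.ofReal_add_le
      congr 1
      ring
  have := ENNReal.toReal_mono
    (ENNReal.add_ne_top.2 ⟨hc2.measure_lt_top.ne, ENNReal.ofReal_ne_top⟩) key
  rw [ENNReal.toReal_add hc2.measure_lt_top.ne ENNReal.ofReal_ne_top,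
    ENNReal.toReal_ofReal (mul_nonneg hh (shadow_nonneg K u))] at this
  linarith

theorem mem_piBody {K : Set (E n)} {x : E n} :
    x ∈ PiBody K ↔ ∀ u : E n, ‖u‖ = 1 → inner ℝ x u ≤ shadow K u := by
  simp [PiBody]

theorem piBody_translate (K : Set (E n)) (a : E n) :
    PiBody ((fun x => a + x) '' K) = PiBody K := by
  simp only [PiBody, shadow_translate]

theorem piBody_neg {K : Set (E n)} {x : E n} (hx : x ∈ PiBody K) : -x ∈ PiBody K := by
  refine mem_piBody.2 fun u hu => ?_
  have := mem_piBody.1 hx (-u) (by rw [norm_neg, hu])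
  rwa [shadow_neg, inner_neg_right, ← inner_neg_left] at this

theorem convex_piBody (K : Set (E n)) : Convex ℝ (PiBody K) := by
  intro x hx y hy a b ha hb hab
  refine mem_piBody.2 fun u hu => ?_
  have h1 := mul_le_mul_of_nonneg_left (mem_piBody.1 hx u hu) ha
  have h2 := mul_le_mul_of_nonneg_left (mem_piBody.1 hy u hu) hb
  rw [inner_add_left, real_inner_smul_left, real_inner_smul_left]
  calc _ ≤ a * shadow K u + b * shadow K u := add_le_add h1 h2
    _ = shadow K u := by rw [← add_mul, hab, one_mul]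

theorem shadow_unit {x : E n} (hx : x ≠ 0) : ‖‖x‖⁻¹ • x‖ = 1 := by
  rw [norm_smul, norm_inv, norm_norm, inv_mul_cancel₀ (norm_ne_zero_iff.2 hx)]

theorem isCompact_piBody (hn : 2 ≤ n) {K : Set (E n)} (hK : IsCompact K) :
    IsCompact (PiBody K) := by
  obtain ⟨R, hR0, hR⟩ := hK.isBounded.subset_closedBall_lt 0 0
  refine (isCompact_closedBall (0 : E n) (kap (n - 1) * R ^ (n - 1))).of_isClosed_subset
    (isClosed_biInter fun u _ => isClosed_le (by fun_prop) continuous_const) fun x hx => ?_
  rw [mem_closedBall_zero_iff]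
  by_cases h0 : x = 0
  · rw [h0, norm_zero]
    exact mul_nonneg (kap_pos _).le (pow_nonneg hR0.le _)
  · have h1 := (mem_piBody.1 hx _ (shadow_unit h0)).trans
      (shadow_mono hn (isCompact_closedBall 0 R) hR (shadow_unit h0))
    rwa [shadow_closedBall hn _ hR0.le (shadow_unit h0), real_inner_smul_right,
      real_inner_self_eq_norm_mul_norm, inv_mul_cancel_left₀ (norm_ne_zero_iff.2 h0)] at h1

theorem zero_mem_interior_piBody (hn : 2 ≤ n) {K : Set (E n)} (hK : IsCompact K)
    (hi : (interior K).Nonempty) : (0 : E n) ∈ interior (PiBody K) := by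
  obtain ⟨a, ha⟩ := hi
  obtain ⟨r, hr, hb⟩ := Metric.nhds_basis_closedBall.mem_iff.1 (mem_interior_iff_mem_nhds.1 ha)
  rw [mem_interior_iff_mem_nhds]
  refine Filter.mem_of_superset
    (Metric.closedBall_mem_nhds 0 (mul_pos (kap_pos (n - 1)) (pow_pos hr (n - 1)))) fun x hx => ?_
  refine mem_piBody.2 fun u hu => le_trans ?_ (shadow_mono hn hK hb hu)
  rw [shadow_closedBall hn _ hr.le hu]
  have := real_inner_le_norm x u
  rw [hu, mul_one] at this
  exact this.trans (mem_closedBall_zero_iff.1 hx)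

theorem shadow_det_adjoint (T : E n →ₗ[ℝ] E n) :
    LinearMap.det (LinearMap.adjoint T) = LinearMap.det T := by
  rw [← LinearMap.det_toMatrix (EuclideanSpace.basisFun (Fin n) ℝ).toBasis,
    LinearMap.toMatrix_adjoint, Matrix.det_conjTranspose, LinearMap.det_toMatrix, star_trivial]

theorem shadow_ellipsoid (hn : 2 ≤ n) (T : E n ≃ₗ[ℝ] E n) {u : E n} (hu : ‖u‖ = 1) :
    shadow (T '' Metric.closedBall (0 : E n) 1) u =
      |LinearMap.det (T : E n →ₗ[ℝ] E n)| * kap (n - 1) * ‖T.symm u‖ := by
  have hv : T.symm u ≠ 0 := by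
    rw [Ne, T.symm.map_eq_zero_iff]
    rintro rfl
    simp at hu
  have hc : IsCompact (T '' Metric.closedBall (0 : E n) 1) :=
    (isCompact_closedBall _ _).image T.toContinuousLinearEquiv.continuous
  have h1 := volume_add_segment hn hc ((convex_closedBall _ _).linear_image T.toLinearMap) hu
    zero_le_one
  have h2 := volume_add_segment hn (isCompact_closedBall (0 : E n) 1) (convex_closedBall _ _)
    (shadow_unit hv) (norm_nonneg (T.symm u))
  rw [smul_inv_smul₀ (norm_ne_zero_iff.2 hv), shadow_closedBall hn _ zero_le_one (shadow_unit hv),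
    one_pow, mul_one] at h2
  have h3 : T '' (Metric.closedBall (0 : E n) 1 + segment ℝ 0 (T.symm u)) =
      T '' Metric.closedBall (0 : E n) 1 + segment ℝ 0 ((1 : ℝ) • u) := by
    rw [Set.image_add]
    congr 1
    simpa using image_segment ℝ T.toLinearMap.toAffineMap 0 (T.symm u)
  have h4 := Measure.addHaar_image_linearMap volume T.toLinearMap
    (Metric.closedBall (0 : E n) 1 + segment ℝ 0 (T.symm u))
  have h5 := Measure.addHaar_image_linearMap volume T.toLinearMap (Metric.closedBall (0 : E n) 1)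
  rw [LinearEquiv.coe_coe] at h4 h5
  rw [h3, h1, h2, mul_add, ← h5, ENNReal.add_right_inj hc.measure_lt_top.ne,
    ← ENNReal.ofReal_mul (abs_nonneg _), ENNReal.ofReal_eq_ofReal_iff
      (mul_nonneg zero_le_one (shadow_nonneg _ _))
      (mul_nonneg (abs_nonneg _) (mul_nonneg (norm_nonneg _) (kap_pos _).le))] at h4
  linarith

theorem shadow_piBody_ellipsoid (hn : 2 ≤ n) (T : E n ≃ₗ[ℝ] E n) :
    PiBody (T '' Metric.closedBall (0 : E n) 1) = LinearMap.adjoint (T : E n →ₗ[ℝ] E n) ⁻¹'
      Metric.closedBall 0 (|LinearMap.det (T : E n →ₗ[ℝ] E n)| * kap (n - 1)) := by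
  ext x
  have hc : 0 ≤ |LinearMap.det (T : E n →ₗ[ℝ] E n)| * kap (n - 1) :=
    mul_nonneg (abs_nonneg _) (kap_pos _).le
  rw [mem_piBody, mem_preimage, mem_closedBall_zero_iff]
  set y := LinearMap.adjoint (T : E n →ₗ[ℝ] E n) x with hy
  have hin : ∀ u, inner ℝ x u = inner ℝ y (T.symm u) := fun u => by
    rw [hy, LinearMap.adjoint_inner_left, LinearEquiv.coe_coe, T.apply_symm_apply]
  constructor
  · intro h
    by_cases h0 : y = 0
    · rwa [h0, norm_zero]
    have h1 : T y ≠ 0 := T.map_ne_zero_iff.2 h0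
    have h2 := h _ (shadow_unit h1)
    rw [shadow_ellipsoid hn T (shadow_unit h1), hin, map_smul, T.symm_apply_apply,
      real_inner_smul_right, real_inner_self_eq_norm_mul_norm, norm_smul, norm_inv, norm_norm,
      ← mul_assoc, mul_comm] at h2
    exact le_of_mul_le_mul_right h2
      (mul_pos (inv_pos.2 (norm_pos_iff.2 h1)) (norm_pos_iff.2 h0))
  · intro h u hu
    rw [shadow_ellipsoid hn T hu, hin]
    exact (real_inner_le_norm _ _).trans (mul_le_mul_of_nonneg_right h (norm_nonneg _))

/-- Equality in Petty's inequality for ellipsoids.  (`volume_add_segment` for `K` and for the unit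
ball give `shadow K u = |det T| κ_{n-1} ‖T⁻¹ u‖`, so `PiBody K` is the preimage of the ball of radius
`|det T| κ_{n-1}` under the adjoint of `T`.) -/
theorem ellipsoid_eq (hn : 2 ≤ n) (a : E n) (T : E n ≃ₗ[ℝ] E n) :
    volume (Metric.ball (0 : E (n - 1)) 1) ^ n *
        volume ((fun x => a + T x) '' Metric.closedBall (0 : E n) 1) ^ (n - 1) =
      volume (PiBody ((fun x => a + T x) '' Metric.closedBall (0 : E n) 1)) *
        volume (Metric.ball (0 : E n) 1) ^ (n - 2) := by
  obtain ⟨m, rfl⟩ := Nat.exists_eq_add_of_le' hn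
  have e : (fun x => a + T x) '' Metric.closedBall (0 : E (m + 2)) 1 =
      (fun x => a + x) '' (T '' Metric.closedBall (0 : E (m + 2)) 1) := by
    rw [image_image]
  have hd : LinearMap.det (T : E (m + 2) →ₗ[ℝ] E (m + 2)) ≠ 0 := T.isUnit_det'.ne_zero
  have hD := abs_pos.2 hd
  have h5 := Measure.addHaar_image_linearMap volume T.toLinearMap
    (Metric.closedBall (0 : E (m + 2)) 1)
  rw [LinearEquiv.coe_coe] at h5
  have k1 := kap_pos (m + 1)
  have k2 := kap_pos (m + 2)
  rw [e, piBody_translate, shadow_piBody_ellipsoid hn, image_add_left, measure_preimage_add, h5,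
    Measure.addHaar_preimage_linearMap _ (by rwa [shadow_det_adjoint]), shadow_det_adjoint,
    abs_inv, volume_closedBall_eq _ zero_le_one,
    volume_closedBall_eq _ (mul_nonneg hD.le (kap_pos _).le), volume_ball_eq, volume_ball_eq]
  simp only [show m + 2 - 1 = m + 1 from rfl, show m + 2 - 2 = m from rfl]
  rw [← ENNReal.ofReal_mul hD.le, ← ENNReal.ofReal_mul (by positivity),
    ← ENNReal.ofReal_pow k1.le, ← ENNReal.ofReal_pow k2.le, ← ENNReal.ofReal_pow (by positivity),
    ← ENNReal.ofReal_mul (by positivity), ← ENNReal.ofReal_mul (by positivity)]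
  congr 1
  field_simp
  ring

end Crest.Agent.R230
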