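import Crest.Agent.R230.Grad
import Crest.Agent.R230.Shadow
import Crest.Agent.Lib.PL.PrekopaLeindler

/-! # Row 230: Brunn–Minkowski, Minkowski's first inequality, Cauchy's bound -/

set_option autoImplicit false
open MeasureTheory Set
open scoped ENNReal Pointwise

namespace Crest.Agent.R230
variable {n : ℕ}

theorem mink_root_pow [NeZero n] {x : ℝ} (hx : 0 ≤ x) : (x ^ (1 / (n : ℝ))) ^ n = x := by
  rw [one_div]; exact Real.rpow_inv_natCast_pow hx (NeZero.ne n)

theorem mink_pow_root [NeZero n] {x : ℝ} (hx : 0 ≤ x) : (x ^ n) ^ (1 / (n : ℝ)) = x := by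
  rw [one_div]; exact Real.pow_rpow_inv_natCast hx (NeZero.ne n)

theorem mink_root_mono {x y : ℝ} (hx : 0 ≤ x) (h : x ≤ y) :
    x ^ (1 / (n : ℝ)) ≤ y ^ (1 / (n : ℝ)) := Real.rpow_le_rpow hx h (by positivity)

theorem mink_root_smul [NeZero n] (A : Set (E n)) {r : ℝ} (hr : 0 ≤ r) :
    (volume (r • A)).toReal ^ (1 / (n : ℝ)) = r * (volume A).toReal ^ (1 / (n : ℝ)) := by
  rw [Measure.addHaar_smul_of_nonneg _ hr, finrank_euclideanSpace_fin, ENNReal.toReal_mul,
    ENNReal.toReal_ofReal (pow_nonneg hr n), Real.mul_rpow (pow_nonneg hr n) ENNReal.toReal_nonneg,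
    mink_pow_root hr]

theorem mink_le_add {A B : Set (E n)} (hA : IsCompact A) (hB : IsCompact B) (hAn : A.Nonempty) :
    (volume B).toReal ≤ (volume (A + B)).toReal := by
  obtain ⟨a, ha⟩ := hAn
  refine ENNReal.toReal_mono (hA.add hB).measure_lt_top.ne ?_
  rw [← measure_preimage_add volume (-a) B]
  refine measure_mono fun x hx => ⟨a, ha, -a + x, hx, by simp⟩

/-- Additive Brunn–Minkowski inequality. -/
theorem bm_add [NeZero n] {A B : Set (E n)} (hA : IsCompact A) (hB : IsCompact B)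
    (hAn : A.Nonempty) (hBn : B.Nonempty) :
    (volume A).toReal ^ (1 / (n : ℝ)) + (volume B).toReal ^ (1 / (n : ℝ)) ≤
      (volume (A + B)).toReal ^ (1 / (n : ℝ)) := by
  set a := (volume A).toReal ^ (1 / (n : ℝ)) with ha
  set b := (volume B).toReal ^ (1 / (n : ℝ)) with hb
  have ha0 : 0 ≤ a := by positivity
  have hb0 : 0 ≤ b := by positivity
  rcases ha0.eq_or_lt with ha1 | ha1
  · rw [← ha1, zero_add]
    exact mink_root_mono ENNReal.toReal_nonneg (mink_le_add hA hB hAn)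
  rcases hb0.eq_or_lt with hb1 | hb1
  · rw [← hb1, add_zero, add_comm A B]
    exact mink_root_mono ENNReal.toReal_nonneg (mink_le_add hB hA hBn)
  have hab : 0 < a + b := by linarith
  have hs : 0 < a / (a + b) := by positivity
  have ht : 0 < b / (a + b) := by positivity
  have key := Crest.Agent.Lib.PL.brunn_minkowski_mul hs ht (by field_simp)
    (A := (a / (a + b))⁻¹ • A) (B := (b / (a + b))⁻¹ • B) (C := A + B)
    (hA.smul _).measurableSet (hB.smul _).measurableSet (hA.add hB).measurableSet (by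
      rintro _ ⟨x, hx, rfl⟩ _ ⟨y, hy, rfl⟩
      simp only [smul_smul, mul_inv_cancel₀ hs.ne', mul_inv_cancel₀ ht.ne', one_smul]
      exact add_mem_add hx hy)
  have hvol : ∀ {S : Set (E n)}, IsCompact S → ∀ {c : ℝ}, 0 < c →
      c = (volume S).toReal ^ (1 / (n : ℝ)) →
      volume ((c / (a + b))⁻¹ • S) = ENNReal.ofReal ((a + b) ^ n) := by
    intro S hS c hc e
    have e2 : (volume S).toReal = c ^ n := by rw [e, mink_root_pow ENNReal.toReal_nonneg]
    rw [Measure.addHaar_smul_of_nonneg _ (by positivity), finrank_euclideanSpace_fin,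
      ← ENNReal.ofReal_toReal hS.measure_lt_top.ne, e2, ← ENNReal.ofReal_mul (by positivity),
      ← mul_pow]
    congr 2
    field_simp
  rw [hvol hA ha1 ha, hvol hB hb1 hb, ← ENNReal.rpow_add_of_nonneg _ _ hs.le ht.le,
    show a / (a + b) + b / (a + b) = 1 by field_simp, ENNReal.rpow_one] at key
  have key2 := ENNReal.toReal_mono (hA.add hB).measure_lt_top.ne key
  rw [ENNReal.toReal_ofReal (by positivity)] at key2
  have := mink_root_mono (n := n) (by positivity) key2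
  rwa [mink_pow_root hab.le] at this

theorem mink_bound {γ : E n → ℝ} (hγ : GaugeFn γ) {G : E n → ℝ} (hG : Continuous G) :
    ∃ C : ℝ, 0 < C ∧ ∀ b, |G (gradient γ b)| ≤ C := by
  obtain ⟨C, -, hC, -⟩ := hγ.hl.exists_bound
  obtain ⟨C', hC'⟩ := (isCompact_closedBall (0 : E n) C).exists_bound_of_continuousOn
    hG.continuousOn
  exact ⟨max C' 1, by positivity, fun b =>
    (hC' _ (by simpa using hC b)).trans (le_max_left _ _)⟩

theorem mink_integrable {γ : E n → ℝ} (hγ : GaugeFn γ) {G : E n → ℝ} (hG : Continuous G) :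
    Integrable (fun b => (γ b)⁻¹ ^ n * G (gradient γ b)) (σ n) := by
  obtain ⟨C, -, hC⟩ := mink_bound hγ hG
  exact (hγ.integrable_inv_pow n).mul_bdd
    (hG.measurable.comp (measurable_grad γ)).aestronglyMeasurable (Filter.Eventually.of_forall hC)

theorem mink_star [NeZero n] {γ : E n → ℝ} (hγ : GaugeFn γ) {F : E n → ℝ} (hF : Continuous F)
    (hF0 : ∀ ν, 0 ≤ F ν) {S : Set (E n)}
    (hS : ∀ x ∈ S, DifferentiableAt ℝ γ x → γ x ≤ F (gradient γ x)) :
    volume S ≤ ENNReal.ofReal (kap n * ∫ b, (γ b)⁻¹ ^ n * F (gradient γ b) ^ n ∂(σ n)) := by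
  have hρ0 : ∀ b, 0 ≤ (γ b)⁻¹ * F (gradient γ b) := fun b =>
    mul_nonneg (inv_nonneg.mpr (hγ.nonneg b)) (hF0 _)
  have hstar := volume_star (ρ := fun b => (γ b)⁻¹ * F (gradient γ b))
    (hγ.hl.continuous.measurable.inv.mul (hF.measurable.comp (measurable_grad γ))) hρ0
  rw [ENNReal.ofReal_mul (kap_pos n).le, ofReal_integral_eq_lintegral_ofReal
    (mink_integrable hγ (G := fun ν => F ν ^ n) (hF.pow n)) (Filter.Eventually.of_forall fun b => by
      simpa only [← mul_pow, Pi.zero_apply] using pow_nonneg (hρ0 b) n)]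
  simp only [← mul_pow]
  rw [← hstar]
  obtain ⟨C, hC⟩ := hγ.hl.lip
  refine measure_mono_ae ?_
  filter_upwards [hC.ae_differentiableAt (μ := volume)] with x hx hxS
  show ‖x‖ ≤ _
  rcases eq_or_ne x 0 with rfl | hx0
  · rw [norm_zero]; exact hρ0 _
  · have hn : 0 < ‖x‖ := norm_pos_iff.mpr hx0
    have hp := hγ.pos x hx0
    rw [hγ.hl.grad_smul (inv_pos.mpr hn), hγ.hom _ _ (inv_pos.mpr hn).le, mul_inv, inv_inv,
      mul_assoc, inv_mul_eq_div]
    exact le_mul_of_one_le_right hn.le ((one_le_div hp).mpr (hS x hxS hx))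

/-- At a point `x = k + ε l` of differentiability, `γ x = ⟪∇γ x, x⟫ ≤ 1 + ε g (∇γ x)`. -/
theorem first_variation [NeZero n] {γ : E n → ℝ} (hγ : GaugeFn γ) {L : Set (E n)} {g : E n → ℝ}
    (hg : Continuous g) (hg0 : ∀ ν, 0 ≤ g ν) (hL : ∀ y ∈ L, ∀ ν, inner ℝ y ν ≤ g ν) {ε : ℝ}
    (hε : 0 ≤ ε) :
    volume ({x | γ x ≤ 1} + ε • L) ≤
      ENNReal.ofReal (kap n * ∫ b, (γ b)⁻¹ ^ n * (1 + ε * g (gradient γ b)) ^ n ∂(σ n)) := by
  refine mink_star hγ (F := fun ν => 1 + ε * g ν) (by fun_prop)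
    (fun ν => by have := hg0 ν; positivity) ?_
  rintro x ⟨k, hk, _, ⟨l, hl, rfl⟩, hx⟩ hd
  have h1 := hγ.inner_grad_le x k
  have h2 := hL l hl (gradient γ x)
  have h3 := hγ.hl.euler hd
  have h4 : inner ℝ (gradient γ x) x = inner ℝ (gradient γ x) k + ε * inner ℝ l (gradient γ x) := by
    conv_lhs => enter [3]; rw [← show k + ε • l = x from hx]
    rw [inner_add_right, inner_smul_right, real_inner_comm l]
  have h5 : γ k ≤ 1 := hk
  have := mul_le_mul_of_nonneg_left h2 hε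
  show γ x ≤ 1 + ε * g (gradient γ x)
  linarith

theorem mink_one_sub_pow {x : ℝ} (h0 : 0 ≤ x) (h1 : x ≤ 1) (m : ℕ) :
    (1 - x) ^ m ≤ 1 - m * x + (m : ℝ) ^ 2 * x ^ 2 := by
  induction m with
  | zero => simp
  | succ m ih =>
    rw [pow_succ]
    refine (mul_le_mul_of_nonneg_right ih (by linarith)).trans ?_
    push_cast
    have hm : (0 : ℝ) ≤ m := Nat.cast_nonneg m
    nlinarith [mul_nonneg (sq_nonneg (m : ℝ)) (pow_nonneg h0 3), mul_nonneg hm (sq_nonneg x),
      sq_nonneg x]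

theorem mink_one_add_pow {x : ℝ} (h0 : 0 ≤ x) (h1 : x ≤ 1) (m : ℕ) :
    (1 + x) ^ m ≤ 1 + m * x + 3 ^ m * x ^ 2 := by
  induction m with
  | zero => simp; positivity
  | succ m ih =>
    rw [pow_succ]
    refine (mul_le_mul_of_nonneg_right ih (by linarith)).trans ?_
    push_cast
    have hm : (m : ℝ) ≤ 3 ^ m := by exact_mod_cast (Nat.lt_pow_self (by norm_num)).le
    have h3 : (0 : ℝ) ≤ 3 ^ m := by positivity
    have h4 : x ^ 2 * x ≤ x ^ 2 := mul_le_of_le_one_right (sq_nonneg x) h1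
    rw [pow_succ (3 : ℝ)]
    nlinarith [mul_le_mul_of_nonneg_left h4 h3, mul_le_mul_of_nonneg_right hm (sq_nonneg x)]

theorem mink_le_of_small {x y C s₀ : ℝ} (hs₀ : 0 < s₀)
    (h : ∀ s, 0 < s → s ≤ s₀ → s * x ≤ s * y + C * s ^ 2) : x ≤ y := by
  refine le_of_forall_pos_le_add fun δ hδ => ?_
  have hC : 0 < |C| + 1 := by positivity
  have hs : 0 < min s₀ (δ / (|C| + 1)) := by positivity
  have h1 := h _ hs (min_le_left _ _)
  have h2 : min s₀ (δ / (|C| + 1)) * (|C| + 1) ≤ δ := (le_div_iff₀ hC).mp (min_le_right _ _)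
  set s := min s₀ (δ / (|C| + 1))
  have h3 : C * s ≤ δ := by nlinarith [le_abs_self C]
  refine le_of_mul_le_mul_left ?_ hs
  nlinarith

theorem mink_vol [NeZero n] {γ : E n → ℝ} (hγ : GaugeFn γ) :
    (volume {x | γ x ≤ 1}).toReal = kap n * ∫ b, (γ b)⁻¹ ^ n ∂(σ n) := by
  rw [hγ.volume_eq, ENNReal.toReal_ofReal
    (mul_pos (kap_pos n) (hγ.integral_inv_pow_pos n)).le]

theorem mink_inter [NeZero n] (hn : 2 ≤ n) {γ : E n → ℝ} (hγ : GaugeFn γ) {u : E n} (hu : ‖u‖ = 1)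
    {h : ℝ} (hh : 0 ≤ h) :
    (volume {x | γ x ≤ 1}).toReal - h * shadow {x | γ x ≤ 1} u ≤
      kap n * ∫ b, (γ b)⁻¹ ^ n * (min 1 (max 0 (1 + h * inner ℝ (gradient γ b) u))) ^ n ∂(σ n) := by
  refine (volume_inter_ge hn hγ.isCompact hγ.convex hu hh).trans ?_
  have hF0 : ∀ ν : E n, 0 ≤ min 1 (max 0 (1 + h * inner ℝ ν u)) := fun ν =>
    le_min zero_le_one (le_max_left _ _)
  refine ENNReal.toReal_le_of_le_ofReal (mul_nonneg (kap_pos n).le (integral_nonneg fun b =>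
    mul_nonneg (pow_nonneg (inv_nonneg.mpr (hγ.nonneg b)) n) (pow_nonneg (hF0 _) n))) ?_
  refine mink_star hγ (F := fun ν => min 1 (max 0 (1 + h * inner ℝ ν u))) (by fun_prop) hF0 ?_
  rintro x ⟨hx1, k, hk, hx⟩ hd
  refine le_min hx1 (le_max_of_le_right ?_)
  have h1 := hγ.inner_grad_le x k
  have h3 := hγ.hl.euler hd
  have h4 : inner ℝ (gradient γ x) x = h * inner ℝ (gradient γ x) u + inner ℝ (gradient γ x) k := by
    conv_lhs => enter [3]; rw [← show h • u + k = x from hx]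
    rw [inner_add_right, inner_smul_right]
  have h5 : γ k ≤ 1 := hk
  linarith

/-- Cauchy's projection formula (the inequality we need).  Use `volume_inter_ge` for `u` and `-u` and
`K ∩ (h u + K) ⊆ {x | γ x ≤ min 1 (1 + h ⟪∇γ x, u⟫)}` up to a null set. -/
theorem cauchy_le (hn : 2 ≤ n) {γ : E n → ℝ} (hγ : GaugeFn γ) {u : E n} (hu : ‖u‖ = 1) :
    n * kap n * ∫ b, (γ b)⁻¹ ^ n * |inner ℝ (gradient γ b) u| ∂(σ n) ≤
      2 * shadow {x | γ x ≤ 1} u := by
  have : NeZero n := ⟨by omega⟩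
  obtain ⟨C, hC, hb⟩ := mink_bound hγ (G := fun ν => inner ℝ ν u) (by fun_prop)
  refine mink_le_of_small (s₀ := 1 / C) (C := n ^ 2 * C ^ 2 * (volume {x | γ x ≤ 1}).toReal)
    (by positivity) fun h hh hhC => ?_
  have h1 := mink_inter hn hγ hu hh.le
  have h2 := mink_inter hn hγ (u := -u) (by simpa using hu) hh.le
  rw [shadow_neg] at h2
  have i1 := mink_integrable hγ (G := fun ν => (min 1 (max 0 (1 + h * inner ℝ ν u))) ^ n)
    (by fun_prop)
  have i2 := mink_integrable hγ (G := fun ν => (min 1 (max 0 (1 + h * inner ℝ ν (-u)))) ^ n)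
    (by fun_prop)
  have i3 := mink_integrable hγ (G := fun ν => |inner ℝ ν u|) (by fun_prop)
  have i4 := hγ.integrable_inv_pow n
  have h3 : ∫ b, (γ b)⁻¹ ^ n * (min 1 (max 0 (1 + h * inner ℝ (gradient γ b) u))) ^ n ∂(σ n) +
      ∫ b, (γ b)⁻¹ ^ n * (min 1 (max 0 (1 + h * inner ℝ (gradient γ b) (-u)))) ^ n ∂(σ n) ≤
      (2 + n ^ 2 * C ^ 2 * h ^ 2) * ∫ b, (γ b)⁻¹ ^ n ∂(σ n) -
        n * h * ∫ b, (γ b)⁻¹ ^ n * |inner ℝ (gradient γ b) u| ∂(σ n) := by
    rw [← integral_add i1 i2, ← integral_const_mul, ← integral_const_mul,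
      ← integral_sub (i4.const_mul _) (i3.const_mul _)]
    refine integral_mono (i1.add i2) ((i4.const_mul _).sub (i3.const_mul _)) fun b => ?_
    have hw : 0 ≤ (γ b)⁻¹ ^ n := pow_nonneg (inv_nonneg.mpr (hγ.nonneg b)) n
    have hd := hb b
    simp only [inner_neg_right]
    generalize inner ℝ (gradient γ b) u = d at hd ⊢
    have hx1 : h * |d| ≤ 1 := by
      rw [le_div_iff₀ hC] at hhC
      nlinarith
    have hx0 : 0 ≤ h * |d| := by positivity
    have key : (min 1 (max 0 (1 + h * d))) ^ n + (min 1 (max 0 (1 + h * -d))) ^ n =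
        1 + (1 - h * |d|) ^ n := by
      rcases le_total 0 d with hd0 | hd0
      · rw [abs_of_nonneg hd0] at *
        rw [max_eq_right (by linarith), min_eq_left (by linarith), max_eq_right (by linarith),
          min_eq_right (by linarith)]
        simp [sub_eq_add_neg]
      · rw [abs_of_nonpos hd0] at *
        rw [max_eq_right (by linarith), min_eq_right (by linarith), max_eq_right (by linarith),
          min_eq_left (by linarith), add_comm]
        simp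
    have h5 := mink_one_sub_pow hx0 hx1 n
    have h6 : (h * |d|) ^ 2 ≤ C ^ 2 * h ^ 2 := by
      rw [mul_pow, mul_comm]
      gcongr
    have h7 := mul_le_mul_of_nonneg_left h6 (sq_nonneg (n : ℝ))
    rw [← mul_add, key]
    have h8 : 1 + (1 - h * |d|) ^ n ≤ 2 + n ^ 2 * C ^ 2 * h ^ 2 - n * h * |d| := by linarith
    have := mul_le_mul_of_nonneg_left h8 hw
    linarith
  have h4 := mul_le_mul_of_nonneg_left h3 (kap_pos n).le
  rw [mink_vol hγ] at *
  linarith

theorem mink_expand [NeZero n] {γ : E n → ℝ} (hγ : GaugeFn γ) {L : Set (E n)} {g : E n → ℝ}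
    (hg : Continuous g) (hg0 : ∀ ν, 0 ≤ g ν) (hL : ∀ y ∈ L, ∀ ν, inner ℝ y ν ≤ g ν) :
    ∃ C ε₀ : ℝ, 0 < ε₀ ∧ ∀ ε, 0 ≤ ε → ε ≤ ε₀ → (volume ({x | γ x ≤ 1} + ε • L)).toReal ≤
      (volume {x | γ x ≤ 1}).toReal +
        n * ε * (kap n * ∫ b, (γ b)⁻¹ ^ n * g (gradient γ b) ∂(σ n)) + C * ε ^ 2 := by
  obtain ⟨C, hC, hb⟩ := mink_bound hγ hg
  refine ⟨3 ^ n * C ^ 2 * (volume {x | γ x ≤ 1}).toReal, 1 / C, by positivity,
    fun ε hε hεC => ?_⟩
  have hw : ∀ b, 0 ≤ (γ b)⁻¹ ^ n := fun b => pow_nonneg (inv_nonneg.mpr (hγ.nonneg b)) n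
  have h1 := ENNReal.toReal_le_of_le_ofReal (mul_nonneg (kap_pos n).le (integral_nonneg fun b =>
    mul_nonneg (hw b) (pow_nonneg (by have := hg0 (gradient γ b); positivity) n)))
    (first_variation hγ hg hg0 hL hε)
  have i1 := mink_integrable hγ (G := fun ν => (1 + ε * g ν) ^ n) (by fun_prop)
  have i3 := mink_integrable hγ hg
  have i4 := hγ.integrable_inv_pow n
  have h3 : ∫ b, (γ b)⁻¹ ^ n * (1 + ε * g (gradient γ b)) ^ n ∂(σ n) ≤
      (1 + 3 ^ n * C ^ 2 * ε ^ 2) * ∫ b, (γ b)⁻¹ ^ n ∂(σ n) +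
        n * ε * ∫ b, (γ b)⁻¹ ^ n * g (gradient γ b) ∂(σ n) := by
    rw [← integral_const_mul, ← integral_const_mul,
      ← integral_add (i4.const_mul _) (i3.const_mul _)]
    refine integral_mono i1 ((i4.const_mul _).add (i3.const_mul _)) fun b => ?_
    have hd := hb b
    have hd0 := hg0 (gradient γ b)
    rw [abs_of_nonneg hd0] at hd
    beta_reduce
    generalize g (gradient γ b) = d at hd hd0 ⊢
    have hx1 : ε * d ≤ 1 := by
      rw [le_div_iff₀ hC] at hεC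
      nlinarith
    have h5 := mink_one_add_pow (mul_nonneg hε hd0) hx1 n
    have h6 : (ε * d) ^ 2 ≤ C ^ 2 * ε ^ 2 := by
      rw [mul_pow, mul_comm]
      gcongr
    have h7 := mul_le_mul_of_nonneg_left h6 (show (0 : ℝ) ≤ 3 ^ n by positivity)
    have h8 : (1 + ε * d) ^ n ≤ 1 + 3 ^ n * C ^ 2 * ε ^ 2 + n * ε * d := by linarith
    have := mul_le_mul_of_nonneg_left h8 (hw b)
    linarith
  have h4 := mul_le_mul_of_nonneg_left h3 (kap_pos n).le
  rw [mink_vol hγ] at *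
  linarith

theorem mink_slope [NeZero n] {a δ c C s₀ : ℝ} (ha : 0 ≤ a) (hδ : 0 ≤ δ) (hs₀ : 0 < s₀)
    (h : ∀ s, 0 < s → s ≤ s₀ → (a + s * δ) ^ n ≤ a ^ n + n * s * c + C * s ^ 2) :
    a ^ (n - 1) * δ ≤ c := by
  have hn : (0 : ℝ) < n := by exact_mod_cast Nat.pos_of_ne_zero (NeZero.ne n)
  refine le_of_mul_le_mul_left (mink_le_of_small (C := C) hs₀ fun s hs hs' => ?_) hn
  have h1 := pow_add_mul_le_add_pow ha (show 0 ≤ 2 * a + s * δ by positivity) n
  have := h s hs hs'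
  linarith

theorem mink_pow_pred [NeZero n] {V W : ℝ} (hV : 0 ≤ V) (hW : 0 ≤ W) :
    ((V ^ (1 / (n : ℝ))) ^ (n - 1) * W ^ (1 / (n : ℝ))) ^ n = V ^ (n - 1) * W := by
  rw [mul_pow, ← pow_mul, mul_comm (n - 1), pow_mul, mink_root_pow hV, mink_root_pow hW]

theorem mink_nonempty {γ : E n → ℝ} (hγ : GaugeFn γ) : {x | γ x ≤ 1}.Nonempty := by
  refine ⟨0, ?_⟩
  have := hγ.hom 0 0 le_rfl
  simp only [zero_smul, zero_mul] at this
  simp [this]

/-- Minkowski's first inequality. -/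
theorem minkowski [NeZero n] {γ : E n → ℝ} (hγ : GaugeFn γ) {L : Set (E n)} (hLc : IsCompact L)
    (hLn : L.Nonempty) {g : E n → ℝ} (hg : Continuous g) (hg0 : ∀ ν, 0 ≤ g ν)
    (hL : ∀ y ∈ L, ∀ ν, inner ℝ y ν ≤ g ν) :
    (volume {x | γ x ≤ 1}).toReal ^ (n - 1) * (volume L).toReal ≤
      (kap n * ∫ b, (γ b)⁻¹ ^ n * g (gradient γ b) ∂(σ n)) ^ n := by
  obtain ⟨C, ε₀, hε₀, hexp⟩ := mink_expand hγ hg hg0 hL
  rw [← mink_pow_pred ENNReal.toReal_nonneg ENNReal.toReal_nonneg]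
  refine pow_le_pow_left₀ (by positivity) (mink_slope (C := C) (by positivity) (by positivity) hε₀
    fun s hs hs' => ?_) n
  have h1 := bm_add hγ.isCompact (hLc.smul s) (mink_nonempty hγ) hLn.smul_set
  rw [mink_root_smul L hs.le] at h1
  have h2 := pow_le_pow_left₀ (by positivity) h1 n
  rw [mink_root_pow ENNReal.toReal_nonneg] at h2 ⊢
  exact h2.trans (hexp s hs.le hs')

/-- Equality in Minkowski's inequality gives equality in Brunn–Minkowski for every `ε`
(concavity of `ε ↦ vol (K + ε L)^{1/n}`). -/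
theorem minkowski_eq [NeZero n] {γ : E n → ℝ} (hγ : GaugeFn γ) {L : Set (E n)} (hLc : IsCompact L)
    (hLv : Convex ℝ L) (hLn : L.Nonempty) {g : E n → ℝ} (hg : Continuous g) (hg0 : ∀ ν, 0 ≤ g ν)
    (hL : ∀ y ∈ L, ∀ ν, inner ℝ y ν ≤ g ν)
    (heq : (kap n * ∫ b, (γ b)⁻¹ ^ n * g (gradient γ b) ∂(σ n)) ^ n ≤
      (volume {x | γ x ≤ 1}).toReal ^ (n - 1) * (volume L).toReal) {ε : ℝ} (hε : 0 ≤ ε) :
    (volume ({x | γ x ≤ 1} + ε • L)).toReal ^ (1 / (n : ℝ)) =
      (volume {x | γ x ≤ 1}).toReal ^ (1 / (n : ℝ)) + ε * (volume L).toReal ^ (1 / (n : ℝ)) := by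
  obtain ⟨C, ε₀, hε₀, hexp⟩ := mink_expand hγ hg hg0 hL
  have hK := hγ.isCompact
  have hKn := mink_nonempty hγ
  have h0 := bm_add hK (hLc.smul ε) hKn hLn.smul_set
  rw [mink_root_smul L hε] at h0
  refine le_antisymm ?_ h0
  set a := (volume {x | γ x ≤ 1}).toReal ^ (1 / (n : ℝ)) with ha
  set b := (volume L).toReal ^ (1 / (n : ℝ)) with hb
  set f := (volume ({x | γ x ≤ 1} + ε • L)).toReal ^ (1 / (n : ℝ)) with hf
  set I := kap n * ∫ b, (γ b)⁻¹ ^ n * g (gradient γ b) ∂(σ n) with hI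
  have ha0 : 0 < a := by
    refine Real.rpow_pos_of_pos ?_ _
    rw [mink_vol hγ]
    exact mul_pos (kap_pos n) (hγ.integral_inv_pow_pos n)
  have hb0 : 0 ≤ b := by positivity
  have hIle : I ≤ a ^ (n - 1) * b := by
    rw [← mink_pow_pred ENNReal.toReal_nonneg ENNReal.toReal_nonneg] at heq
    exact le_of_pow_le_pow_left₀ (NeZero.ne n) (by positivity) heq
  have hδ : 0 ≤ f - a := by nlinarith
  have key : a ^ (n - 1) * (f - a) ≤ ε * I := by
    refine mink_slope (C := C * ε ^ 2) (s₀ := min 1 (ε₀ / (ε + 1))) ha0.le hδ (by positivity)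
      fun s hs hs' => ?_
    have hs1 : s ≤ 1 := hs'.trans (min_le_left _ _)
    have hs2 : s * ε ≤ ε₀ := by
      have := (le_div_iff₀ (by positivity)).mp (hs'.trans (min_le_right _ _))
      nlinarith
    have hKL : IsCompact ({x | γ x ≤ 1} + ε • L) := hK.add (hLc.smul ε)
    have h1 := bm_add (hK.smul (1 - s)) (hKL.smul s) hKn.smul_set
      (hKn.add hLn.smul_set).smul_set
    rw [mink_root_smul _ hs.le, mink_root_smul _ (by linarith)] at h1
    have hsub : (1 - s) • {x | γ x ≤ 1} + s • ({x | γ x ≤ 1} + ε • L) ⊆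
        {x | γ x ≤ 1} + (s * ε) • L := by
      rintro _ ⟨_, ⟨k, hk, rfl⟩, _, ⟨_, ⟨k', hk', _, ⟨l, hl, rfl⟩, rfl⟩, rfl⟩, rfl⟩
      refine ⟨(1 - s) • k + s • k', hγ.convex hk hk' (by linarith) hs.le (by ring), (s * ε) • l,
        ⟨l, hl, rfl⟩, ?_⟩
      simp only [smul_add, smul_smul, add_assoc]
    have h2 := pow_le_pow_left₀ (by have : 0 ≤ 1 - s := by linarith
                                    positivity) h1 n
    rw [mink_root_pow ENNReal.toReal_nonneg] at h2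
    have h3 := ENNReal.toReal_mono (hK.add (hLc.smul (s * ε))).measure_lt_top.ne
      (measure_mono (μ := volume) hsub)
    have h4 := hexp (s * ε) (by positivity) hs2
    have h5 : a ^ n = (volume {x | γ x ≤ 1}).toReal := mink_root_pow ENNReal.toReal_nonneg
    have e : a + s * (f - a) = (1 - s) * a + s * f := by ring
    rw [e, h5]
    linarith
  have h6 := mul_le_mul_of_nonneg_left hIle hε
  have h7 : a ^ (n - 1) * (f - a) ≤ a ^ (n - 1) * (ε * b) := by linarith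
  have := le_of_mul_le_mul_left h7 (pow_pos ha0 _)
  linarith

end Crest.Agent.R230
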