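import Crest.Agent.R230.Core
import Crest.Agent.R230.Mink
import Crest.Agent.R230.Iso

/-! # Row 230: Petty's projection inequality, assembly -/

set_option autoImplicit false
open MeasureTheory Set
open scoped ENNReal Pointwise

namespace Crest.Agent.R230
variable {n : ℕ}

theorem main_det_adjoint (f : E n →ₗ[ℝ] E n) : LinearMap.det (LinearMap.adjoint f) = LinearMap.det f := by
  classical
  let b := EuclideanSpace.basisFun (Fin n) ℝ
  rw [← LinearMap.det_toMatrix b.toBasis, ← LinearMap.det_toMatrix b.toBasis f,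
    LinearMap.toMatrix_adjoint, Matrix.det_conjTranspose]
  simp

theorem main_meas_sign : Measurable Real.sign := by
  unfold Real.sign
  exact Measurable.ite measurableSet_Iio measurable_const
    (Measurable.ite measurableSet_Ioi measurable_const measurable_const)

theorem main_abs_sign (x : ℝ) : |Real.sign x| ≤ 1 := by
  rcases Real.sign_apply_eq x with h | h | h <;> rw [h] <;> norm_num

theorem main_sign_mul (x : ℝ) : Real.sign x * x = |x| := by
  rcases lt_trichotomy x 0 with h | h | h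
  · rw [Real.sign_of_neg h, abs_of_neg h]; ring
  · simp [h]
  · rw [Real.sign_of_pos h, abs_of_pos h]; ring

/-- A functional bounded by `v` on the projection body has Cauchy integral at most `2 v`. -/
theorem main_cauchy [NeZero n] (hn : 2 ≤ n) {γ : E n → ℝ} (hγ : GaugeFn γ) {ξ : E n} {v : ℝ}
    (hξ : ∀ y ∈ PiBody {x | γ x ≤ 1}, inner ℝ ξ y ≤ v) :
    n * kap n * ∫ b, (γ b)⁻¹ ^ n * |inner ℝ (gradient γ b) ξ| ∂(σ n) ≤ 2 * v := by
  obtain ⟨C, hC0, hC, -⟩ := hγ.hl.exists_bound
  have hI := hγ.integrable_inv_pow n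
  have hmg := measurable_grad γ
  let F : E n → E n := fun b =>
    ((γ b)⁻¹ ^ n * Real.sign (inner ℝ (gradient γ b) ξ)) • gradient γ b
  have hpos : ∀ b, 0 ≤ (γ b)⁻¹ ^ n := fun b => pow_nonneg (inv_nonneg.2 (hγ.nonneg b)) n
  have hmγ : Measurable fun b => (γ b)⁻¹ ^ n := (hγ.hl.continuous.measurable.inv).pow_const n
  have hF : Integrable F (σ n) := by
    refine Integrable.mono' (hI.mul_const C) ?_ (Filter.Eventually.of_forall fun b => ?_)
    · exact ((hmγ.mul (main_meas_sign.comp (hmg.inner_const))).smul hmg).aestronglyMeasurable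
    · simp only [F]
      rw [norm_smul, Real.norm_eq_abs, abs_mul, abs_of_nonneg (hpos b)]
      have h1 := main_abs_sign (inner ℝ (gradient γ b) ξ)
      calc (γ b)⁻¹ ^ n * |Real.sign (inner ℝ (gradient γ b) ξ)| * ‖gradient γ b‖
          ≤ (γ b)⁻¹ ^ n * 1 * C := by
            have := hpos b
            have := hC b
            gcongr
        _ = _ := by ring
  have habs : ∀ u : E n, Integrable (fun b => (γ b)⁻¹ ^ n * |inner ℝ (gradient γ b) u|) (σ n) := by
    intro u
    refine Integrable.mono' (hI.mul_const (C * ‖u‖)) ?_ (Filter.Eventually.of_forall fun b => ?_)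
    · exact (hmγ.mul (hmg.inner_const).abs).aestronglyMeasurable
    · rw [Real.norm_eq_abs, abs_mul, abs_of_nonneg (hpos b), abs_abs]
      refine mul_le_mul_of_nonneg_left ?_ (hpos b)
      exact (abs_real_inner_le_norm _ _).trans (mul_le_mul_of_nonneg_right (hC b) (norm_nonneg _))
  have hnκ : 0 < (n : ℝ) * kap n := mul_pos (by exact_mod_cast (by omega : 0 < n)) (kap_pos n)
  set y : E n := (n * kap n / 2) • ∫ b, F b ∂(σ n) with hy
  have hin : ∀ u : E n, inner ℝ u y = (n * kap n / 2) *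
      ∫ b, (γ b)⁻¹ ^ n * Real.sign (inner ℝ (gradient γ b) ξ) * inner ℝ (gradient γ b) u ∂(σ n) := by
    intro u
    rw [hy, real_inner_smul_right, ← integral_inner hF]
    congr 2
    ext b
    simp only [F]
    rw [real_inner_smul_right, real_inner_comm u]
  have hmem : y ∈ PiBody {x | γ x ≤ 1} := by
    rw [mem_piBody]
    intro u hu
    rw [real_inner_comm, hin]
    have h1 := cauchy_le hn hγ hu
    have h2 : ∫ b, (γ b)⁻¹ ^ n * Real.sign (inner ℝ (gradient γ b) ξ) * inner ℝ (gradient γ b) u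
        ∂(σ n) ≤ ∫ b, (γ b)⁻¹ ^ n * |inner ℝ (gradient γ b) u| ∂(σ n) := by
      refine (le_abs_self _).trans (abs_integral_le_integral_abs.trans ?_)
      refine integral_mono_of_nonneg (Filter.Eventually.of_forall fun a => abs_nonneg _)
        (habs u) (Filter.Eventually.of_forall fun b => ?_)
      show |(γ b)⁻¹ ^ n * Real.sign (inner ℝ (gradient γ b) ξ) * inner ℝ (gradient γ b) u| ≤
        (γ b)⁻¹ ^ n * |inner ℝ (gradient γ b) u|
      rw [abs_mul, abs_mul, abs_of_nonneg (hpos b)]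
      have h1 := main_abs_sign (inner ℝ (gradient γ b) ξ)
      calc (γ b)⁻¹ ^ n * |Real.sign (inner ℝ (gradient γ b) ξ)| * |inner ℝ (gradient γ b) u|
          ≤ (γ b)⁻¹ ^ n * 1 * |inner ℝ (gradient γ b) u| := by
            have := hpos b
            gcongr
        _ = _ := by ring
    nlinarith
  have h3 := hξ y hmem
  rw [hin] at h3
  have h4 : ∫ b, (γ b)⁻¹ ^ n * Real.sign (inner ℝ (gradient γ b) ξ) * inner ℝ (gradient γ b) ξ
      ∂(σ n) = ∫ b, (γ b)⁻¹ ^ n * |inner ℝ (gradient γ b) ξ| ∂(σ n) := by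
    congr 1
    ext b
    rw [mul_assoc, main_sign_mul]
  rw [h4] at h3
  linarith

/-- Fubini step. -/
theorem main_fubini [NeZero n] (hn : 2 ≤ n) {γ δ : E n → ℝ} (hγ : GaugeFn γ) (hδ : GaugeFn δ)
    (S : E n →L[ℝ] E n) {v : ℝ} (hv : ∀ y ∈ PiBody {x | γ x ≤ 1}, δ (S y) ≤ v) :
    n * kap n * ∫ b, (γ b)⁻¹ ^ n * zh δ (S (gradient γ b)) ∂(σ n) ≤ 2 * v := by
  obtain ⟨C, hC0, hC, -⟩ := hγ.hl.exists_bound
  obtain ⟨D, hD0, hD, -⟩ := hδ.hl.exists_bound
  have hI := hγ.integrable_inv_pow n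
  have hmg := measurable_grad γ
  have hmd := measurable_grad δ
  have hpos : ∀ b, 0 ≤ (γ b)⁻¹ ^ n := fun b => pow_nonneg (inv_nonneg.2 (hγ.nonneg b)) n
  have hmγ : Measurable fun b => (γ b)⁻¹ ^ n := (hγ.hl.continuous.measurable.inv).pow_const n
  have hint : Integrable (Function.uncurry fun b a : E n =>
      (γ b)⁻¹ ^ n * |inner ℝ (gradient δ a) (S (gradient γ b))|) ((σ n).prod (σ n)) := by
    have h1 : Integrable (fun p : E n × E n => (γ p.1)⁻¹ ^ n * (D * (‖S‖ * C)))
        ((σ n).prod (σ n)) := hI.mul_prod (integrable_const (D * (‖S‖ * C)))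
    refine Integrable.mono' h1 ?_ (Filter.Eventually.of_forall fun p => ?_)
    · refine Measurable.aestronglyMeasurable ?_
      exact (hmγ.comp measurable_fst).mul
        ((hmd.comp measurable_snd).inner
          (S.continuous.measurable.comp (hmg.comp measurable_fst))).abs
    · show ‖(γ p.1)⁻¹ ^ n * |inner ℝ (gradient δ p.2) (S (gradient γ p.1))|‖ ≤ _
      rw [Real.norm_eq_abs, abs_mul, abs_of_nonneg (hpos _), abs_abs]
      refine mul_le_mul_of_nonneg_left ?_ (hpos _)
      refine (abs_real_inner_le_norm _ _).trans ?_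
      refine mul_le_mul (hD _) ((S.le_opNorm _).trans ?_) (norm_nonneg _) hD0
      exact mul_le_mul_of_nonneg_left (hC _) (norm_nonneg _)
  have h1 : ∫ b, (γ b)⁻¹ ^ n * zh δ (S (gradient γ b)) ∂(σ n) =
      ∫ a, ∫ b, (γ b)⁻¹ ^ n * |inner ℝ (gradient δ a) (S (gradient γ b))| ∂(σ n) ∂(σ n) := by
    rw [← integral_integral_swap hint]
    congr 1
    ext b
    rw [zh, integral_const_mul]
  rw [h1, ← integral_const_mul]
  have h2 : ∫ _a : E n, 2 * v ∂(σ n) = 2 * v := by simp
  refine le_trans (integral_mono (hint.integral_prod_right.const_mul _) (integrable_const (2 * v))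
    fun a => ?_) h2.le
  have h3 := main_cauchy hn hγ (ξ := ContinuousLinearMap.adjoint S (gradient δ a)) (v := v)
    (fun y hy => by
      rw [ContinuousLinearMap.adjoint_inner_left]
      exact (hδ.inner_grad_le a _).trans (hv y hy))
  refine le_trans (le_of_eq ?_) h3
  congr 2
  ext b
  rw [ContinuousLinearMap.adjoint_inner_right, real_inner_comm]

/-- Petty's inequality for the unit ball of a gauge, real form. -/
theorem petty_gauge [NeZero n] (hn : 4 ≤ n) (c : Cert n) {γ : E n → ℝ} (hγ : GaugeFn γ)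
    (h0 : (interior {x | γ x ≤ 1}).Nonempty) :
    kap (n - 1) ^ n * (volume {x | γ x ≤ 1}).toReal ^ (n - 1) ≤
        (volume (PiBody {x | γ x ≤ 1})).toReal * kap n ^ (n - 2) ∧
      ((volume (PiBody {x | γ x ≤ 1})).toReal * kap n ^ (n - 2) ≤
          kap (n - 1) ^ n * (volume {x | γ x ≤ 1}).toReal ^ (n - 1) →
        ∃ (a : E n) (T : E n ≃ₗ[ℝ] E n),
          {x | γ x ≤ 1} = (fun x => a + T x) '' Metric.closedBall 0 1) := by
  have hn1 : 1 ≤ n := by omega
  have hn2 : 2 ≤ n := by omega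
  have hn3 : 3 ≤ n := by omega
  have hnpos : (0 : ℝ) < n := by exact_mod_cast (by omega : 0 < n)
  have hκ := kap_pos n
  have hψ := psi_pos hn1
  set K := {x | γ x ≤ 1} with hK
  have hKc : IsCompact K := hγ.isCompact
  obtain ⟨z, hz, hZ, hzev⟩ := exists_gaugeFn (isCompact_piBody hn2 hKc) (convex_piBody K)
    (zero_mem_interior_piBody hn2 hKc h0)
  have hzeven := hzev fun x hx => piBody_neg hx
  obtain ⟨R, hR, hpos⟩ := exists_position hz
  have hzR := hz.comp_equiv R
  obtain ⟨v, hv, hvol, hvnorm⟩ := exists_normalise hzR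
  have hvolZ : (volume (PiBody K)).toReal = kap n * v ^ n := by
    rw [← hvol, hZ]
    have h1 : {x | z (R x) ≤ 1} = (R : E n →ₗ[ℝ] E n) ⁻¹' {x | z x ≤ 1} := rfl
    rw [h1, Measure.addHaar_preimage_linearMap _ (by rw [hR]; norm_num), hR]
    simp
  set δ : E n → ℝ := fun x => v * z (R x) with hδdef
  have hδ : GaugeFn δ := hzR.const_mul hv
  have hδeven : ∀ x, δ (-x) = δ x := fun x => by simp only [hδdef, map_neg, hzeven]
  have hδpos : InPos δ := hpos.const_mul v
  obtain ⟨hc1, hc2⟩ := core hn c hδ hδeven hvnorm hδpos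
  -- the adjoint of `R`
  let A : E n →ₗ[ℝ] E n := LinearMap.adjoint (R : E n →ₗ[ℝ] E n)
  have hA : LinearMap.det A = 1 := by rw [main_det_adjoint, hR]
  let A' : E n ≃L[ℝ] E n := (A.equivOfDetNeZero (by rw [hA]; norm_num)).toContinuousLinearEquiv
  have hA' : ∀ x, A' x = A x := fun x => rfl
  set L : Set (E n) := A ⁻¹' zG δ with hL
  have hLvol : volume L = volume (zG δ) := by
    rw [hL, Measure.addHaar_preimage_linearMap _ (by rw [hA]; norm_num), hA]
    simp
  have hLc : IsCompact L := by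
    have : L = A'.symm '' zG δ := by
      rw [ContinuousLinearEquiv.image_symm_eq_preimage]; rfl
    rw [this]
    exact (isCompact_zG hδ.hl).image A'.symm.continuous
  have hLv : Convex ℝ L := (convex_zG δ).linear_preimage A
  have hLn : L.Nonempty := ⟨0, fun ν => by simp [zh_nonneg]⟩
  let g : E n → ℝ := fun ν => zh δ ((R.symm : E n →L[ℝ] E n) ν)
  have hg : Continuous g := (continuous_zh hδ.hl).comp (R.symm : E n →L[ℝ] E n).continuous
  have hg0 : ∀ ν, 0 ≤ g ν := fun ν => zh_nonneg _ _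
  have hLg : ∀ y ∈ L, ∀ ν, inner ℝ y ν ≤ g ν := by
    intro y hy ν
    have h1 : inner ℝ (A y) (R.symm ν) ≤ zh δ (R.symm ν) := hy (R.symm ν)
    rw [LinearMap.adjoint_inner_left] at h1
    have h2 : inner ℝ y ν ≤ zh δ (R.symm ν) := by simpa using h1
    exact h2
  have hM := minkowski hγ hLc hLn hg hg0 hLg
  have hF := main_fubini hn2 hγ hδ (R.symm : E n →L[ℝ] E n) (v := v) (fun y hy => by
    rw [hZ] at hy
    have h1 : z y ≤ 1 := hy
    show v * z (R (R.symm y)) ≤ v
    rw [R.apply_symm_apply]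
    nlinarith)
  set W := kap n * ∫ b, (γ b)⁻¹ ^ n * g (gradient γ b) ∂(σ n) with hW
  have hW0 : 0 ≤ W := mul_nonneg hκ.le (integral_nonneg fun b =>
    mul_nonneg (pow_nonneg (inv_nonneg.2 (hγ.nonneg b)) n) (hg0 _))
  have hW1 : W ≤ 2 * v / n := by
    rw [le_div_iff₀ hnpos, hW]
    refine le_trans (le_of_eq ?_) hF
    ring
  have hW2 : W ^ n ≤ (2 * v / n) ^ n := pow_le_pow_left₀ hW0 hW1 n
  rw [hLvol] at hM
  set V := (volume K).toReal ^ (n - 1) with hV
  have hV0 : 0 ≤ V := by positivity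
  -- the two normalisations
  obtain ⟨m, rfl⟩ : ∃ m, n = m + 2 := ⟨n - 2, by omega⟩
  set q : ℝ := (2 / ((m + 2 : ℕ) : ℝ)) ^ (m + 2) / kap (m + 2) ^ (m + 1) with hq
  have hqpos : 0 < q := by positivity
  have e1 : V * (kap (m + 2) * psi (m + 2) ^ (m + 2)) =
      q * (kap (m + 2 - 1) ^ (m + 2) * V) := by
    rw [hq, psi]
    simp only [div_pow, mul_pow]
    field_simp
    ring
  have e2 : (2 * v / ((m + 2 : ℕ) : ℝ)) ^ (m + 2) =
      q * ((volume (PiBody K)).toReal * kap (m + 2) ^ (m + 2 - 2)) := by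
    rw [hq, hvolZ, Nat.add_sub_cancel]
    simp only [div_pow, mul_pow]
    field_simp
    ring
  have hchain : V * (kap (m + 2) * psi (m + 2) ^ (m + 2)) ≤ V * (volume (zG δ)).toReal :=
    mul_le_mul_of_nonneg_left hc1 hV0
  refine ⟨le_of_mul_le_mul_left (by rw [← e1, ← e2]; linarith) hqpos, fun hle => ?_⟩
  have hle2 : (2 * v / ((m + 2 : ℕ) : ℝ)) ^ (m + 2) ≤ V * (kap (m + 2) * psi (m + 2) ^ (m + 2)) := by
    rw [e1, e2]; exact mul_le_mul_of_nonneg_left hle hqpos.le
  have hVpos : 0 < V := by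
    by_contra h
    have h1 : V = 0 := le_antisymm (not_lt.1 h) hV0
    rw [h1, zero_mul] at hle2
    have : 0 < (2 * v / ((m + 2 : ℕ) : ℝ)) ^ (m + 2) := by positivity
    linarith
  have hG : zG δ = Metric.closedBall 0 (psi (m + 2)) :=
    zG_norm hn1 (hc2 (le_of_mul_le_mul_left (by linarith) hVpos))
  let T : E (m + 2) ≃L[ℝ] E (m + 2) :=
    (ContinuousLinearEquiv.smulLeft (R₁ := ℝ) (Units.mk0 (psi (m + 2)) hψ.ne')).trans A'.symm
  have hT : T '' Metric.closedBall 0 1 = L := by
    ext y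
    simp only [mem_image, hL, hG, mem_preimage, mem_closedBall_zero_iff]
    constructor
    · rintro ⟨x, hx, rfl⟩
      have : A (T x) = psi (m + 2) • x := by
        rw [← hA']
        simp [T]
      rw [this, norm_smul, Real.norm_eq_abs, abs_of_pos hψ]
      nlinarith
    · intro hy
      refine ⟨(psi (m + 2))⁻¹ • A y, ?_, ?_⟩
      · rw [norm_smul, Real.norm_eq_abs, abs_of_pos (inv_pos.2 hψ), inv_mul_le_iff₀ hψ, mul_one]
        exact hy
      · have : psi (m + 2) • (psi (m + 2))⁻¹ • A y = A' y := by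
          rw [smul_smul, mul_inv_cancel₀ hψ.ne', one_smul, hA']
        show A'.symm (psi (m + 2) • (psi (m + 2))⁻¹ • A y) = y
        rw [this, A'.symm_apply_apply]
  refine ellipsoid_of_bm_eq hn3 hKc hγ.convex h0 T fun ε hε => ?_
  rw [hT]
  refine minkowski_eq hγ hLc hLv hLn hg hg0 hLg ?_ hε
  rw [hLvol]
  linarith

end Crest.Agent.R230
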