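import Crest.Agent.R230.Harm

/-! # Row 230: spherical harmonic expansion of a gradient -/

set_option autoImplicit false
open MeasureTheory Set MvPolynomial
open scoped ENNReal

namespace Crest.Agent.R230
variable {n : ℕ}

/-- Coefficient of the degree `k - 1` part of the gradient of a degree `k` component. -/
noncomputable def cX (n k : ℕ) : ℝ := ((k : ℝ) + n - 1) ^ 2 * k / (2 * k + n - 2)

/-- Coefficient of the degree `k + 1` part of the gradient of a degree `k` component. -/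
noncomputable def cY (n k : ℕ) : ℝ := ((k : ℝ) - 1) ^ 2 * ((k : ℝ) + n - 2) / (2 * k + n - 2)

/-- `Xᵢ Y - ‖x‖² ∂ᵢY / (2j+n-2)`, harmonic of degree `j+1` when `Y` is harmonic of degree `j`. -/
noncomputable def raise (j : ℕ) (i : Fin n) (Y : Pol n) : Pol n :=
  X i * Y - (1 / (2 * (j : ℝ) + n - 2)) • (rsq n * pderiv i Y)

theorem proj_pderiv_zero {Y : Pol n} (hY : Y.IsHomogeneous 0) (i : Fin n) : pderiv i Y = 0 := by
  rw [totalDegree_eq_zero_iff_eq_C.1 (Nat.le_zero.1 hY.totalDegree_le), pderiv_C]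

theorem proj_pderiv_rsq (i : Fin n) : pderiv i (rsq n) = 2 * X i := by
  classical
  rw [rsq, map_sum, Finset.sum_eq_single i]
  · simp [sq, two_mul]
  · intro k _ hk
    simp [sq, pderiv_X_of_ne hk]
  · simp

theorem proj_euler {Y : Pol n} {j : ℕ} (hY : Y.IsHomogeneous j) :
    ∑ k, X k * pderiv k Y = (j : ℝ) • Y := by
  rw [hY.sum_X_mul_pderiv, Nat.cast_smul_eq_nsmul]

theorem proj_lap_mul (p q : Pol n) :
    lap (p * q) = lap p * q + 2 * ∑ k, pderiv k p * pderiv k q + p * lap q := by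
  simp only [lap, Finset.sum_mul, Finset.mul_sum, ← Finset.sum_add_distrib]
  refine Finset.sum_congr rfl fun k _ => ?_
  simp only [pderiv_mul, map_add]
  ring

theorem proj_lap_X (i : Fin n) : lap (X i : Pol n) = 0 := by
  classical
  refine Finset.sum_eq_zero fun k _ => ?_
  by_cases h : i = k
  · subst h
    simp
  · simp [pderiv_X_of_ne h]

theorem proj_lap_rsq : lap (rsq n) = (2 * n : ℝ) • (1 : Pol n) := by
  have : ∀ k : Fin n, pderiv k (pderiv k (rsq n)) = (2 : ℝ) • (1 : Pol n) := by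
    intro k
    rw [proj_pderiv_rsq, two_mul, map_add, pderiv_X_self, two_smul]
  simp only [lap, this, Finset.sum_const, Finset.card_univ, Fintype.card_fin]
  rw [← Nat.cast_smul_eq_nsmul ℝ, smul_smul, mul_comm]

theorem proj_mu_pos (hn : 3 ≤ n) (j : ℕ) : 0 < 2 * (j : ℝ) + n - 2 := by
  have h1 : (3 : ℝ) ≤ n := by exact_mod_cast hn
  have h2 : (0 : ℝ) ≤ j := Nat.cast_nonneg j
  linarith

theorem harm_raise (hn : 3 ≤ n) {j : ℕ} {Y : Pol n} (hY : Harm j Y) (i : Fin n) :
    Harm (j + 1) (raise j i Y) := by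
  classical
  have hμ := proj_mu_pos hn j
  rcases j with _ | m
  · have h0 := proj_pderiv_zero hY.1
    unfold raise
    rw [h0, mul_zero, smul_zero, sub_zero]
    refine ⟨by simpa using (isHomogeneous_X ℝ i).mul hY.1, ?_⟩
    simp [proj_lap_mul, proj_lap_X, hY.2, h0]
  have hZ : Harm m (pderiv i Y) := hY.pderiv i
  refine ⟨?_, ?_⟩
  · refine IsHomogeneous.sub (by simpa [add_comm] using (isHomogeneous_X ℝ i).mul hY.1) ?_
    rw [smul_eq_C_mul]
    have := rsq_hom.mul hZ.1
    rw [show 2 + m = m + 1 + 1 by ring] at this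
    exact this.C_mul _
  · have h1 : lap (X i * Y) = (2 : ℝ) • pderiv i Y := by
      rw [proj_lap_mul, proj_lap_X, hY.2, Finset.sum_eq_single i]
      · simp [two_mul, two_smul]
      · intro k _ hk
        simp [pderiv_X_of_ne hk.symm]
      · simp
    have h2 : lap (rsq n * pderiv i Y) = (2 * (2 * ((m + 1 : ℕ) : ℝ) + n - 2)) • pderiv i Y := by
      rw [proj_lap_mul, proj_lap_rsq, hZ.2]
      simp only [proj_pderiv_rsq, mul_assoc, ← Finset.mul_sum, proj_euler hZ.1]
      simp only [smul_mul_assoc, one_mul, mul_zero, add_zero, two_mul (_ : Pol n), ← add_smul]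
      congr 1
      push_cast
      ring
    have h3 : lap (raise (m + 1) i Y) = lap (X i * Y) -
        (1 / (2 * ((m + 1 : ℕ) : ℝ) + n - 2)) • lap (rsq n * pderiv i Y) := by
      simp only [raise, lap, map_sub, Derivation.map_smul, Finset.sum_sub_distrib, Finset.smul_sum]
    rw [h3, h1, h2, smul_smul, ← sub_smul]
    convert zero_smul ℝ (pderiv i Y)
    field_simp
    ring

theorem proj_ip_sum_left {ι : Type*} (s : Finset ι) (p : ι → Pol n) (q : Pol n) :
    ip (∑ i ∈ s, p i) q = ∑ i ∈ s, ip (p i) q := by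
  classical
  induction s using Finset.induction_on with
  | empty => simp [ip]
  | insert a s ha ih => rw [Finset.sum_insert ha, Finset.sum_insert ha, ip_add_left, ih]

theorem proj_ip_add_right (p q r : Pol n) : ip p (q + r) = ip p q + ip p r := by
  rw [ip_comm, ip_add_left, ip_comm q, ip_comm r]

theorem proj_ip_smul_right (c : ℝ) (p q : Pol n) : ip p (c • q) = c * ip p q := by
  rw [ip_comm, ip_smul_left, ip_comm]

theorem proj_coord {f : E n → ℝ} (hf : MemLp f 2 (σ n)) (j : ℕ) (i : Fin n) (Y : Pol n) :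
    ∫ b, b i * f b * ev Y b ∂(σ n) = ∫ b, f b * ev (raise j i Y) b ∂(σ n) +
      1 / (2 * (j : ℝ) + n - 2) * ∫ b, f b * ev (pderiv i Y) b ∂(σ n) := by
  rw [← integral_const_mul, ← integral_add (integrable_mul_ev hf _)
    ((integrable_mul_ev hf _).const_mul _)]
  refine integral_congr_ae ?_
  filter_upwards [ae_norm] with b hb
  simp only [raise, ev_sub, ev_mul, ev_X, ev_smul, ev_rsq, hb]
  ring

/-- adjointness of `raise` and `pderiv` -/
theorem proj_adj [NeZero n] (hn : 3 ≤ n) {j : ℕ} {H Y : Pol n} (hH : Harm (j + 1) H)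
    (hY : Harm j Y) (i : Fin n) :
    ip (pderiv i H) Y = (2 * (j : ℝ) + n) * ip H (raise j i Y) := by
  have h1 := ibp_poly (hH.1.mul hY.1) i
  have h2 := proj_coord (memLp_ev H 2) j i Y
  have h3 : ip H (pderiv i Y) = 0 := ip_orth hn hH (hY.pderiv i) (by omega)
  simp only [pderiv_mul, ev_add, ev_mul, ← mul_assoc] at h1
  rw [integral_add (integrable_mul_ev (memLp_ev _ 2) _) (integrable_mul_ev (memLp_ev _ 2) _),
    h2] at h1
  unfold ip at h3 ⊢
  rw [h3] at h1
  push_cast at h1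
  linear_combination h1

theorem proj_div_raise {m : ℕ} {Y : Pol n} (hY : Harm m Y) :
    ∑ i, pderiv i (raise m i Y) = ((n : ℝ) + m - 1 / (2 * (m : ℝ) + n - 2) * (2 * m)) • Y := by
  have h1 : ∀ i, pderiv i (raise m i Y) = Y + X i * pderiv i Y - (1 / (2 * (m : ℝ) + n - 2)) •
      (2 * (X i * pderiv i Y) + rsq n * pderiv i (pderiv i Y)) := by
    intro i
    simp only [raise, map_sub, Derivation.map_smul, pderiv_mul, pderiv_X_self, proj_pderiv_rsq,
      one_mul, mul_assoc]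
  have h2 : ∑ i, pderiv i (pderiv i Y) = 0 := hY.2
  simp only [h1, Finset.sum_sub_distrib, Finset.sum_add_distrib, ← Finset.smul_sum,
    ← Finset.mul_sum, h2, proj_euler hY.1, Finset.sum_const, Finset.card_univ, Fintype.card_fin,
    mul_zero, add_zero, two_mul (_ : Pol n), ← Nat.cast_smul_eq_nsmul ℝ, ← add_smul, smul_smul,
    ← sub_smul]
  congr 1
  ring

theorem proj_first [NeZero n] (hn : 3 ≤ n) {U : E n → ℝ} (hU : HL U) {j : ℕ} {Y : Pol n}
    (hY : Harm j Y) (i : Fin n) :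
    ip (pr j (fun b => gradient U b i)) Y =
      ((j : ℝ) + n) / (2 * j + n) * ip (pderiv i (pr (j + 1) U)) Y +
        (2 - j) / (2 * (j : ℝ) + n - 2) * ip (pderiv i Y) (pr (j - 1) U) := by
  have hμ := proj_mu_pos hn j
  have hμ' : 0 < 2 * (j : ℝ) + n := by linarith
  have h1 := ibp_coord hU hY.1 i
  rw [proj_coord (hU.memLp 2) j, pr_spec (hU.memLp_grad_apply i 2) hY,
    pr_spec (hU.memLp 2) (hY.pderiv i), pr_spec (hU.memLp 2) (harm_raise hn hY i)] at h1
  rw [proj_adj hn (pr_harm (hU.memLp 2) _) hY, ip_comm (pderiv i Y), eq_sub_of_add_eq h1,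
    ← mul_assoc, div_mul_cancel₀ _ hμ'.ne']
  have h2 := mul_inv_cancel₀ hμ.ne'
  simp only [div_eq_mul_inv]
  linear_combination ip (pr (j - 1) U) (pderiv i Y) * h2

/-- Degree `j` part of the pairing of two gradients.  (The degree `j` projection of `∂ᵢU` is
`(j+n)/(2j+n) ∂ᵢ U_{j+1} - (j-2) raise (j-1) i U_{j-1}`.) -/
theorem sum_ip_pr_grad [NeZero n] (hn : 3 ≤ n) {U V : E n → ℝ} (hU : HL U) (hV : HL V) (j : ℕ) :
    ∑ i, ip (pr j (fun b => gradient U b i)) (pr j (fun b => gradient V b i)) =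
      cX n (j + 1) * ip (pr (j + 1) U) (pr (j + 1) V) +
        (if j = 0 then 0 else cY n (j - 1) * ip (pr (j - 1) U) (pr (j - 1) V)) := by
  have hμ := proj_mu_pos hn j
  have hμ' : 0 < 2 * (j : ℝ) + n := by linarith
  have hpU := pr_harm (hU.memLp 2)
  have hpV := pr_harm (hV.memLp 2)
  have hG := fun i => pr_harm (hV.memLp_grad_apply i 2) j
  have hX := sum_ip_pderiv (hpV (j + 1)).1 (hpU (j + 1))
  rcases j with _ | m
  · have h1 : ∀ i, ip (pr 0 (fun b => gradient U b i)) (pr 0 (fun b => gradient V b i)) =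
        ip (pderiv i (pr (0 + 1) V)) (pderiv i (pr (0 + 1) U)) := by
      intro i
      rw [proj_first hn hU (hG i), ip_comm (pderiv i (pr (0 + 1) U)),
        proj_first hn hV (j := 0) ((hpU (0 + 1)).pderiv i), proj_pderiv_zero (hG i).1,
        proj_pderiv_zero (Y := pderiv i (pr (0 + 1) U)) ((hpU (0 + 1)).pderiv i).1]
      have hn0 : (n : ℝ) ≠ 0 := by simpa using hμ'.ne'
      simp [ip, hn0]
    simp only [h1, hX, ip_comm (pr (0 + 1) V), cX, if_true]
    have hn0 : (n : ℝ) ≠ 0 := by simpa using hμ'.ne'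
    push_cast
    rw [show (2 : ℝ) * 1 + n - 2 = n by ring]
    field_simp
    ring
  have hμm := proj_mu_pos hn m
  have hc : ((m + 1 : ℕ) : ℝ) = m + 1 := by push_cast; rfl
  have hcross : ∀ {H Y : Pol n}, Harm (m + 1 + 1) H →
      ∑ i, ip (pderiv i (pderiv i H)) Y = 0 := by
    intro H Y hH
    have h2 : ∑ i, pderiv i (pderiv i H) = 0 := hH.2
    rw [← proj_ip_sum_left, h2]
    simp [ip]
  have h1 : ∀ i, ip (pr (m + 1) (fun b => gradient U b i)) (pr (m + 1) (fun b => gradient V b i)) =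
      (((m : ℝ) + 1 + n) / (2 * (m + 1) + n)) ^ 2 *
          ip (pderiv i (pr (m + 1 + 1) V)) (pderiv i (pr (m + 1 + 1) U)) +
        ((m : ℝ) + 1 + n) / (2 * (m + 1) + n) * ((1 - m) / (2 * m + n)) *
          ip (pderiv i (pderiv i (pr (m + 1 + 1) U))) (pr m V) +
        ((m : ℝ) + 1 + n) / (2 * (m + 1) + n) * ((1 - m) / (2 * m + n)) *
          ip (pderiv i (pderiv i (pr (m + 1 + 1) V))) (pr m U) +
        (1 - m) ^ 2 / (2 * m + n) * ip (pderiv i (raise m i (pr m U))) (pr m V) := by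
    intro i
    have hm : 2 * (m : ℝ) + n ≠ 0 := by linarith
    rw [proj_first hn hU (hG i), ip_comm (pderiv i (pr (m + 1 + 1) U)),
      proj_first hn hV (j := m + 1) ((hpU (m + 1 + 1)).pderiv i), Nat.add_sub_cancel,
      proj_adj hn (hG i) (hpU m), proj_first hn hV (harm_raise hn (hpU m) i), Nat.add_sub_cancel,
      proj_adj hn (H := pderiv i (pr (m + 1 + 1) V)) ((hpV (m + 1 + 1)).pderiv i) (hpU m), hc,
      show 2 * ((m : ℝ) + 1) + n - 2 = 2 * m + n by ring]
    field_simp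
    ring
  simp only [h1, Finset.sum_add_distrib, ← Finset.mul_sum, hX, hcross (hpU _), hcross (hpV _),
    ← proj_ip_sum_left, proj_div_raise (hpU m), ip_smul_left, ip_comm (pr (m + 1 + 1) V),
    Nat.add_sub_cancel, if_neg (Nat.succ_ne_zero m), cX, cY]
  have hm : 2 * (m : ℝ) + n ≠ 0 := by linarith
  rw [hc] at hμ'
  push_cast
  rw [show 2 * ((m : ℝ) + 1 + 1) + n - 2 = 2 * (m + 1) + n by ring]
  have e1 : (((m : ℝ) + 1 + n) / (2 * (m + 1) + n)) ^ 2 * ((m + 1 + 1) * (m + 1 + 1 + (m + 1 + 1)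
      + n - 2)) = (m + 1 + 1 + n - 1) ^ 2 * (m + 1 + 1) / (2 * (m + 1) + n) := by
    field_simp
    ring
  have e2 : (n : ℝ) + m - 1 / (2 * m + n - 2) * (2 * m)
      = (2 * m + n) * ((m + n - 2) / (2 * m + n - 2)) := by
    rw [mul_div_assoc', eq_div_iff hμm.ne', sub_mul, mul_right_comm, one_div_mul_cancel hμm.ne']
    ring
  rw [e2, ← e1, ← mul_assoc ((1 - (m : ℝ)) ^ 2 / _), ← mul_assoc ((1 - (m : ℝ)) ^ 2 / _),
    div_mul_cancel₀ _ hm]
  ring

theorem cX_add_cY (hn : 3 ≤ n) (k : ℕ) : cX n k + cY n k = 1 + lam n k := by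
  have := (proj_mu_pos hn k).ne'
  unfold cX cY lam
  rw [← add_div, div_eq_iff this]
  ring

theorem proj_hasSum_sq [NeZero n] (hn : 3 ≤ n) {U : E n → ℝ} (hU : HL U) :
    HasSum (fun k => ip (pr k U) (pr k U)) (∫ b, U b ^ 2 ∂(σ n)) := by
  simpa only [sq] using parseval hn (hU.memLp 2) (hU.memLp 2)

theorem proj_hasSum [NeZero n] (hn : 3 ≤ n) {U : E n → ℝ} (hU : HL U) :
    HasSum (fun k => lam n k * ip (pr k U) (pr k U))
      (∫ b, ‖gradient U b‖ ^ 2 ∂(σ n) - ∫ b, U b ^ 2 ∂(σ n)) := by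
  have h3 : (3 : ℝ) ≤ n := by exact_mod_cast hn
  have h1 := hasSum_sum (s := Finset.univ) fun (i : Fin n) _ =>
    parseval hn (hU.memLp_grad_apply i 2) (hU.memLp_grad_apply i 2)
  have h2 : ∑ i, ∫ b, gradient U b i * gradient U b i ∂(σ n)
      = ∫ b, ‖gradient U b‖ ^ 2 ∂(σ n) := by
    rw [← integral_finsetSum (f := fun i b => gradient U b i * gradient U b i) _ fun i _ =>
      (hU.memLp_grad_apply i 2).integrable_mul (hU.memLp_grad_apply i 2)]
    simp only [EuclideanSpace.real_norm_sq_eq, ← sq]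
  simp only [sum_ip_pr_grad hn hU hU, h2] at h1
  have hX : ∀ k, 0 ≤ cX n k * ip (pr k U) (pr k U) := fun k =>
    mul_nonneg (div_nonneg (by positivity) (proj_mu_pos hn k).le) (ip_self_nonneg _)
  have hY : ∀ k, 0 ≤ cY n k * ip (pr k U) (pr k U) := fun k =>
    mul_nonneg (div_nonneg (mul_nonneg (sq_nonneg _) (by linarith [Nat.cast_nonneg (α := ℝ) k]))
      (proj_mu_pos hn k).le) (ip_self_nonneg _)
  have hA : Summable fun j => cX n (j + 1) * ip (pr (j + 1) U) (pr (j + 1) U) :=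
    h1.summable.of_nonneg_of_le (fun j => hX _) fun j => le_add_of_nonneg_right (by
      split_ifs
      · exact le_rfl
      · exact hY _)
  have hB := h1.sub hA.hasSum
  simp only [add_sub_cancel_left] at hB
  have hB' := (hasSum_nat_add_iff' 1).2 hB
  simp only [Nat.add_sub_cancel, if_neg (Nat.succ_ne_zero _), Finset.sum_range_one, if_true,
    sub_zero] at hB'
  have hA' := (hasSum_nat_add_iff (f := fun k => cX n k * ip (pr k U) (pr k U)) 1).1 hA.hasSum
  have h0 : cX n 0 = 0 := by simp [cX]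
  simp only [Finset.sum_range_one, h0, zero_mul, add_zero] at hA'
  have h4 := (hA'.add hB').sub (proj_hasSum_sq hn hU)
  simp only [← add_mul, cX_add_cY hn, add_sub_cancel] at h4
  simpa only [add_mul, one_mul, add_sub_cancel_left] using h4

theorem proj_lam_nonneg (hn : 3 ≤ n) (k : ℕ) : 0 ≤ lam n k := by
  have h3 : (3 : ℝ) ≤ n := by exact_mod_cast hn
  exact mul_nonneg (Nat.cast_nonneg k) (by linarith [Nat.cast_nonneg (α := ℝ) k])

/-- Dirichlet (Bessel) inequality. -/
theorem dirichlet [NeZero n] (hn : 3 ≤ n) {U : E n → ℝ} (hU : HL U) (s : Finset ℕ) :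
    ∑ k ∈ s, lam n k * ip (pr k U) (pr k U) ≤
      ∫ b, ‖gradient U b‖ ^ 2 ∂(σ n) - ∫ b, U b ^ 2 ∂(σ n) := by
  exact sum_le_hasSum s (fun k _ => mul_nonneg (proj_lam_nonneg hn k) (ip_self_nonneg _))
    (proj_hasSum hn hU)

/-- Equality case of the Poincaré inequality. -/
theorem eq_affine_of_dirichlet_le [NeZero n] (hn : 3 ≤ n) {U : E n → ℝ} (hU : HL U)
    (h : ∫ b, ‖gradient U b‖ ^ 2 ∂(σ n) - ∫ b, U b ^ 2 ∂(σ n) ≤
      ((n : ℝ) - 1) * (∫ b, U b ^ 2 ∂(σ n) - (∫ b, U b ∂(σ n)) ^ 2)) :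
    ∃ a : E n, ∀ b : E n, ‖b‖ = 1 → U b = (∫ b, U b ∂(σ n)) + inner ℝ b a := by
  have h3 : (3 : ℝ) ≤ n := by exact_mod_cast hn
  have hL := hU.memLp 2
  set m := ∫ b, U b ∂(σ n) with hm
  have ha0 : ip (pr 0 U) (pr 0 U) = m ^ 2 := by rw [ip_pr_zero hL hL, sq]
  have h1 := (hasSum_nat_add_iff' 2).2
    ((proj_hasSum hn hU).sub ((proj_hasSum_sq hn hU).mul_left ((n : ℝ) - 1)))
  have hpos : ∀ k : ℕ, 0 < lam n (k + 2) - ((n : ℝ) - 1) := by
    intro k
    have := Nat.cast_nonneg (α := ℝ) k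
    unfold lam
    push_cast
    nlinarith
  have hz : ∀ k : ℕ, ip (pr (k + 2) U) (pr (k + 2) U) = 0 := by
    intro k
    have h2 := le_hasSum h1 k fun j _ => by
      rw [← sub_mul]
      exact mul_nonneg (hpos j).le (ip_self_nonneg _)
    simp only [Finset.sum_range_succ, Finset.range_zero, Finset.sum_empty, ha0, lam] at h2
    have h4 := hpos k
    unfold lam at h4
    refine le_antisymm ?_ (ip_self_nonneg _)
    refine nonpos_of_mul_nonpos_right (le_trans (le_of_eq (sub_mul _ _ _)) (h2.trans ?_)) h4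
    push_cast
    linarith
  have h5 := (hasSum_nat_add_iff' 2).2 (proj_hasSum_sq hn hU)
  simp only [hz, Finset.sum_range_succ, Finset.range_zero, Finset.sum_empty, ha0] at h5
  have h6 := h5.unique hasSum_zero
  obtain ⟨a, ha⟩ := exists_eq_linP (pr_harm hL 1).1
  have h7 : ∫ b, U b * ev (pr 1 U) b ∂(σ n) = ip (pr 1 U) (pr 1 U) := pr_spec hL (pr_harm hL 1)
  have h8 : ∫ b, ev (pr 1 U) b ∂(σ n) = 0 := integral_ev_harm hn one_ne_zero (pr_harm hL 1)
  have i1 : Integrable (fun b => U b ^ 2) (σ n) := hL.integrable_sq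
  have i2 : Integrable U (σ n) := hL.integrable one_le_two
  have i3 := integrable_mul_ev hL (pr 1 U)
  have i4 : Integrable (ev (pr 1 U)) (σ n) := (memLp_ev _ 2).integrable one_le_two
  have i5 := integrable_mul_ev (memLp_ev (pr 1 U) 2) (pr 1 U)
  have he : (fun b => (U b - (m + ev (pr 1 U) b)) ^ 2) = fun b => U b ^ 2 - 2 * m * U b
      - 2 * (U b * ev (pr 1 U) b) + 2 * m * ev (pr 1 U) b + ev (pr 1 U) b * ev (pr 1 U) b
      + m ^ 2 := by
    funext b
    ring
  have j1 : Integrable (fun b => U b ^ 2 - 2 * m * U b) (σ n) := i1.sub (i2.const_mul (2 * m))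
  have j2 : Integrable (fun b => U b ^ 2 - 2 * m * U b - 2 * (U b * ev (pr 1 U) b)) (σ n) :=
    j1.sub (i3.const_mul 2)
  have j3 : Integrable (fun b => U b ^ 2 - 2 * m * U b - 2 * (U b * ev (pr 1 U) b)
      + 2 * m * ev (pr 1 U) b) (σ n) := j2.add (i4.const_mul (2 * m))
  have j4 : Integrable (fun b => U b ^ 2 - 2 * m * U b - 2 * (U b * ev (pr 1 U) b)
      + 2 * m * ev (pr 1 U) b + ev (pr 1 U) b * ev (pr 1 U) b) (σ n) := j3.add i5
  have h9 : ∫ b, (U b - (m + ev (pr 1 U) b)) ^ 2 ∂(σ n) = 0 := by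
    rw [he, integral_add j4 (integrable_const _), integral_add j3 i5,
      integral_add j2 (i4.const_mul _), integral_sub j1 (i3.const_mul _),
      integral_sub i1 (i2.const_mul _), integral_const_mul, integral_const_mul, integral_const_mul,
      h7, h8, integral_const, ← hm]
    simp only [probReal_univ, one_smul]
    unfold ip at h6 ⊢
    linarith
  rw [integral_eq_zero_iff_of_nonneg (fun b => sq_nonneg _)
    (he ▸ j4.add (integrable_const _))] at h9
  refine ⟨a, fun b hb => ?_⟩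
  rw [← ev_linP, ← ha]
  refine eq_of_ae_σ hU.continuous.continuousOn
    (continuous_const.add (continuous_ev _)).continuousOn ?_ b hb
  filter_upwards [h9] with b hb
  exact sub_eq_zero.1 (pow_eq_zero_iff two_ne_zero |>.1 hb)

end Crest.Agent.R230
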