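import Crest.Agent.R230.Defs

/-! # Row 230: products of simplices, volumes -/

set_option autoImplicit false
open MeasureTheory Set
open scoped ENNReal

namespace Crest.Agent.R230
variable {n : ℕ} {J : Type} [Fintype J] [DecidableEq J]

/-- The product of standard simplices attached to the partition `c` of the coordinates. -/
def prodS (c : Fin n → J) : Set (E n) :=
  {x | (∀ i, 0 ≤ x i) ∧ ∀ j, ∑ i with c i = j, x i ≤ 1}

/-- Size of block `j`. -/
def bsz (c : Fin n → J) (j : J) : ℕ := (Finset.univ.filter (fun i => c i = j)).card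

/-- The normalised volume of the projection body of the `m`-simplex. -/
noncomputable def rS (m : ℕ) : ℝ := ((m : ℝ) + 1) * (m : ℝ) ^ m / (m.factorial : ℝ)

theorem sum_bsz (c : Fin n → J) : ∑ j, bsz c j = n := by
  have := Finset.card_eq_sum_card_fiberwise (f := c) (s := Finset.univ) (t := Finset.univ)
    (fun _ _ => Finset.mem_coe.2 (Finset.mem_univ _))
  simp only [Finset.card_univ, Fintype.card_fin] at this
  exact this.symm

/-- Volume of a product over blocks. -/
theorem volume_blocks (c : Fin n → J) (A : ∀ j, Set ({i // c i = j} → ℝ))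
    (hA : ∀ j, MeasurableSet (A j)) :
    volume {x : E n | ∀ j, (fun i : {i // c i = j} => x i.1) ∈ A j} = ∏ j, volume (A j) := by
  set g : (∀ j, {i // c i = j} → ℝ) → (Fin n → ℝ) := fun y i => y (c i) ⟨i, rfl⟩ with hg
  have hgm : Measurable g := by
    refine measurable_pi_iff.2 fun i => ?_
    exact (measurable_pi_apply _).comp (measurable_pi_apply (c i))
  have hgj : ∀ (y : ∀ j, {i // c i = j} → ℝ) (j : J),
      (fun i : {i // c i = j} => g y i.1) = y j := by
    intro y j
    funext i
    obtain ⟨i, rfl⟩ := i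
    rfl
  have hmap : (volume : Measure (Fin n → ℝ)) =
      (Measure.pi fun j => (volume : Measure ({i // c i = j} → ℝ))).map g := by
    rw [volume_pi]
    refine Measure.pi_eq fun s hs => ?_
    rw [Measure.map_apply hgm (MeasurableSet.univ_pi hs)]
    have : g ⁻¹' (Set.pi univ s) =
        Set.pi univ (fun j => Set.pi univ (fun i : {i // c i = j} => s i.1)) := by
      ext y
      simp only [mem_preimage, mem_pi, mem_univ, forall_true_left]
      constructor
      · rintro h j ⟨i, rfl⟩
        exact h i
      · intro h i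
        exact h (c i) ⟨i, rfl⟩
    rw [this, Measure.pi_pi]
    simp_rw [volume_pi_pi]
    exact Fintype.prod_fiberwise c (fun i => volume (s i))
  have hT : MeasurableSet {x : Fin n → ℝ | ∀ j, (fun i : {i // c i = j} => x i.1) ∈ A j} := by
    rw [setOf_forall]
    refine MeasurableSet.iInter fun j => ?_
    exact (measurable_pi_iff.2 fun i => measurable_pi_apply _ :
      Measurable fun (x : Fin n → ℝ) (i : {i // c i = j}) => x i.1) (hA j)
  have h1 := (PiLp.volume_preserving_ofLp (Fin n)).measure_preimage hT.nullMeasurableSet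
  refine Eq.trans h1 ?_
  rw [hmap, Measure.map_apply hgm hT]
  have : g ⁻¹' {x : Fin n → ℝ | ∀ j, (fun i : {i // c i = j} => x i.1) ∈ A j} =
      Set.pi univ A := by
    ext y
    simp only [mem_preimage, mem_setOf_eq, hgj, mem_pi, mem_univ, forall_true_left]
  rw [this, Measure.pi_pi]

/-- Fubini in the first coordinate. -/
theorem SimVol_cons {m : ℕ} (S : Set (Fin (m + 1) → ℝ)) (hS : MeasurableSet S) :
    volume S = ∫⁻ y : ℝ, volume {x : Fin m → ℝ | (Fin.cons y x : Fin (m + 1) → ℝ) ∈ S} := by
  have h := (volume_preserving_piFinSuccAbove (fun _ : Fin (m + 1) => ℝ) 0).symm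
  rw [← h.measure_preimage hS.nullMeasurableSet, Measure.volume_eq_prod,
    Measure.prod_apply ((MeasurableEquiv.measurable _) hS)]
  refine lintegral_congr fun y => ?_
  congr 1
  ext x
  simp [MeasurableEquiv.piFinSuccAbove, Fin.insertNthEquiv, Fin.insertNth_zero']

/-- Transfer from `Fin` to an arbitrary finite index type. -/
theorem SimVol_transfer {ι : Type} [Fintype ι] {m : ℕ} (e : Fin m ≃ ι) (S : Set (ι → ℝ))
    (hS : MeasurableSet S) :
    volume S = volume {x : Fin m → ℝ | (fun i => x (e.symm i)) ∈ S} := by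
  have h := volume_measurePreserving_piCongrLeft (fun _ : ι => ℝ) e
  rw [← h.measure_preimage hS.nullMeasurableSet]
  congr 1
  ext x
  have : (MeasurableEquiv.piCongrLeft (fun _ : ι => ℝ) e) x = fun i => x (e.symm i) := by
    funext i
    obtain ⟨k, rfl⟩ := e.surjective i
    simp [MeasurableEquiv.piCongrLeft_apply_apply]
  simp [this]

theorem SimVol_simplex_fin (m : ℕ) : ∀ t : ℝ,
    volume {x : Fin m → ℝ | (∀ i, 0 ≤ x i) ∧ ∑ i, x i ≤ t} =
      if 0 ≤ t then ENNReal.ofReal (t ^ m / (m.factorial : ℝ)) else 0 := by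
  induction m with
  | zero =>
    intro t
    split_ifs with h
    · have : {x : Fin 0 → ℝ | (∀ i, 0 ≤ x i) ∧ ∑ i, x i ≤ t} = univ := by
        ext x; simp [h]
      rw [this]; simp [volume_pi]
    · have : {x : Fin 0 → ℝ | (∀ i, 0 ≤ x i) ∧ ∑ i, x i ≤ t} = ∅ := by
        ext x; simp [h]
      rw [this]; simp
  | succ m ih =>
    intro t
    rw [SimVol_cons _ (by measurability)]
    have h1 : ∀ y : ℝ, volume {x : Fin m → ℝ | (Fin.cons y x : Fin (m + 1) → ℝ) ∈
        {x : Fin (m + 1) → ℝ | (∀ i, 0 ≤ x i) ∧ ∑ i, x i ≤ t}} =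
        (Icc 0 t).indicator (fun y => ENNReal.ofReal ((t - y) ^ m / (m.factorial : ℝ))) y := by
      intro y
      by_cases hy : 0 ≤ y
      · have : {x : Fin m → ℝ | (Fin.cons y x : Fin (m + 1) → ℝ) ∈
            {x : Fin (m + 1) → ℝ | (∀ i, 0 ≤ x i) ∧ ∑ i, x i ≤ t}} =
            {x : Fin m → ℝ | (∀ i, 0 ≤ x i) ∧ ∑ i, x i ≤ t - y} := by
          ext x
          simp only [mem_setOf_eq, Fin.forall_fin_succ, Fin.sum_univ_succ, Fin.cons_zero,
            Fin.cons_succ, hy, true_and]
          constructor
          · rintro ⟨h1, h2⟩; exact ⟨h1, by linarith⟩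
          · rintro ⟨h1, h2⟩; exact ⟨h1, by linarith⟩
        rw [this, ih]
        by_cases hyt : y ≤ t
        · rw [if_pos (by linarith), indicator_of_mem (by exact ⟨hy, hyt⟩)]
        · rw [if_neg (by linarith [not_le.1 hyt]), indicator_of_notMem (fun h => hyt h.2)]
      · have : {x : Fin m → ℝ | (Fin.cons y x : Fin (m + 1) → ℝ) ∈
            {x : Fin (m + 1) → ℝ | (∀ i, 0 ≤ x i) ∧ ∑ i, x i ≤ t}} = ∅ := by
          ext x
          simp [Fin.forall_fin_succ, hy]
        rw [this, indicator_of_notMem (fun h => hy h.1)]; simp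
    simp_rw [h1]
    rw [lintegral_indicator measurableSet_Icc]
    split_ifs with ht
    · rw [← ofReal_integral_eq_lintegral_ofReal]
      · congr 1
        rw [integral_Icc_eq_integral_Ioc, ← intervalIntegral.integral_of_le ht,
          intervalIntegral.integral_div,
          intervalIntegral.integral_comp_sub_left (fun y => y ^ m) t]
        simp only [sub_self, sub_zero, integral_pow, Nat.factorial_succ]
        push_cast
        have : (m.factorial : ℝ) ≠ 0 := by positivity
        field_simp
        simp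
      · exact (Continuous.continuousOn (by fun_prop)).integrableOn_Icc
      · refine (ae_restrict_iff' measurableSet_Icc).2 (Filter.Eventually.of_forall fun y hy => ?_)
        have : 0 ≤ t - y := by linarith [hy.2]
        positivity
    · rw [Icc_eq_empty ht]; simp

theorem SimVol_zono_fin {s : ℝ} (m : ℕ) : ∀ lo hi : ℝ, lo ≤ hi → hi ≤ lo + s →
    volume {x : Fin m → ℝ | (∀ i, hi - s ≤ x i ∧ x i ≤ lo + s) ∧ ∀ i k, x i - x k ≤ s} =
      ENNReal.ofReal (s ^ m + m * s ^ (m - 1) * (s - (hi - lo))) := by
  induction m with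
  | zero =>
    intro lo hi _ _
    have : {x : Fin 0 → ℝ | (∀ i, hi - s ≤ x i ∧ x i ≤ lo + s) ∧ ∀ i k, x i - x k ≤ s} = univ := by
      ext x; simp
    rw [this]; simp [volume_pi]
  | succ m ih =>
    intro lo hi h1 h2
    have hs : 0 ≤ s := by linarith
    rw [SimVol_cons _ (by measurability)]
    have key : ∀ y : ℝ, volume {x : Fin m → ℝ | (Fin.cons y x : Fin (m + 1) → ℝ) ∈
        {x : Fin (m + 1) → ℝ | (∀ i, hi - s ≤ x i ∧ x i ≤ lo + s) ∧ ∀ i k, x i - x k ≤ s}} =
        (Icc (hi - s) (lo + s)).indicator (fun y => ENNReal.ofReal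
          (s ^ m + m * s ^ (m - 1) * (s - (max hi y - min lo y)))) y := by
      intro y
      by_cases hy : y ∈ Icc (hi - s) (lo + s)
      · have : {x : Fin m → ℝ | (Fin.cons y x : Fin (m + 1) → ℝ) ∈
            {x : Fin (m + 1) → ℝ | (∀ i, hi - s ≤ x i ∧ x i ≤ lo + s) ∧
              ∀ i k, x i - x k ≤ s}} =
            {x : Fin m → ℝ | (∀ i, max hi y - s ≤ x i ∧ x i ≤ min lo y + s) ∧
              ∀ i k, x i - x k ≤ s} := by
          ext x
          simp only [mem_setOf_eq, Fin.forall_fin_succ, Fin.cons_zero, Fin.cons_succ]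
          constructor
          · rintro ⟨⟨_, ha⟩, ⟨_, hb⟩, hc⟩
            refine ⟨fun i => ⟨?_, ?_⟩, fun i k => (hc i).2 k⟩
            · rcases le_total hi y with h | h
              · rw [max_eq_right h]; linarith [hb i]
              · rw [max_eq_left h]; exact (ha i).1
            · rcases le_total lo y with h | h
              · rw [min_eq_left h]; exact (ha i).2
              · rw [min_eq_right h]; linarith [(hc i).1]
          · rintro ⟨ha, hb⟩
            refine ⟨⟨hy, fun i => ⟨?_, ?_⟩⟩, ⟨by simpa using hs, fun i => ?_⟩,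
              fun i => ⟨?_, fun k => hb i k⟩⟩
            · linarith [(ha i).1, le_max_left hi y]
            · linarith [(ha i).2, min_le_left lo y]
            · linarith [(ha i).1, le_max_right hi y]
            · linarith [(ha i).2, min_le_right lo y]
        rw [this, ih _ _ ((min_le_left _ _).trans (h1.trans (le_max_left _ _))),
          indicator_of_mem hy]
        rcases le_total hi y with h | h <;> rcases le_total lo y with h' | h' <;>
          simp only [max_eq_right, max_eq_left, min_eq_left, min_eq_right, h, h'] <;>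
          linarith [hy.1, hy.2]
      · have : {x : Fin m → ℝ | (Fin.cons y x : Fin (m + 1) → ℝ) ∈
            {x : Fin (m + 1) → ℝ | (∀ i, hi - s ≤ x i ∧ x i ≤ lo + s) ∧
              ∀ i k, x i - x k ≤ s}} = ∅ := by
          ext x
          simp only [mem_setOf_eq, mem_empty_iff_false, iff_false]
          rintro ⟨ha, _⟩
          exact hy (by simpa using ha 0)
        rw [this, indicator_of_notMem hy]; simp
    simp_rw [key]
    rw [lintegral_indicator measurableSet_Icc, ← ofReal_integral_eq_lintegral_ofReal]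
    · congr 1
      have hc : Continuous fun y : ℝ => s - (max hi y - min lo y) := by fun_prop
      have i1 : ∫ y in (hi - s)..lo, (s - (max hi y - min lo y)) = (s - (hi - lo)) ^ 2 / 2 := by
        rw [intervalIntegral.integral_congr (g := fun y => (s - hi) + y)]
        · rw [intervalIntegral.integral_add (by simp) (by simp)]
          simp; ring
        · intro y hy
          rw [uIcc_of_le (by linarith)] at hy
          simp only
          rw [max_eq_left (by linarith [hy.2]), min_eq_right hy.2]; ring
      have i2 : ∫ y in lo..hi, (s - (max hi y - min lo y)) = (s - (hi - lo)) * (hi - lo) := by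
        rw [intervalIntegral.integral_congr (g := fun _ => s - (hi - lo))]
        · simp; ring
        · intro y hy
          rw [uIcc_of_le h1] at hy
          simp only
          rw [max_eq_left hy.2, min_eq_left hy.1]
      have i3 : ∫ y in hi..(lo + s), (s - (max hi y - min lo y)) = (s - (hi - lo)) ^ 2 / 2 := by
        rw [intervalIntegral.integral_congr (g := fun y => (s + lo) - y)]
        · rw [intervalIntegral.integral_sub (by simp) (by simp)]
          simp; ring
        · intro y hy
          rw [uIcc_of_le h2] at hy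
          simp only
          rw [max_eq_right hy.1, min_eq_left (by linarith [hy.1])]; ring
      have i4 : ∫ y in (hi - s)..(lo + s), (s - (max hi y - min lo y)) = (s - (hi - lo)) * s := by
        rw [← intervalIntegral.integral_add_adjacent_intervals (b := lo)
            (hc.intervalIntegrable _ _) (hc.intervalIntegrable _ _),
          ← intervalIntegral.integral_add_adjacent_intervals (a := lo) (b := hi)
            (hc.intervalIntegrable _ _) (hc.intervalIntegrable _ _), i1, i2, i3]
        ring
      rw [integral_Icc_eq_integral_Ioc, ← intervalIntegral.integral_of_le (by linarith),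
        intervalIntegral.integral_add (by simp) ((hc.intervalIntegrable _ _).const_mul _),
        intervalIntegral.integral_const_mul, i4]
      simp only [intervalIntegral.integral_const, smul_eq_mul, Nat.add_sub_cancel]
      push_cast
      rcases m with _ | m
      · simp; ring
      · simp only [Nat.add_sub_cancel]; push_cast; ring
    · exact (Continuous.continuousOn (by fun_prop)).integrableOn_Icc
    · refine (ae_restrict_iff' measurableSet_Icc).2 (Filter.Eventually.of_forall fun y hy => ?_)
      have : 0 ≤ s - (max hi y - min lo y) := by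
        rcases le_total hi y with h | h <;> rcases le_total lo y with h' | h' <;>
          simp only [max_eq_right, max_eq_left, min_eq_left, min_eq_right, h, h'] <;>
          linarith [hy.1, hy.2]
      positivity

theorem volume_simplex_gen {ι : Type} [Fintype ι] (a : ι → ℝ) (b : ℝ) (h : ∑ i, a i ≤ b) :
    volume {x : ι → ℝ | (∀ i, a i ≤ x i) ∧ ∑ i, x i ≤ b} =
      ENNReal.ofReal ((b - ∑ i, a i) ^ Fintype.card ι / ((Fintype.card ι).factorial : ℝ)) := by
  have h1 : {x : ι → ℝ | (∀ i, a i ≤ x i) ∧ ∑ i, x i ≤ b} =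
      (fun x => x + (-a)) ⁻¹' {x : ι → ℝ | (∀ i, 0 ≤ x i) ∧ ∑ i, x i ≤ b - ∑ i, a i} := by
    ext x
    simp only [mem_setOf_eq, mem_preimage, Pi.add_apply, Pi.neg_apply, Finset.sum_add_distrib,
      Finset.sum_neg_distrib]
    constructor
    · rintro ⟨h1, h2⟩; exact ⟨fun i => by linarith [h1 i], by linarith⟩
    · rintro ⟨h1, h2⟩; exact ⟨fun i => by linarith [h1 i], by linarith⟩
  rw [h1, measure_preimage_add_right,
    SimVol_transfer (Fintype.equivFin ι).symm _ (by measurability)]
  have h2 := SimVol_simplex_fin (Fintype.card ι) (b - ∑ i, a i)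
  rw [if_pos (by linarith)] at h2
  rw [← h2]
  congr 1
  ext x
  simp only [mem_setOf_eq, Equiv.symm_symm]
  rw [(Fintype.equivFin ι).sum_comp x, (Fintype.equivFin ι).forall_congr_left]
  simp

theorem volume_zono_gen {ι : Type} [Fintype ι] {s : ℝ} (hs : 0 ≤ s) :
    volume {x : ι → ℝ | (∀ i, |x i| ≤ s) ∧ ∀ i k, x i - x k ≤ s} =
      ENNReal.ofReal (s ^ Fintype.card ι * ((Fintype.card ι : ℝ) + 1)) := by
  rw [SimVol_transfer (Fintype.equivFin ι).symm _ (by measurability)]
  have h2 := SimVol_zono_fin (s := s) (Fintype.card ι) 0 0 le_rfl (by linarith)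
  have h3 : s ^ Fintype.card ι + (Fintype.card ι : ℝ) * s ^ (Fintype.card ι - 1) * (s - (0 - 0)) =
      s ^ Fintype.card ι * ((Fintype.card ι : ℝ) + 1) := by
    rcases Fintype.card ι with _ | m
    · simp
    · simp only [Nat.add_sub_cancel]; push_cast; ring
  rw [h3] at h2
  rw [← h2]
  congr 1
  ext x
  simp only [mem_setOf_eq, Equiv.symm_symm, zero_sub, zero_add, abs_le]
  constructor
  · rintro ⟨h1, h2⟩
    refine ⟨fun i => ?_, fun i k => ?_⟩
    · simpa using h1 ((Fintype.equivFin ι).symm i)
    · simpa using h2 ((Fintype.equivFin ι).symm i) ((Fintype.equivFin ι).symm k)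
  · rintro ⟨h1, h2⟩
    exact ⟨fun i => h1 _, fun i k => h2 _ _⟩

theorem volume_prodS_gen (c : Fin n → J) (a : Fin n → ℝ) (b : J → ℝ)
    (h : ∀ j, ∑ i with c i = j, a i ≤ b j) :
    volume {x : E n | (∀ i, a i ≤ x i) ∧ ∀ j, ∑ i with c i = j, x i ≤ b j} =
      ENNReal.ofReal (∏ j, (b j - ∑ i with c i = j, a i) ^ bsz c j / ((bsz c j).factorial : ℝ)) := by
  have hsum : ∀ (f : Fin n → ℝ) (j : J),
      ∑ i : {i // c i = j}, f i.1 = ∑ i with c i = j, f i := by
    intro f j
    exact (Finset.sum_subtype (Finset.univ.filter (fun i => c i = j)) (by simp) f).symm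
  have hcard : ∀ j, Fintype.card {i // c i = j} = bsz c j := fun j => Fintype.card_subtype _
  have h1 := volume_blocks c
    (fun j => {y : {i // c i = j} → ℝ | (∀ i, a i.1 ≤ y i) ∧ ∑ i, y i ≤ b j})
    (fun j => by measurability)
  have h2 : {x : E n | (∀ i, a i ≤ x i) ∧ ∀ j, ∑ i with c i = j, x i ≤ b j} =
      {x : E n | ∀ j, (fun i : {i // c i = j} => x i.1) ∈
        {y : {i // c i = j} → ℝ | (∀ i, a i.1 ≤ y i) ∧ ∑ i, y i ≤ b j}} := by
    ext x
    simp only [mem_setOf_eq]
    constructor
    · rintro ⟨h1, h2⟩ j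
      exact ⟨fun i => h1 i.1, by rw [hsum (fun i => x i) j]; exact h2 j⟩
    · intro h
      exact ⟨fun i => (h (c i)).1 ⟨i, rfl⟩, fun j => by
        rw [← hsum (fun i => x i) j]; exact (h j).2⟩
  rw [h2, h1, ENNReal.ofReal_prod_of_nonneg]
  · refine Finset.prod_congr rfl fun j _ => ?_
    rw [volume_simplex_gen (fun i : {i // c i = j} => a i.1) (b j) (by rw [hsum]; exact h j),
      hsum, hcard]
  · intro j _
    have : 0 ≤ b j - ∑ i with c i = j, a i := by linarith [h j]
    positivity

theorem volume_zono (c : Fin n → J) {s : J → ℝ} (hs : ∀ j, 0 ≤ s j) :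
    volume {x : E n | (∀ i, |x i| ≤ s (c i)) ∧ ∀ i k, c i = c k → x i - x k ≤ s (c i)} =
      ENNReal.ofReal (∏ j, s j ^ bsz c j * ((bsz c j : ℝ) + 1)) := by
  have hcard : ∀ j, Fintype.card {i // c i = j} = bsz c j := fun j => Fintype.card_subtype _
  have h1 := volume_blocks c
    (fun j => {y : {i // c i = j} → ℝ | (∀ i, |y i| ≤ s j) ∧ ∀ i k, y i - y k ≤ s j})
    (fun j => by measurability)
  have h2 : {x : E n | (∀ i, |x i| ≤ s (c i)) ∧ ∀ i k, c i = c k → x i - x k ≤ s (c i)} =
      {x : E n | ∀ j, (fun i : {i // c i = j} => x i.1) ∈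
        {y : {i // c i = j} → ℝ | (∀ i, |y i| ≤ s j) ∧ ∀ i k, y i - y k ≤ s j}} := by
    ext x
    simp only [mem_setOf_eq]
    constructor
    · rintro ⟨h1, h2⟩ j
      refine ⟨?_, ?_⟩
      · rintro ⟨i, rfl⟩
        exact h1 i
      · rintro ⟨i, rfl⟩ ⟨k, hk⟩
        exact h2 i k hk.symm
    · intro h
      exact ⟨fun i => (h (c i)).1 ⟨i, rfl⟩,
        fun i k hik => (h (c i)).2 ⟨i, rfl⟩ ⟨k, hik.symm⟩⟩
  rw [h2, h1, ENNReal.ofReal_prod_of_nonneg]
  · refine Finset.prod_congr rfl fun j _ => ?_
    rw [volume_zono_gen (hs j), hcard]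
  · intro j _
    have := hs j
    positivity

end Crest.Agent.R230
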