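import Crest.Agent.R230.SimVol
import Crest.Agent.R230.Shadow

/-! # Row 230: projection bodies of products of simplices -/

set_option autoImplicit false
open MeasureTheory Set
open scoped ENNReal Pointwise Topology

namespace Crest.Agent.R230
variable {n : ℕ} {J : Type} [Fintype J] [DecidableEq J]

theorem isCompact_prodS (c : Fin n → J) : IsCompact (prodS c) := by
  refine Metric.isCompact_of_isClosed_isBounded ?_ ((Metric.isBounded_closedBall
    (x := (0 : E n)) (r := √n)).subset fun x hx => ?_)
  · simp only [prodS, setOf_and, setOf_forall]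
    exact (isClosed_iInter fun i => isClosed_le continuous_const (by fun_prop)).inter
      (isClosed_iInter fun j => isClosed_le (by fun_prop) continuous_const)
  · rw [mem_closedBall_zero_iff, EuclideanSpace.norm_eq]
    refine Real.sqrt_le_sqrt ((Finset.sum_le_card_nsmul _ _ 1 fun i _ => ?_).trans (by simp))
    have h1 : x i ≤ 1 := (Finset.single_le_sum (f := fun i => x i) (fun i _ => hx.1 i)
      (by simp)).trans (hx.2 (c i))
    rw [Real.norm_eq_abs, sq_abs]
    nlinarith [hx.1 i]

theorem convex_prodS (c : Fin n → J) : Convex ℝ (prodS c) := by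
  intro x hx y hy a b ha hb hab
  refine ⟨fun i => ?_, fun j => ?_⟩
  · simp only [PiLp.add_apply, PiLp.smul_apply, smul_eq_mul]
    exact add_nonneg (mul_nonneg ha (hx.1 i)) (mul_nonneg hb (hy.1 i))
  · simp only [PiLp.add_apply, PiLp.smul_apply, smul_eq_mul, Finset.sum_add_distrib,
      ← Finset.mul_sum]
    nlinarith [mul_le_mul_of_nonneg_left (hx.2 j) ha, mul_le_mul_of_nonneg_left (hy.2 j) hb]

theorem interior_prodS (c : Fin n → J) : (interior (prodS c)).Nonempty := by
  have h1 : IsOpen {x : E n | (∀ i, 0 < x i) ∧ ∀ j, ∑ i with c i = j, x i < 1} := by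
    simp only [setOf_and, setOf_forall]
    exact (isOpen_iInter_of_finite fun i => isOpen_lt continuous_const (by fun_prop)).inter
      (isOpen_iInter_of_finite fun j => isOpen_lt (by fun_prop) continuous_const)
  refine ⟨WithLp.toLp 2 fun _ => 1 / ((n : ℝ) + 1), interior_maximal
    (fun x hx => And.intro (fun i => (hx.1 i).le) fun j => (hx.2 j).le) h1
    ⟨fun i => by positivity, fun j => ?_⟩⟩
  have h2 : ((Finset.univ.filter fun i => c i = j).card : ℝ) ≤ n := by
    exact_mod_cast (Finset.card_le_univ _).trans_eq (Fintype.card_fin n)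
  simp only [Finset.sum_const, nsmul_eq_mul, mul_one_div]
  rw [div_lt_one (by positivity)]
  linarith

theorem simplex_sum_single (c : Fin n → J) (j : J) (k : Fin n) :
    ∑ i with c i = j, EuclideanSpace.single k (1 : ℝ) i = if c k = j then 1 else 0 := by
  simp [EuclideanSpace.single_apply]

theorem exists_finset_prodS (c : Fin n → J) :
    ∃ S : Finset (E n), convexHull ℝ (S : Set (E n)) = prodS c := by
  classical
  let T : J → Finset (E n) := fun j => insert 0
    ((Finset.univ.filter fun i => c i = j).image fun i => EuclideanSpace.single i (1 : ℝ))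
  refine ⟨∑ j, T j, Subset.antisymm (convexHull_min ?_ (convex_prodS c)) fun x hx => ?_⟩
  · rw [Finset.coe_sum]
    intro x hx
    obtain ⟨g, hg, rfl⟩ := (Set.mem_fintype_sum _ _).1 hx
    have h1 : ∀ j, (∀ i, 0 ≤ g j i) ∧
        ∀ j', ∑ i with c i = j', g j i ≤ if j = j' then 1 else 0 := by
      intro j
      rcases Finset.mem_insert.1 (hg j) with h | h
      · rw [h]
        exact ⟨fun i => le_rfl, fun j' => by split_ifs <;> simp⟩
      · obtain ⟨k, hk, h⟩ := Finset.mem_image.1 h
        rw [← h, ← (Finset.mem_filter.1 hk).2]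
        refine ⟨fun i => ?_, fun j' => (simplex_sum_single c j' k).le⟩
        rw [EuclideanSpace.single_apply]
        split_ifs <;> norm_num
    refine ⟨fun i => ?_, fun j => ?_⟩
    · rw [WithLp.ofLp_sum, Finset.sum_apply]
      exact Finset.sum_nonneg fun j _ => (h1 j).1 i
    · simp only [WithLp.ofLp_sum, Finset.sum_apply]
      rw [Finset.sum_comm]
      exact (Finset.sum_le_sum fun j' _ => (h1 j').2 j).trans (by simp)
  · rw [Finset.coe_sum, convexHull_sum]
    refine (Set.mem_fintype_sum _ _).2 ⟨fun j => ∑ i with c i = j,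
      x i • EuclideanSpace.single i (1 : ℝ), fun j => ?_, ?_⟩
    · have := (convex_convexHull ℝ (T j : Set (E n))).sum_mem
        (t := Finset.insertNone (Finset.univ.filter fun i => c i = j))
        (w := fun o => o.elim (1 - ∑ i with c i = j, x i) fun i => x i)
        (z := fun o => o.elim 0 fun i => EuclideanSpace.single i (1 : ℝ))
        (by
          rintro (_ | i) _
          · exact sub_nonneg.2 (hx.2 j)
          · exact hx.1 i)
        (by simp [Finset.sum_insertNone])
        (by
          rintro (_ | i) hi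
          · exact subset_convexHull ℝ _ (Finset.mem_insert_self _ _)
          · exact subset_convexHull ℝ _ (Finset.mem_insert_of_mem
              (Finset.mem_image_of_mem _ (Finset.some_mem_insertNone.1 hi))))
      simpa [Finset.sum_insertNone] using this
    · rw [Finset.sum_fiberwise]
      ext i
      simp [WithLp.ofLp_sum, Finset.sum_apply, Pi.single_apply]

theorem simplex_vol (c : Fin n → J) (a : Fin n → ℝ) (b : J → ℝ)
    (h : ∀ j, ∑ i with c i = j, a i ≤ b j) :
    (volume {x : E n | (∀ i, a i ≤ x i) ∧ ∀ j, ∑ i with c i = j, x i ≤ b j}).toReal =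
      (∏ j, 1 / ((bsz c j).factorial : ℝ)) * ∏ j, (b j - ∑ i with c i = j, a i) ^ bsz c j := by
  rw [volume_prodS_gen c a b h, ENNReal.toReal_ofReal (Finset.prod_nonneg fun j _ =>
    div_nonneg (pow_nonneg (sub_nonneg.2 (h j)) _) (Nat.cast_nonneg _)), ← Finset.prod_mul_distrib]
  exact Finset.prod_congr rfl fun j _ => by ring

theorem volume_prodS (c : Fin n → J) :
    (volume (prodS c)).toReal = ∏ j, 1 / ((bsz c j).factorial : ℝ) := by
  simpa [prodS] using simplex_vol c (fun _ => 0) (fun _ => 1) fun j => by simp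

theorem simplex_le_deriv {f : ℝ → ℝ} {D s : ℝ} (hf : HasDerivAt f D 0)
    (h : ∀ᶠ t in 𝓝[>] (0 : ℝ), f 0 + t * s ≤ f t) : s ≤ D := by
  refine ge_of_tendsto hf.tendsto_slope_zero_right ?_
  filter_upwards [h, self_mem_nhdsWithin] with t ht ht0
  rw [smul_eq_mul, zero_add, le_inv_mul_iff₀ (show 0 < t from ht0)]
  linarith

theorem simplex_hasDerivAt (V : ℝ) (N : J → ℝ) (m : J → ℕ) :
    HasDerivAt (fun t : ℝ => V * ∏ j, (1 + t * N j) ^ m j) (V * ∑ j, (m j : ℝ) * N j) 0 := by
  have h1 : ∀ j ∈ Finset.univ, HasDerivAt (fun t : ℝ => (1 + t * N j) ^ m j) (m j * N j) 0 := by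
    intro j _
    simpa using (((hasDerivAt_id (0 : ℝ)).mul_const (N j)).const_add 1).fun_pow (m j)
  simpa using (HasDerivAt.fun_finset_prod h1).const_mul V

/-- Lower bound: `volume_inter_ge`; upper bound: `volume_add_segment`; both sets are (contained in)
products of translated and rescaled simplices; let `h → 0`. -/
theorem shadow_prodS (hn : 2 ≤ n) (c : Fin n → J) {u : E n} (hu : ‖u‖ = 1) :
    shadow (prodS c) u = (volume (prodS c)).toReal *
      ∑ j, (bsz c j : ℝ) * (∑ i with c i = j, max (u i) 0 + max (-∑ i with c i = j, u i) 0) := by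
  set N : J → ℝ := fun j => ∑ i with c i = j, max (u i) 0 + max (-∑ i with c i = j, u i) 0 with hN
  have hK := isCompact_prodS c
  have hc := convex_prodS c
  refine le_antisymm ?_ ?_
  · refine simplex_le_deriv (simplex_hasDerivAt _ N (bsz c)) ?_
    filter_upwards [self_mem_nhdsWithin] with t ht
    have ht0 : (0 : ℝ) ≤ t := le_of_lt ht
    have e : ∀ j, (1 + t * max (∑ i with c i = j, u i) 0) - ∑ i with c i = j, -(t * max (-u i) 0) =
        1 + t * N j := fun j => by
      have e1 : ∀ y : ℝ, max (-y) 0 = max y 0 - y := fun y => by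
        rcases le_total y 0 with h | h
        · rw [max_eq_left (neg_nonneg.2 h), max_eq_right h, zero_sub]
        · rw [max_eq_right (neg_nonpos.2 h), max_eq_left h, sub_self]
      simp only [hN, e1, Finset.sum_neg_distrib, ← Finset.mul_sum, Finset.sum_sub_distrib]
      ring
    have hle : ∀ j, ∑ i with c i = j, -(t * max (-u i) 0) ≤
        1 + t * max (∑ i with c i = j, u i) 0 := fun j =>
      (Finset.sum_nonpos fun i _ => neg_nonpos.2 (by positivity)).trans (by positivity)
    have h1 := simplex_vol c _ _ hle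
    simp only [e, ← volume_prodS] at h1
    have h2 := congrArg ENNReal.toReal (volume_add_segment hn hK hc hu ht0)
    rw [ENNReal.toReal_add hK.measure_lt_top.ne ENNReal.ofReal_ne_top,
      ENNReal.toReal_ofReal (mul_nonneg ht0 (shadow_nonneg _ _))] at h2
    simp only [zero_mul, add_zero, one_pow, Finset.prod_const_one, mul_one]
    rw [← h1, ← h2]
    refine ENNReal.toReal_mono (by rw [volume_prodS_gen c _ _ hle]; exact ENNReal.ofReal_ne_top)
      (measure_mono ?_)
    rintro _ ⟨x, hx, _, ⟨a, b, ha, hb, hab, rfl⟩, rfl⟩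
    have hb1 : b ≤ 1 := by linarith
    have k : ∀ y : ℝ, b * (t * y) ≤ t * max y 0 := fun y =>
      (mul_le_mul_of_nonneg_left (mul_le_mul_of_nonneg_left (le_max_left y 0) ht0) hb).trans
        (mul_le_of_le_one_left (by positivity) hb1)
    refine ⟨fun i => ?_, fun j => ?_⟩
    · simp only [smul_zero, zero_add, PiLp.add_apply, PiLp.smul_apply, smul_eq_mul]
      linarith [hx.1 i, k (-u i)]
    · simp only [smul_zero, zero_add, PiLp.add_apply, PiLp.smul_apply, smul_eq_mul,
        Finset.sum_add_distrib, ← Finset.mul_sum]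
      linarith [hx.2 j, k (∑ i with c i = j, u i)]
  · have hd := simplex_hasDerivAt (volume (prodS c)).toReal (fun j => -N j) (bsz c)
    simp only [mul_neg, Finset.sum_neg_distrib] at hd
    refine neg_le_neg_iff.1 (simplex_le_deriv hd ?_)
    have hev : ∀ᶠ t in 𝓝[>] (0 : ℝ), ∀ j, t * N j ≤ 1 := by
      refine Filter.eventually_all.2 fun j => nhdsWithin_le_nhds ?_
      exact ((by fun_prop : Continuous fun t : ℝ => t * N j).tendsto 0).eventually
        (eventually_le_nhds (by simp))
    filter_upwards [self_mem_nhdsWithin, hev] with t ht htN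
    have ht0 : (0 : ℝ) ≤ t := le_of_lt ht
    have e : ∀ j, (1 - t * max (-∑ i with c i = j, u i) 0) - ∑ i with c i = j, t * max (u i) 0 =
        1 + -(t * N j) := fun j => by
      simp only [hN, ← Finset.mul_sum]
      ring
    have hle : ∀ j, ∑ i with c i = j, t * max (u i) 0 ≤
        1 - t * max (-∑ i with c i = j, u i) 0 := fun j => by linarith [e j, htN j]
    have h1 := simplex_vol c _ _ hle
    simp only [e, ← volume_prodS] at h1
    have h2 := volume_inter_ge hn hK hc hu ht0
    simp only [zero_mul, neg_zero, add_zero, one_pow, Finset.prod_const_one, mul_one]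
    rw [← h1, mul_neg, ← sub_eq_add_neg]
    refine h2.trans (ENNReal.toReal_mono
      (by rw [volume_prodS_gen c _ _ hle]; exact ENNReal.ofReal_ne_top) (measure_mono ?_))
    rintro _ ⟨hx, y, hy, rfl⟩
    refine ⟨fun i => ?_, fun j => ?_⟩
    · have k1 := hx.1 i
      have k2 := hy.1 i
      simp only [PiLp.add_apply, PiLp.smul_apply, smul_eq_mul] at k1 ⊢
      rw [mul_max_of_nonneg _ _ ht0]
      exact max_le (by linarith) (by linarith)
    · have k1 := hx.2 j
      have k2 := hy.2 j
      simp only [PiLp.add_apply, PiLp.smul_apply, smul_eq_mul, Finset.sum_add_distrib,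
        ← Finset.mul_sum] at k1 ⊢
      rw [mul_max_of_nonneg _ _ ht0, le_sub_comm]
      exact max_le (by linarith) (by linarith)

theorem simplex_piBody (hn : 2 ≤ n) (c : Fin n → J) {x : E n} (hx : x ∈ PiBody (prodS c))
    (u : E n) : inner ℝ x u ≤ (volume (prodS c)).toReal *
      ∑ j, (bsz c j : ℝ) * (∑ i with c i = j, max (u i) 0 + max (-∑ i with c i = j, u i) 0) := by
  rcases eq_or_ne u 0 with rfl | hu
  · simp
  have h0 : 0 < ‖u‖ := norm_pos_iff.2 hu
  have h1 : ‖‖u‖⁻¹ • u‖ = 1 := norm_smul_inv_norm hu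
  have h2 := mem_piBody.1 hx _ h1
  rw [shadow_prodS hn c h1, inner_smul_right] at h2
  have e : ∀ y : ℝ, max (‖u‖⁻¹ * y) 0 = ‖u‖⁻¹ * max y 0 := fun y => by
    rw [mul_max_of_nonneg _ _ (by positivity), mul_zero]
  simp only [PiLp.smul_apply, smul_eq_mul, ← Finset.mul_sum, ← mul_neg, e, ← mul_add,
    mul_left_comm _ ‖u‖⁻¹] at h2
  exact le_of_mul_le_mul_left h2 (inv_pos.2 h0)

theorem simplex_block {ι : Type} (B : Finset ι) (x u : ι → ℝ) {s : ℝ} (hs : 0 ≤ s)
    (h1 : ∀ i ∈ B, |x i| ≤ s) (h2 : ∀ i ∈ B, ∀ k ∈ B, x i - x k ≤ s) :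
    ∑ i ∈ B, x i * u i ≤ s * (∑ i ∈ B, max (u i) 0 + max (-∑ i ∈ B, u i) 0) := by
  obtain ⟨t, t0, t1, ht⟩ : ∃ t, 0 ≤ t ∧ t ≤ s ∧ ∀ i ∈ B, 0 ≤ x i + t ∧ x i + t ≤ s := by
    by_cases h : ∀ i ∈ B, 0 ≤ x i
    · exact ⟨0, le_rfl, hs, fun i hi => ⟨by linarith [h i hi], by linarith [(abs_le.1 (h1 i hi)).2]⟩⟩
    · push Not at h
      obtain ⟨i, hi, hi0⟩ := h
      obtain ⟨k, hk, hk'⟩ := B.exists_min_image x ⟨i, hi⟩
      exact ⟨-x k, by linarith [hk' i hi], by linarith [(abs_le.1 (h1 k hk)).1],
        fun l hl => ⟨by linarith [hk' l hl], by linarith [h2 l hl k hk]⟩⟩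
  have k : ∀ a y : ℝ, 0 ≤ a → a ≤ s → a * y ≤ s * max y 0 := fun a y a0 a1 =>
    (mul_le_mul_of_nonneg_left (le_max_left y 0) a0).trans
      (mul_le_mul_of_nonneg_right a1 (le_max_right _ _))
  have e : ∑ i ∈ B, x i * u i = ∑ i ∈ B, (x i + t) * u i + t * -∑ i ∈ B, u i := by
    simp only [add_mul, Finset.sum_add_distrib, ← Finset.mul_sum]
    ring
  rw [e, mul_add, Finset.mul_sum]
  exact add_le_add (Finset.sum_le_sum fun i hi => k _ _ (ht i hi).1 (ht i hi).2) (k _ _ t0 t1)

theorem piBody_prodS (hn : 2 ≤ n) (c : Fin n → J) :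
    PiBody (prodS c) = {x : E n | (∀ i, |x i| ≤ (volume (prodS c)).toReal * bsz c (c i)) ∧
      ∀ i k, c i = c k → x i - x k ≤ (volume (prodS c)).toReal * bsz c (c i)} := by
  have hV : 0 ≤ (volume (prodS c)).toReal := ENNReal.toReal_nonneg
  ext x
  refine ⟨fun hx => ?_, fun hx => mem_piBody.2 fun u hu => ?_⟩
  · have key : ∀ (u : E n) (i : Fin n), (∀ j, ∑ i with c i = j, max (u i) 0 +
        max (-∑ i with c i = j, u i) 0 ≤ if c i = j then 1 else 0) →
        inner ℝ x u ≤ (volume (prodS c)).toReal * bsz c (c i) := fun u i h =>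
      (simplex_piBody hn c hx u).trans (mul_le_mul_of_nonneg_left ((Finset.sum_le_sum
        fun j _ => mul_le_mul_of_nonneg_left (h j) (Nat.cast_nonneg _)).trans (by simp)) hV)
    have h0 : ∀ i l : Fin n, 0 ≤ EuclideanSpace.single i (1 : ℝ) l := fun i l => by
      rw [EuclideanSpace.single_apply]
      split_ifs <;> norm_num
    refine ⟨fun i => abs_le.2 ⟨?_, ?_⟩, fun i k hik => ?_⟩
    · have := key (-EuclideanSpace.single i 1) i fun j => by
        simp only [PiLp.neg_apply, Finset.sum_neg_distrib, neg_neg, simplex_sum_single]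
        rw [Finset.sum_eq_zero fun l _ => max_eq_right (neg_nonpos.2 (h0 i l))]
        split_ifs <;> simp
      rw [inner_neg_right, EuclideanSpace.inner_single_right] at this
      simp only [conj_trivial, one_mul] at this
      linarith
    · have := key (EuclideanSpace.single i 1) i fun j => by
        rw [Finset.sum_congr rfl fun l _ => max_eq_left (h0 i l), simplex_sum_single]
        split_ifs <;> simp
      rw [EuclideanSpace.inner_single_right] at this
      simpa using this
    · have := key (EuclideanSpace.single i 1 - EuclideanSpace.single k 1) i fun j => by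
        simp only [PiLp.sub_apply, Finset.sum_sub_distrib, simplex_sum_single, hik, sub_self,
          neg_zero, max_self, add_zero]
        rw [← hik, ← simplex_sum_single]
        exact Finset.sum_le_sum fun l _ => max_le (by linarith [h0 k l]) (h0 i l)
      rw [inner_sub_right, EuclideanSpace.inner_single_right,
        EuclideanSpace.inner_single_right] at this
      simpa using this
  · rw [shadow_prodS hn c hu, Finset.mul_sum, PiLp.inner_apply, ← Finset.sum_fiberwise _ c]
    refine Finset.sum_le_sum fun j _ => ?_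
    rw [← mul_assoc]
    refine le_trans (le_of_eq (Finset.sum_congr rfl fun i _ => by simp [mul_comm]))
      (simplex_block _ x u (by positivity) (fun i hi => ?_) fun i hi k hk => ?_)
    · exact (Finset.mem_filter.1 hi).2 ▸ hx.1 i
    · exact (Finset.mem_filter.1 hi).2 ▸ hx.2 i k
        ((Finset.mem_filter.1 hi).2.trans (Finset.mem_filter.1 hk).2.symm)

theorem ratio_prodS (hn : 2 ≤ n) (c : Fin n → J) :
    (volume (PiBody (prodS c))).toReal / (volume (prodS c)).toReal ^ (n - 1) =
      ∏ j, rS (bsz c j) := by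
  have hV : 0 < (volume (prodS c)).toReal := by
    rw [volume_prodS]
    positivity
  rw [piBody_prodS hn c, volume_zono c (s := fun j => (volume (prodS c)).toReal * bsz c j)
    fun j => by positivity, ENNReal.toReal_ofReal (by positivity), div_eq_iff (by positivity)]
  simp only [mul_pow, Finset.prod_mul_distrib, Finset.prod_pow_eq_pow_sum, sum_bsz]
  obtain ⟨m, rfl⟩ : ∃ m, n = m + 1 := ⟨n - 1, by omega⟩
  rw [Nat.add_sub_cancel, pow_succ]
  nth_rw 2 [volume_prodS]
  simp only [rS, div_eq_mul_inv, Finset.prod_mul_distrib, one_mul]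
  ring

end Crest.Agent.R230
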