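import Crest.Agent.R230.Defs

/-! # Row 230: the uniform measure on the sphere, polar coordinates -/

set_option autoImplicit false
open MeasureTheory Set
open scoped ENNReal

namespace Crest.Agent.R230
variable {n : ℕ}

theorem kap_pos (n : ℕ) : 0 < kap n := by
  unfold kap
  exact ENNReal.toReal_pos (Metric.measure_ball_pos _ _ one_pos).ne' measure_ball_lt_top.ne

theorem volume_ball_eq (n : ℕ) : volume (Metric.ball (0 : E n) 1) = ENNReal.ofReal (kap n) := by
  unfold kap
  rw [ENNReal.ofReal_toReal measure_ball_lt_top.ne]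

theorem volume_closedBall_eq [NeZero n] (a : E n) {r : ℝ} (hr : 0 ≤ r) :
    volume (Metric.closedBall a r) = ENNReal.ofReal (kap n * r ^ n) := by
  rw [Measure.addHaar_closedBall _ _ hr, volume_ball_eq, finrank_euclideanSpace_fin,
    ← ENNReal.ofReal_mul (pow_nonneg hr _), mul_comm]

theorem sph_emb : MeasurableEmbedding (Subtype.val : Metric.sphere (0 : E n) 1 → E n) :=
  MeasurableEmbedding.subtype_coe Metric.isClosed_sphere.measurableSet

theorem sph_c_eq : (volume : Measure (E n)).toSphere univ = ENNReal.ofReal (n * kap n) := by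
  rw [Measure.toSphere_apply_univ, volume_ball_eq, finrank_euclideanSpace_fin,
    ENNReal.ofReal_mul (Nat.cast_nonneg _), ENNReal.ofReal_natCast]

theorem sph_c_ne_zero [NeZero n] : (volume : Measure (E n)).toSphere univ ≠ 0 := by
  rw [sph_c_eq]
  have h1 : (0 : ℝ) < n := Nat.cast_pos.2 (Nat.pos_of_ne_zero (NeZero.ne n))
  exact (ENNReal.ofReal_pos.2 (mul_pos h1 (kap_pos n))).ne'

theorem sph_ae_iff {p : E n → Prop} :
    (∀ᵐ b ∂(σ n), p b) ↔ ∀ᵐ b ∂((volume : Measure (E n)).toSphere), p b.1 := by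
  unfold σ
  rw [Measure.ae_ennreal_smul_measure_iff (ENNReal.inv_ne_zero.2 (measure_ne_top _ _)),
    sph_emb.ae_map_iff]

theorem sph_map_eq [NeZero n] : ((volume : Measure (E n)).toSphere).map Subtype.val =
    ENNReal.ofReal (n * kap n) • σ n := by
  unfold σ
  rw [smul_smul, ← sph_c_eq, ENNReal.mul_inv_cancel sph_c_ne_zero (measure_ne_top _ _), one_smul]

instance sph_finite : IsFiniteMeasure (σ n) := by
  constructor
  unfold σ
  rw [Measure.smul_apply, sph_emb.map_apply, preimage_univ, smul_eq_mul]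
  exact lt_of_le_of_lt (ENNReal.inv_mul_le_one _) ENNReal.one_lt_top

/-- The polar map. -/
noncomputable def sph_pol (n : ℕ) (q : Metric.sphere (0 : E n) 1 × Ioi (0 : ℝ)) : E n :=
  q.2.1 • q.1.1

theorem sph_pol_eq : sph_pol n = Subtype.val ∘ (homeomorphUnitSphereProd (E n)).symm := by
  funext q
  rfl

theorem sph_pol_emb : MeasurableEmbedding (sph_pol n) := by
  rw [sph_pol_eq]
  exact (MeasurableEmbedding.subtype_coe (measurableSet_singleton _).compl).comp
    (Homeomorph.measurableEmbedding _)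

theorem sph_pol_mp [NeZero n] : MeasurePreserving (sph_pol n)
    (((volume : Measure (E n)).toSphere).prod (Measure.volumeIoiPow (n - 1))) volume := by
  have h := (volume : Measure (E n)).measurePreserving_homeomorphUnitSphereProd
  rw [finrank_euclideanSpace_fin] at h
  have h2 := MeasurePreserving.symm (homeomorphUnitSphereProd (E n)).toMeasurableEquiv h
  have h3 : MeasurePreserving (Subtype.val : ({0}ᶜ : Set (E n)) → E n)
      ((volume : Measure (E n)).comap Subtype.val) volume := by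
    have := measurePreserving_subtype_coe (μa := (volume : Measure (E n)))
      (measurableSet_singleton (0 : E n)).compl
    rwa [restrict_compl_singleton] at this
  rw [sph_pol_eq]
  exact h3.comp h2

theorem sph_norm_pol (q : Metric.sphere (0 : E n) 1 × Ioi (0 : ℝ)) : ‖sph_pol n q‖ = q.2.1 := by
  have h1 : ‖q.1.1‖ = 1 := by simp
  have h2 : (0 : ℝ) < q.2.1 := q.2.2
  simp [sph_pol, norm_smul, h1, abs_of_pos h2]

theorem sph_dir_pol (q : Metric.sphere (0 : E n) 1 × Ioi (0 : ℝ)) :
    ‖sph_pol n q‖⁻¹ • sph_pol n q = q.1.1 := by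
  have h2 : (0 : ℝ) < q.2.1 := q.2.2
  rw [sph_norm_pol, sph_pol, smul_smul, inv_mul_cancel₀ h2.ne', one_smul]

theorem sph_ae_vol [NeZero n] {p : E n → Prop} : (∀ᵐ x : E n, p x) ↔
    ∀ᵐ q ∂(((volume : Measure (E n)).toSphere).prod (Measure.volumeIoiPow (n - 1))),
      p (sph_pol n q) := by
  rw [← sph_pol_emb.ae_map_iff, sph_pol_mp.map_eq]

theorem sph_rho_ne_zero (k : ℕ) : Measure.volumeIoiPow k ≠ 0 := by
  intro h
  have := Measure.volumeIoiPow_apply_Iio k ⟨1, mem_Ioi.2 one_pos⟩
  rw [h] at this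
  simp only [Measure.coe_zero, Pi.zero_apply, one_pow] at this
  have h2 : (0 : ℝ) < 1 / ((k : ℝ) + 1) := by positivity
  exact (ENNReal.ofReal_pos.2 h2).ne this

instance instProbσ [NeZero n] : IsProbabilityMeasure (σ n) := by
  constructor
  unfold σ
  rw [Measure.smul_apply, sph_emb.map_apply, preimage_univ, smul_eq_mul]
  exact ENNReal.inv_mul_cancel sph_c_ne_zero (measure_ne_top _ _)

theorem ae_norm : ∀ᵐ b ∂(σ n), ‖b‖ = 1 := by
  rw [sph_ae_iff]
  exact Filter.Eventually.of_forall fun b => by simp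

/-- Polar coordinates, `lintegral` form. -/
theorem lintegral_polar [NeZero n] {f : E n → ℝ≥0∞} (hf : Measurable f) :
    ∫⁻ x, f x = ENNReal.ofReal (n * kap n) *
      ∫⁻ b, (∫⁻ r in Ioi (0 : ℝ), ENNReal.ofReal (r ^ (n - 1)) * f (r • b)) ∂(σ n) := by
  rw [← sph_pol_mp.lintegral_comp hf,
    lintegral_prod (fun q => f (sph_pol n q)) (hf.comp sph_pol_emb.measurable).aemeasurable,
    ← smul_eq_mul,
    ← lintegral_smul_measure, ← sph_map_eq, sph_emb.lintegral_map]
  refine lintegral_congr fun b => ?_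
  have hm : Measurable fun r : Ioi (0 : ℝ) => f (sph_pol n (b, r)) :=
    (hf.comp sph_pol_emb.measurable).comp measurable_prodMk_left
  rw [Measure.volumeIoiPow, lintegral_withDensity_eq_lintegral_mul _ (by fun_prop) hm,
    ← lintegral_subtype_comap measurableSet_Ioi]
  rfl

/-- Polar coordinates for a product of a radial and an angular function (no integrability
hypothesis is needed: use `integral_prod_mul`). -/
theorem integral_polar_mul [NeZero n] {η : ℝ → ℝ} {g : E n → ℝ} (hg : Measurable g) :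
    ∫ x : E n, η ‖x‖ * g (‖x‖⁻¹ • x) =
      n * kap n * (∫ r in Ioi (0 : ℝ), r ^ (n - 1) * η r) * ∫ b, g b ∂(σ n) := by
  rw [← sph_pol_mp.integral_comp sph_pol_emb]
  simp only [sph_dir_pol]
  simp only [sph_norm_pol]
  rw [← integral_congr_ae (Filter.Eventually.of_forall fun q => mul_comm _ _),
    integral_prod_mul (fun b : Metric.sphere (0 : E n) 1 => g b.1)
      (fun r : Ioi (0 : ℝ) => η r.1), ← sph_emb.integral_map g, sph_map_eq,
    integral_smul_measure, ENNReal.toReal_ofReal (mul_nonneg (Nat.cast_nonneg _) (kap_pos n).le)]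
  have h : ∫ r : Ioi (0 : ℝ), η r.1 ∂(Measure.volumeIoiPow (n - 1)) =
      ∫ r in Ioi (0 : ℝ), r ^ (n - 1) * η r := by
    simp only [Measure.volumeIoiPow, ENNReal.ofReal]
    rw [integral_withDensity_eq_integral_smul,
      integral_subtype_comap measurableSet_Ioi fun a ↦ Real.toNNReal (a ^ (n - 1)) • η a,
      setIntegral_congr_fun measurableSet_Ioi fun x hx ↦ ?_]
    · rw [NNReal.smul_def, Real.coe_toNNReal _ (pow_nonneg hx.out.le _), smul_eq_mul]
    · exact (measurable_subtype_coe.pow_const _).real_toNNReal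
  rw [h, smul_eq_mul]
  ring

/-- A scale invariant property true Lebesgue-a.e. is true `σ`-a.e. -/
theorem ae_σ_of_ae [NeZero n] {p : E n → Prop} (hp : ∀ᵐ x : E n, p x)
    (hs : ∀ (t : ℝ) (x : E n), 0 < t → p (t • x) → p x) : ∀ᵐ b ∂(σ n), p b := by
  rw [sph_ae_iff]
  rw [sph_ae_vol] at hp
  filter_upwards [Measure.ae_ae_of_ae_prod hp] with b hb
  have : (ae (Measure.volumeIoiPow (n - 1))).NeBot := ae_neBot.2 (sph_rho_ne_zero _)
  obtain ⟨r, hr⟩ := hb.exists
  exact hs r.1 b.1 r.2 hr

/-- A property true `σ`-a.e. is true for the direction of Lebesgue-a.e. point. -/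
theorem ae_of_ae_σ [NeZero n] {p : E n → Prop} (hp : ∀ᵐ b ∂(σ n), p b) :
    ∀ᵐ x : E n, p (‖x‖⁻¹ • x) := by
  rw [sph_ae_iff] at hp
  rw [sph_ae_vol]
  filter_upwards [(Measure.quasiMeasurePreserving_fst
    (ν := Measure.volumeIoiPow (n - 1))).ae hp] with q hq
  rw [sph_dir_pol]
  exact hq

/-- Volume of a star-shaped set with radial function `ρ`. -/
theorem volume_star [NeZero n] {ρ : E n → ℝ} (hρ : Measurable ρ) (h0 : ∀ b, 0 ≤ ρ b) :
    volume {x : E n | ‖x‖ ≤ ρ (‖x‖⁻¹ • x)} =
      ENNReal.ofReal (kap n) * ∫⁻ b, ENNReal.ofReal (ρ b ^ n) ∂(σ n) := by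
  have hS : MeasurableSet {x : E n | ‖x‖ ≤ ρ (‖x‖⁻¹ • x)} :=
    measurableSet_le measurable_norm (hρ.comp (by fun_prop))
  have hn : (0 : ℝ) < n := Nat.cast_pos.2 (Nat.pos_of_ne_zero (NeZero.ne n))
  rw [← lintegral_indicator_one hS, lintegral_polar (measurable_one.indicator hS)]
  have key : ∀ᵐ b ∂(σ n), (∫⁻ r in Ioi (0 : ℝ), ENNReal.ofReal (r ^ (n - 1)) *
      {x : E n | ‖x‖ ≤ ρ (‖x‖⁻¹ • x)}.indicator 1 (r • b)) =
      ENNReal.ofReal (1 / n) * ENNReal.ofReal (ρ b ^ n) := by
    filter_upwards [ae_norm] with b hb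
    have h1 : ∫⁻ r in Ioi (0 : ℝ), ENNReal.ofReal (r ^ (n - 1)) *
        {x : E n | ‖x‖ ≤ ρ (‖x‖⁻¹ • x)}.indicator 1 (r • b) =
        ∫⁻ r in Ioi (0 : ℝ), (Iic (ρ b)).indicator (fun r => ENNReal.ofReal (r ^ (n - 1))) r := by
      refine setLIntegral_congr_fun measurableSet_Ioi fun r hr => ?_
      have hr' : (0 : ℝ) < r := hr
      have e1 : ‖r • b‖ = r := by simp [norm_smul, hb, abs_of_pos hr']
      have e2 : ‖r • b‖⁻¹ • r • b = b := by
        rw [e1, smul_smul, inv_mul_cancel₀ hr'.ne', one_smul]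
      by_cases h : r ≤ ρ b
      · have hm : r • b ∈ {x : E n | ‖x‖ ≤ ρ (‖x‖⁻¹ • x)} := by
          show ‖r • b‖ ≤ ρ (‖r • b‖⁻¹ • r • b)
          rw [e2, e1]; exact h
        simp only [indicator_of_mem hm, indicator_of_mem (mem_Iic.2 h), Pi.one_apply, mul_one]
      · have hm : r • b ∉ {x : E n | ‖x‖ ≤ ρ (‖x‖⁻¹ • x)} := by
          show ¬ ‖r • b‖ ≤ ρ (‖r • b‖⁻¹ • r • b)
          rw [e2, e1]; exact h
        have hm2 : r ∉ Iic (ρ b) := h
        simp only [indicator_of_notMem hm, indicator_of_notMem hm2, mul_zero]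
    rw [h1, lintegral_indicator measurableSet_Iic, Measure.restrict_restrict measurableSet_Iic,
      inter_comm, Ioi_inter_Iic,
      ← ofReal_integral_eq_lintegral_ofReal (intervalIntegral.intervalIntegrable_pow _).1,
      ← intervalIntegral.integral_of_le (h0 b), integral_pow,
      ← ENNReal.ofReal_mul (by positivity)]
    · have e : n - 1 + 1 = n := Nat.sub_add_cancel (Nat.pos_of_ne_zero (NeZero.ne n))
      have e' : ((n - 1 : ℕ) : ℝ) + 1 = n := by exact_mod_cast e
      rw [e, e', zero_pow (NeZero.ne n)]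
      congr 1
      ring
    · filter_upwards [ae_restrict_mem measurableSet_Ioc] with y hy
      exact pow_nonneg hy.1.le _
  rw [lintegral_congr_ae key, lintegral_const_mul' _ _ ENNReal.ofReal_ne_top, ← mul_assoc,
    ← ENNReal.ofReal_mul (mul_nonneg hn.le (kap_pos n).le)]
  congr 2
  field_simp

open scoped Pointwise in
theorem sph_apply {s : Set (E n)} (hs : MeasurableSet s) :
    σ n s = ((volume : Measure (E n)).toSphere univ)⁻¹ * ((Module.finrank ℝ (E n) : ℝ≥0∞) *
      volume (Ioo (0 : ℝ) 1 • (Metric.sphere (0 : E n) 1 ∩ s))) := by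
  unfold σ
  rw [Measure.smul_apply, sph_emb.map_apply, smul_eq_mul,
    Measure.toSphere_apply' _ (sph_emb.measurable hs), Subtype.image_preimage_coe]

/-- `σ` is invariant under linear isometries. -/
theorem measurePreserving_σ (T : E n ≃ₗᵢ[ℝ] E n) : MeasurePreserving T (σ n) (σ n) := by
  have hT : Measurable T := T.continuous.measurable
  refine ⟨hT, Measure.ext fun s hs => ?_⟩
  rw [Measure.map_apply hT hs, sph_apply (hT hs), sph_apply hs]
  congr 2
  symm
  rw [← T.measurePreserving.measure_preimage_emb T.toHomeomorph.measurableEmbedding]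
  symm
  congr 1
  ext x
  simp only [mem_preimage, mem_smul, mem_inter_iff, mem_sphere_zero_iff_norm]
  constructor
  · rintro ⟨t, ht, y, ⟨hy1, hy2⟩, rfl⟩
    exact ⟨t, ht, T y, ⟨by simpa using hy1, hy2⟩, by simp⟩
  · rintro ⟨t, ht, y, ⟨hy1, hy2⟩, h⟩
    refine ⟨t, ht, T.symm y, ⟨by simpa using hy1, by simpa using hy2⟩, ?_⟩
    apply T.injective
    simpa using h

theorem integral_neg_σ (f : E n → ℝ) : ∫ b, f (-b) ∂(σ n) = ∫ b, f b ∂(σ n) := by
  exact (measurePreserving_σ (LinearIsometryEquiv.neg ℝ (E := E n))).integral_comp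
    (LinearIsometryEquiv.neg ℝ (E := E n)).toHomeomorph.measurableEmbedding f

/-- `σ` has full support on the sphere. -/
theorem eq_of_ae_σ {f g : E n → ℝ} (hf : ContinuousOn f (Metric.sphere 0 1))
    (hg : ContinuousOn g (Metric.sphere 0 1)) (h : ∀ᵐ b ∂(σ n), f b = g b) :
    ∀ b : E n, ‖b‖ = 1 → f b = g b := by
  rw [sph_ae_iff] at h
  have hf' : Continuous fun b : Metric.sphere (0 : E n) 1 => f b.1 :=
    continuousOn_iff_continuous_domRestrict.1 hf
  have hg' : Continuous fun b : Metric.sphere (0 : E n) 1 => g b.1 :=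
    continuousOn_iff_continuous_domRestrict.1 hg
  have := (Continuous.ae_eq_iff_eq (volume : Measure (E n)).toSphere hf' hg').1 h
  intro b hb
  exact congrFun this ⟨b, by simpa using hb⟩

/-- Hyperplanes are `σ`-null. -/
theorem ae_inner_ne_zero [NeZero n] {e : E n} (he : e ≠ 0) : ∀ᵐ b ∂(σ n), inner ℝ b e ≠ 0 := by
  refine ae_σ_of_ae ?_ ?_
  · have h : (ℝ ∙ e)ᗮ ≠ ⊤ := by
      intro h
      have : e ∈ (ℝ ∙ e)ᗮ := by rw [h]; trivial
      rw [Submodule.mem_orthogonal_singleton_iff_inner_left] at this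
      exact he (inner_self_eq_zero.1 this)
    have h0 := Measure.addHaar_submodule (volume : Measure (E n)) _ h
    rw [ae_iff]
    convert h0 using 2
    ext x
    simp [Submodule.mem_orthogonal_singleton_iff_inner_left]
  · intro t x _ h h0
    apply h
    rw [inner_smul_left, h0, mul_zero]

/-- Measurable functions bounded on the sphere are in every `L^p(σ)`. -/
theorem memLp_of_bdd {F : Type*} [NormedAddCommGroup F] {f : E n → F}
    (hf : AEStronglyMeasurable f (σ n)) {C : ℝ} (hC : ∀ b : E n, ‖b‖ = 1 → ‖f b‖ ≤ C) (p : ℝ≥0∞) :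
    MemLp f p (σ n) := by
  refine MemLp.of_bound hf C ?_
  filter_upwards [ae_norm] with b hb
  exact hC b hb

theorem integrable_of_bdd {F : Type*} [NormedAddCommGroup F] {f : E n → F}
    (hf : AEStronglyMeasurable f (σ n)) {C : ℝ} (hC : ∀ b : E n, ‖b‖ = 1 → ‖f b‖ ≤ C) :
    Integrable f (σ n) := by
  exact memLp_one_iff_integrable.1 (memLp_of_bdd hf hC 1)

/-- Functions continuous on the sphere are in every `L^p(σ)`. -/
theorem memLp_of_continuousOn {F : Type*} [NormedAddCommGroup F] {f : E n → F}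
    (hf : ContinuousOn f (Metric.sphere 0 1)) (p : ℝ≥0∞) : MemLp f p (σ n) := by
  obtain ⟨C, hC⟩ := (isCompact_sphere (0 : E n) 1).exists_bound_of_continuousOn hf
  refine memLp_of_bdd ?_ (C := C) (fun b hb => hC b (by simpa using hb)) p
  have h1 : (σ n).restrict (Metric.sphere 0 1) = σ n := by
    apply Measure.restrict_eq_self_of_ae_mem
    filter_upwards [ae_norm] with b hb
    simpa using hb
  rw [← h1]
  exact hf.aestronglyMeasurable Metric.isClosed_sphere.measurableSet

theorem integrable_of_continuousOn {F : Type*} [NormedAddCommGroup F] {f : E n → F}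
    (hf : ContinuousOn f (Metric.sphere 0 1)) : Integrable f (σ n) := by
  exact memLp_one_iff_integrable.1 (memLp_of_continuousOn hf 1)

end Crest.Agent.R230
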